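import Vale.Agent.P014.Defs

/-!
# The real period of `tw k`
-/

namespace Vale.Agent.P014.H71

open WeierstrassCurve MeasureTheory

/-- the real period of the equation `v² = (u - 1)(u + 3)(4u - 5)`, both components -/
noncomputable def omegaStar : ℝ :=
  ∫ u in {u : ℝ | 0 < (u - 1) * (u + 3) * (4 * u - 5)},
    2 / Real.sqrt ((u - 1) * (u + 3) * (4 * u - 5))

theorem psi_tw {n : ℕ} {k : ℤ} (hk : 4 * k + 1 = -(n : ℤ)) (u : ℝ) :
    psi (tw k) (n * u) = n ^ 3 * ((u - 1) * (u + 3) * (4 * u - 5)) := by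
  have hkQ : (k : ℝ) = (-(n : ℝ) - 1) / 4 := by
    have : (4 * k + 1 : ℝ) = -(n : ℝ) := by exact_mod_cast hk
    linarith
  simp only [psi, tw, WeierstrassCurve.b₂, WeierstrassCurve.b₄, WeierstrassCurve.b₆]
  push_cast
  rw [hkQ]; ring

theorem continuous_psi (E : WeierstrassCurve ℚ) : Continuous (psi E) := by
  unfold psi; fun_prop

theorem realPeriod_tw {n : ℕ} (hn : n ≠ 0) {k : ℤ} (hk : 4 * k + 1 = -(n : ℤ)) :
    realPeriod (tw k) = omegaStar / Real.sqrt n := by
  have hn' : (0 : ℝ) < n := by exact_mod_cast Nat.pos_of_ne_zero hn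
  have hS : MeasurableSet {x : ℝ | 0 < psi (tw k) x} :=
    (isOpen_lt continuous_const (continuous_psi _)).measurableSet
  have hS' : MeasurableSet {u : ℝ | 0 < (u - 1) * (u + 3) * (4 * u - 5)} :=
    (isOpen_lt continuous_const (by fun_prop)).measurableSet
  unfold realPeriod omegaStar
  rw [← integral_indicator hS, ← integral_indicator hS']
  set F : ℝ → ℝ := {x : ℝ | 0 < psi (tw k) x}.indicator
    (fun x => 2 / Real.sqrt (psi (tw k) x)) with hF
  set G : ℝ → ℝ := {u : ℝ | 0 < (u - 1) * (u + 3) * (4 * u - 5)}.indicator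
    (fun u => 2 / Real.sqrt ((u - 1) * (u + 3) * (4 * u - 5))) with hG
  have h1 : ∀ u, F (n * u) = (n * Real.sqrt n)⁻¹ * G u := by
    intro u
    have hpos : (0 < psi (tw k) (n * u)) ↔ 0 < (u - 1) * (u + 3) * (4 * u - 5) := by
      rw [psi_tw hk]
      exact mul_pos_iff_of_pos_left (by positivity)
    by_cases h : 0 < (u - 1) * (u + 3) * (4 * u - 5)
    · have hm1 : (n * u : ℝ) ∈ {x : ℝ | 0 < psi (tw k) x} := hpos.mpr h
      have hm2 : u ∈ {u : ℝ | 0 < (u - 1) * (u + 3) * (4 * u - 5)} := h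
      rw [hF, hG, Set.indicator_of_mem hm1, Set.indicator_of_mem hm2, psi_tw hk]
      have h2 : Real.sqrt ((n : ℝ) ^ 3 * ((u - 1) * (u + 3) * (4 * u - 5))) =
          n * Real.sqrt n * Real.sqrt ((u - 1) * (u + 3) * (4 * u - 5)) := by
        rw [Real.sqrt_mul (by positivity)]
        congr 1
        have : (n : ℝ) ^ 3 = n ^ 2 * n := by ring
        rw [this, Real.sqrt_mul (by positivity), Real.sqrt_sq hn'.le]
      rw [h2]
      have h3 : Real.sqrt ((u - 1) * (u + 3) * (4 * u - 5)) ≠ 0 := (Real.sqrt_pos.mpr h).ne'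
      have h4 : Real.sqrt (n : ℝ) ≠ 0 := (Real.sqrt_pos.mpr hn').ne'
      field_simp
    · have hm1 : (n * u : ℝ) ∉ {x : ℝ | 0 < psi (tw k) x} := fun hc => h (hpos.mp hc)
      have hm2 : u ∉ {u : ℝ | 0 < (u - 1) * (u + 3) * (4 * u - 5)} := h
      rw [hF, hG, Set.indicator_of_notMem hm1, Set.indicator_of_notMem hm2, mul_zero]
  have h2 := Measure.integral_comp_mul_left F (n : ℝ)
  simp only [h1] at h2
  rw [integral_const_mul, smul_eq_mul, abs_of_pos (inv_pos.mpr hn')] at h2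
  have h4 : Real.sqrt (n : ℝ) ≠ 0 := (Real.sqrt_pos.mpr hn').ne'
  field_simp at h2 ⊢
  linarith

end Vale.Agent.P014.H71
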