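import Vale.Agent.P014.H71.Sel2

/-!
# The hypotheses in terms of the class group
-/

namespace Vale.Agent.P014.H71

open Vale.Agent.P017.H185 NumberField

theorem isSquare_neg_one {p : ℕ} [Fact p.Prime] (h : p % 4 = 1) : IsSquare (-1 : ZMod p) :=
  ZMod.exists_sq_eq_neg_one_iff.mpr (by omega)

theorem redei_of_cl {K : Type*} [Field K] [NumberField K] {n q₀ : ℕ} (q : QF K n)
    (H : Hyp0 n q₀) (hcl : ∀ c : ClassGroup (𝓞 K), orderOf c ≠ 4) : Redei n := by
  intro a ha hloc
  have hn0 : 0 < n := Nat.pos_of_ne_zero H.n0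
  have hd : a * (n / a) = n := Nat.mul_div_cancel' ha
  have hdZ : (a : ℤ) * ((n / a : ℕ) : ℤ) = n := by exact_mod_cast hd
  have hb8 : ∀ b : ℤ, Ram n 2 → b % 8 = 1 := by
    intro b hr
    exfalso
    rcases hr with h | ⟨-, h⟩
    · have := H.odd_of_dvd h
      omega
    · exact h H.n4
  have hnot : ∀ p : ℕ, p.Prime → p ∣ n / a → ¬ p ∣ a := by
    intro p hp h1 h2
    have : p * p ∣ n := by rw [← hd]; exact Nat.mul_dvd_mul h2 h1
    exact hp.not_isUnit (H.sqf p this)
  have hpn : ∀ p : ℕ, p ∣ n / a → p ∣ n := fun p h => h.trans (Nat.div_dvd_of_dvd ha)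
  by_cases h4 : q₀ ∣ a
  · -- `a = 3 mod 4`
    have ha4 := H.mod4_of_dvd ha h4
    have hres := q.second_trivial hcl (b := -(a : ℤ)) (b' := ((n / a : ℕ) : ℤ))
      (by rw [neg_mul, hdZ]) (by omega) (hb8 _) ?_ ?_
    · rcases hres with h5 | h5
      · exfalso; omega
      · right
        have h6 : n / a = 1 := by exact_mod_cast h5
        rw [h6, mul_one] at hd; exact hd
    · intro p hp hp2 hpa
      rw [Int.dvd_neg, Int.natCast_dvd_natCast] at hpa
      have := (hloc p hp (hpa.trans ha)).2 hpa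
      rw [Int.cast_natCast]; exact this
    · intro p hp hp2 hpa
      rw [Int.natCast_dvd_natCast] at hpa
      have := Fact.mk hp
      have h6 := (hloc p hp (hpn p hpa)).1 (hnot p hp hpa)
      have h7 : p % 4 = 1 := H.uniq p hp (hpn p hpa) (by
        rintro rfl; exact hnot p hp hpa h4)
      have h8 := (isSquare_neg_one h7).mul h6
      simpa using h8
  · have ha4 := H.mod4_of_not_dvd ha h4
    have hres := q.second_trivial hcl (b := (a : ℤ)) (b' := -((n / a : ℕ) : ℤ))
      (by rw [mul_neg, hdZ]) (by omega) (hb8 _) ?_ ?_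
    · rcases hres with h5 | h5
      · left; exact_mod_cast h5
      · exfalso
        have h6 : (0 : ℤ) ≤ ((n / a : ℕ) : ℤ) := Int.natCast_nonneg _
        generalize ((n / a : ℕ) : ℤ) = z at h5 h6
        omega
    · intro p hp hp2 hpa
      rw [Int.natCast_dvd_natCast] at hpa
      have := Fact.mk hp
      have h6 := (hloc p hp (hpa.trans ha)).2 hpa
      have h7 : p % 4 = 1 := H.uniq p hp (hpa.trans ha) (by rintro rfl; exact h4 hpa)
      have h8 := (isSquare_neg_one h7).mul h6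
      rw [neg_one_mul] at h8
      rw [Int.cast_neg, Int.cast_natCast]; simpa using h8
    · intro p hp hp2 hpa
      rw [Int.dvd_neg, Int.natCast_dvd_natCast] at hpa
      have := (hloc p hp (hpn p hpa)).1 (hnot p hp hpa)
      rw [Int.cast_natCast]; exact this

/-- the hypotheses of the main theorem -/
theorem hyp_of {K : Type*} [Field K] [NumberField K] {n : ℕ} (q : QF K n) (h4 : n % 4 = 3)
    (hq : ∃! q : ℕ, q.Prime ∧ q ∣ n ∧ q % 4 = 3) (h17 : ¬ IsSquare (n : ZMod 17))
    (hcl : ∀ c : ClassGroup (𝓞 K), orderOf c ≠ 4) : ∃ q₀, Hyp n q₀ := by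
  obtain ⟨q₀, ⟨hq₀, hq₀n, hq₀4⟩, huniq⟩ := hq
  have H0 : Hyp0 n q₀ := by
    refine ⟨q.hd, h4, hq₀, hq₀n, hq₀4, fun q hqp hqn hne => ?_⟩
    have hodd : q % 2 = 1 := by
      by_contra hc
      have h2 : 2 ∣ q := by omega
      have := h2.trans hqn
      omega
    by_contra hc
    exact hne (huniq q ⟨hqp, hqn, by omega⟩)
  have hn17 : (n : ZMod 17) ≠ 0 := by
    intro hc; apply h17; rw [hc]; exact ⟨0, by simp⟩
  refine ⟨q₀, H0, ?_, ?_, redei_of_cl q H0 hcl⟩
  · intro hc
    exact hn17 ((ZMod.natCast_eq_zero_iff n 17).mpr hc)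
  · intro _
    rw [legendreSym.eq_neg_one_iff]
    simpa using h17

end Vale.Agent.P014.H71
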