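import Vale.Agent.P014.H74.C1

/-!
# The number of squares in a class group without elements of order four
-/

namespace Vale.Agent.P014.H71

open Vale.Agent.P014.H74

theorem nsq_odd {C : Type} [CommGroup C] [Fintype C] (h : ∀ c : C, orderOf c ≠ 4) :
    Odd (nsq C) := by
  classical
  have e1 : nsq C = Nat.card (powMonoidHom 2 : C →* C).range := by
    unfold nsq
    rw [Nat.card_eq_fintype_card, Fintype.card_subtype]
    congr 1
    ext x
    simp only [Finset.mem_filter, Finset.mem_univ, true_and, MonoidHom.mem_range,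
      powMonoidHom_apply]
    constructor
    · rintro ⟨y, hy⟩; exact ⟨y, by rw [hy, sq]⟩
    · rintro ⟨y, hy⟩; exact ⟨y, by rw [← hy, sq]⟩
  rw [e1, ← Nat.not_even_iff_odd]
  intro hev
  have : Fact (Nat.Prime 2) := ⟨Nat.prime_two⟩
  obtain ⟨x, hx⟩ := exists_prime_orderOf_dvd_card' (G := (powMonoidHom 2 : C →* C).range) 2
    hev.two_dvd
  obtain ⟨y, hy⟩ := x.2
  rw [powMonoidHom_apply] at hy
  apply h y
  have h1 : orderOf (y ^ 2) = 2 := by rw [hy, Subgroup.orderOf_coe]; exact hx
  have h2 : y ^ 4 = 1 := by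
    have := pow_orderOf_eq_one (y ^ 2)
    rw [h1, ← pow_mul] at this
    exact this
  have h3 : ¬ y ^ 2 = 1 := by
    intro h0; rw [h0, orderOf_one] at h1; omega
  exact orderOf_eq_prime_pow (p := 2) (n := 1) (by simpa using h3) (by simpa using h2)

end Vale.Agent.P014.H71
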