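import Vale.Agent.P014.H71.Sel6
import Vale.Agent.P014.H71.HypCl
import Vale.Agent.P014.H71.Nsq

/-!
# Rédei's criterion in terms of the cofactors of the Laplacian
-/

namespace Vale.Agent.P014.H71

open Vale.Agent.P017.H185 NumberField

section lin

variable {T : Type*} [Fintype T] [DecidableEq T]

/-- a cofactor is nonzero if and only if the kernel is as small as possible -/
theorem adjugate_ne_zero_iff {M : Matrix T T (ZMod 2)} (h1 : M.mulVec 1 = 0)
    (h2 : M.transpose.mulVec 1 = 0) (p : T) :
    M.adjugate p p ≠ 0 ↔ ∀ v, M.mulVec v = 0 → v = 0 ∨ v = 1 := by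
  have hcol : ∀ v : T → ZMod 2, ∑ i, M.mulVec v i = 0 := by
    intro v
    have h3 : ∑ i, M.mulVec v i = dotProduct 1 (M.mulVec v) := by simp [dotProduct]
    rw [h3, Matrix.dotProduct_mulVec, ← Matrix.mulVec_transpose, h2, zero_dotProduct]
  have hrow : ∀ v : T → ZMod 2, (M.updateRow p (Pi.single p 1)).mulVec v = 0 ↔
      v p = 0 ∧ M.mulVec v = 0 := by
    intro v
    have e1 : ∀ i, i ≠ p → (M.updateRow p (Pi.single p 1)).mulVec v i = M.mulVec v i := by
      intro i hi
      change dotProduct ((M.updateRow p (Pi.single p 1)) i) v = dotProduct (M i) v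
      rw [Matrix.updateRow_ne hi]
    have e2 : (M.updateRow p (Pi.single p 1)).mulVec v p = v p := by
      change dotProduct ((M.updateRow p (Pi.single p 1)) p) v = v p
      rw [Matrix.updateRow_self, single_dotProduct, one_mul]
    constructor
    · intro h
      have h3 : v p = 0 := by rw [← e2, h]; rfl
      refine ⟨h3, ?_⟩
      have h4 : ∀ i, i ≠ p → M.mulVec v i = 0 := by
        intro i hi
        rw [← e1 i hi, h]; rfl
      have h5 : M.mulVec v p = 0 := by
        have := hcol v
        rw [← Finset.add_sum_erase _ _ (Finset.mem_univ p),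
          Finset.sum_eq_zero (fun i hi => h4 i (Finset.ne_of_mem_erase hi)), add_zero] at this
        exact this
      funext i
      by_cases hi : i = p
      · rw [hi, h5]; rfl
      · rw [h4 i hi]; rfl
    · rintro ⟨h3, h4⟩
      funext i
      by_cases hi : i = p
      · rw [hi, e2, h3]; rfl
      · rw [e1 i hi, h4]
  rw [Matrix.adjugate_apply]
  constructor
  · intro hdet v hv
    have hz : ∀ v, M.mulVec v = 0 → v p = 0 → v = 0 := by
      intro v hv hp
      by_contra hne
      exact hdet (Matrix.exists_mulVec_eq_zero_iff.mp ⟨v, hne, (hrow v).mpr ⟨hp, hv⟩⟩)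
    have h01 : v p = 0 ∨ v p = 1 := by
      have : ∀ z : ZMod 2, z = 0 ∨ z = 1 := by decide
      exact this _
    rcases h01 with h | h
    · exact Or.inl (hz v hv h)
    · right
      have h5 : v - 1 = 0 := by
        apply hz
        · rw [Matrix.mulVec_sub, hv, h1, sub_zero]
        · rw [Pi.sub_apply, h]; simp
      exact sub_eq_zero.mp h5
  · intro h hdet
    obtain ⟨v, hne, hv⟩ := Matrix.exists_mulVec_eq_zero_iff.mpr hdet
    obtain ⟨h3, h4⟩ := (hrow v).mp hv
    rcases h v h4 with h5 | h5
    · exact hne h5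
    · rw [h5] at h3
      exact one_ne_zero h3

end lin

section lapl

variable {n : ℕ}

theorem lap_one (w : ℕ → ℕ → ZMod 2) (T : Finset ℕ) : (Lap w T).mulVec 1 = 0 := by
  funext p
  have h := lap_mulVec w T (fun _ => 1) p
  have h1 : (Lap w T).mulVec (fun _ => 1) = (Lap w T).mulVec 1 := rfl
  rw [h1] at h
  rw [h]
  apply Finset.sum_eq_zero
  intro q _
  rw [show (1 + 1 : ZMod 2) = 0 from by decide, mul_zero]

theorem lap_transpose_one (hn : Squarefree n) (hn4 : n % 4 = 3) :
    (Lap wP n.primeFactors).transpose.mulVec 1 = 0 := by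
  funext p
  have h := lap_transpose_mulVec wP n.primeFactors (fun _ => 1) p
  have h1 : (Lap wP n.primeFactors).transpose.mulVec (fun _ => 1) =
    (Lap wP n.primeFactors).transpose.mulVec 1 := rfl
  rw [h1] at h
  rw [h]
  have h2 : ∑ q ∈ n.primeFactors.erase p, (wP p q * 1 + wP q p * 1) =
      eP p * ∑ q ∈ n.primeFactors.erase p, eP q := by
    rw [Finset.mul_sum]
    refine Finset.sum_congr rfl fun q hq => ?_
    rw [Finset.mem_erase] at hq
    rw [wP_recip (n := n) (by omega) p.2 hq.2 (Ne.symm hq.1)]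
    have two : ∀ z : ZMod 2, z + z = 0 := CharTwo.add_self_eq_zero
    linear_combination two (wP p q)
  rw [h2, sum_eP_erase hn hn4 p.2]
  rw [Pi.zero_apply]
  unfold eP
  split_ifs <;> decide

/-- the kernel of the Laplacian of the symbols is as small as possible -/
def KerL (n : ℕ) : Prop := ∀ v, (Lap wP n.primeFactors).mulVec v = 0 → v = 0 ∨ v = 1

theorem kerL_of_cl {K : Type*} [Field K] [NumberField K] (q : QF K n) (hn4 : n % 4 = 3)
    (hcl : ∀ c : ClassGroup (𝓞 K), orderOf c ≠ 4) : KerL n := by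
  intro v hv
  have hn := q.hd
  have hn2 : n % 2 = 1 := by omega
  have hodd : ∀ m, m ∣ n → m % 2 = 1 := by
    intro m hm
    by_contra hc
    have h3 : 2 ∣ m := by omega
    have := h3.trans hm
    omega
  obtain ⟨a, ha, hX⟩ := exists_ind (n := n) v
  have hb : n / a ∣ n := Nat.div_dvd_of_dvd ha
  have hab : a * (n / a) = n := Nat.mul_div_cancel' ha
  have hsa := hn.squarefree_of_dvd ha
  have hsb := hn.squarefree_of_dvd hb
  have hv' : v = fun q : n.primeFactors => ind a q := by funext q; exact (hX q).symm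
  have hker : ∀ (p : ℕ) [Fact p.Prime], p ∣ n →
      (if p ∣ a then lg p (astar (n / a)) else lg p (astar a)) = 0 := by
    intro p hpf hpn
    have hp2 : p ≠ 2 := by have := hodd p hpn; rintro rfl; omega
    have h1 := lap_mulVec wP n.primeFactors (fun q => ind a q)
      ⟨p, Nat.mem_primeFactors.mpr ⟨hpf.out, hpn, hn.ne_zero⟩⟩
    rw [← hv', hv] at h1
    have h2 := lap_ind hn ha hpn hp2 hn2
    simp only [Pi.zero_apply] at h1
    rw [← h1] at h2
    split_ifs at h2 ⊢ with hpa
    · have hpb : ¬ p ∣ n / a := by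
        intro hc
        have : p * p ∣ n := by rw [← hab]; exact Nat.mul_dvd_mul hpa hc
        exact hpf.out.not_isUnit (hn p this)
      rw [lg_astar hp2 hsb (hodd _ hb) hpb]; exact h2.symm
    · rw [lg_astar hp2 hsa (hodd _ ha) hpa]; exact h2.symm
  have hprod : astar a * astar (n / a) = -(n : ℤ) := by
    rw [astar_eq hsa (hodd _ ha), astar_eq hsb (hodd _ hb)]
    have h1 : (a : ℤ) * ((n / a : ℕ) : ℤ) = n := by exact_mod_cast hab
    have h2 := hodd _ ha
    have h3 := hodd _ hb
    have h4 : (a * (n / a)) % 4 = 3 := by rw [hab]; exact hn4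
    rw [Nat.mul_mod] at h4
    have b1 : a % 4 = 1 ∨ a % 4 = 3 := by omega
    have b2 : (n / a) % 4 = 1 ∨ (n / a) % 4 = 3 := by omega
    rcases b1 with b1 | b1 <;> rcases b2 with b2 | b2 <;> rw [b1, b2] at h4
    · norm_num at h4
    · rw [if_neg (by omega), if_pos b2]; linear_combination -h1
    · rw [if_pos b1, if_neg (by omega)]; linear_combination -h1
    · norm_num at h4
  have hsq : ∀ (p : ℕ), p.Prime → ∀ z : ℤ, lg p z = 0 → ¬ (p : ℤ) ∣ z → IsSquare (z : ZMod p) := by
    intro p hp z hz hpz
    have := Fact.mk hp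
    exact (legendreSym.eq_one_iff p (by rwa [Ne, ZMod.intCast_zmod_eq_zero_iff_dvd])).mp
      ((lg_eq_zero_iff hpz).mp hz)
  have hdvd : ∀ {p m : ℕ}, Squarefree m → ((p : ℤ) ∣ astar m ↔ p ∣ m) := by
    intro p m hm
    rw [← Int.natCast_dvd_natCast, ← Int.dvd_natAbs (b := astar m), astar_natAbs hm]
  have hexcl : ∀ {p : ℕ}, p.Prime → p ∣ a → ¬ p ∣ n / a := by
    intro p hp hpa hc
    have := Nat.mul_dvd_mul hpa hc
    rw [hab] at this
    exact hp.not_isUnit (hn p this)
  have hres := q.second_trivial hcl (b := astar a) (b' := astar (n / a)) hprod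
    (astar_mod (hodd _ ha)) (fun hr => by
      exfalso
      rcases hr with h | ⟨-, h⟩
      · have := hodd 2 h; omega
      · exact h hn4) ?_ ?_
  · rcases hres with h | h
    · left
      have h1 : a = 1 := by rw [← astar_natAbs hsa, h]; rfl
      rw [hv', h1]
      funext q
      have := Nat.prime_of_mem_primeFactors q.2
      simp only [ind, Pi.zero_apply]
      rw [if_neg]
      intro hc
      exact this.one_lt.ne' (Nat.dvd_one.mp hc)
    · right
      have h1 : n / a = 1 := by rw [← astar_natAbs hsb, h]; rfl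
      rw [h1, mul_one] at hab
      rw [hv', hab]
      funext q
      simp only [ind, Pi.one_apply]
      rw [if_pos (Nat.dvd_of_mem_primeFactors q.2)]
  · intro p hp hp2 hpa
    rw [hdvd hsa] at hpa
    have := Fact.mk hp
    have h1 := hker p (hpa.trans ha)
    rw [if_pos hpa] at h1
    exact hsq p hp _ h1 (by rw [hdvd hsb]; exact hexcl hp hpa)
  · intro p hp hp2 hpb
    rw [hdvd hsb] at hpb
    have := Fact.mk hp
    have hpa : ¬ p ∣ a := fun h => hexcl hp h hpb
    have h1 := hker p (hpb.trans hb)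
    rw [if_neg hpa] at h1
    exact hsq p hp _ h1 (by rw [hdvd hsa]; exact hpa)

theorem redei_of_kerLT (hn : Squarefree n) (hn4 : n % 4 = 3)
    (h : ∀ v, (Lap wP n.primeFactors).transpose.mulVec v = 0 → v = 0 ∨ v = 1) : Redei n := by
  have hn2 : n % 2 = 1 := by omega
  have two : ∀ z : ZMod 2, z + z = 0 := CharTwo.add_self_eq_zero
  have hodd : ∀ m, m ∣ n → m % 2 = 1 := by
    intro m hm
    by_contra hc
    have h3 : 2 ∣ m := by omega
    have := h3.trans hm
    omega
  intro a ha hloc
  have hb : n / a ∣ n := Nat.div_dvd_of_dvd ha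
  have hab : a * (n / a) = n := Nat.mul_div_cancel' ha
  have hepn : ep n = 1 := by simp [ep, hn4]
  have hepd : ep (n / a) = 1 + ep a := by
    have h2 := ep_mul (hodd _ ha) (hodd _ hb)
    rw [hab, hepn] at h2
    linear_combination -h2 - two (ep a)
  -- the vector
  have hker : (Lap wP n.primeFactors).transpose.mulVec
      (fun q : n.primeFactors => ind a q + ep a) = 0 := by
    funext p
    have hpf : Fact (p : ℕ).Prime := ⟨Nat.prime_of_mem_primeFactors p.2⟩
    have hpn := Nat.dvd_of_mem_primeFactors p.2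
    have hp2 : (p : ℕ) ≠ 2 := by have := hodd p hpn; intro hc; omega
    rw [lap_transpose_mulVec wP n.primeFactors (fun q => ind a q + ep a) p,
      sum_erase_transpose hn hn4 p.2 ha (ep a), lap_ind hn ha hpn hp2 hn2, Pi.zero_apply]
    obtain ⟨l1, l2⟩ := hloc p hpf.out hpn
    have hlg : ∀ m : ℕ, IsSquare (m : ZMod p) → ¬ (p : ℕ) ∣ m → lg p m = 0 := by
      intro m hm hpm
      apply lg_eq_zero
      rw [legendreSym.eq_one_iff]
      · simpa using hm
      · rwa [Ne, ZMod.intCast_zmod_eq_zero_iff_dvd, Int.natCast_dvd_natCast]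
    by_cases hpa : (p : ℕ) ∣ a
    · have hpb : ¬ (p : ℕ) ∣ n / a := by
        intro hc
        have := (Nat.mul_dvd_mul hpa hc).trans hab.dvd
        exact hpf.out.not_isUnit (hn p this)
      have i1 : ind a p = 1 := if_pos hpa
      rw [if_pos hpa, hlg _ (l2 hpa) hpb, i1, hepd]
      linear_combination two (eP p * (1 + ep a))
    · have i1 : ind a p = 0 := if_neg hpa
      rw [if_neg hpa, hlg _ (l1 hpa) hpa, i1]
      linear_combination two (ep a * eP p)
  have hz : ∀ c : ZMod 2, c = 0 ∨ c = 1 := by decide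
  rcases h _ hker with h1 | h1
  · rcases hz (ep a) with he | he
    · left
      refine eq_of_ind_eq_zero hn ha fun q hq => ?_
      have := congrFun h1 ⟨q, hq⟩
      rw [he] at this
      simpa using this
    · right
      refine eq_of_ind_eq_one hn ha fun q hq => ?_
      have := congrFun h1 ⟨q, hq⟩
      rw [he] at this
      exact CharTwo.add_eq_zero.mp this
  · rcases hz (ep a) with he | he
    · right
      refine eq_of_ind_eq_one hn ha fun q hq => ?_
      have := congrFun h1 ⟨q, hq⟩
      rw [he] at this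
      simpa using this
    · left
      refine eq_of_ind_eq_zero hn ha fun q hq => ?_
      have := congrFun h1 ⟨q, hq⟩
      rw [he] at this
      simpa using this

/-- no element of order four if and only if a cofactor is nonzero -/
theorem cl_iff {K : Type*} [Field K] [NumberField K] (q : QF K n) (hn4 : n % 4 = 3)
    (p : n.primeFactors) :
    (∀ c : ClassGroup (𝓞 K), orderOf c ≠ 4) ↔ (Lap wP n.primeFactors).adjugate p p ≠ 0 := by
  have e1 := lap_one wP n.primeFactors
  have e2 := lap_transpose_one q.hd hn4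
  constructor
  · intro h
    exact (adjugate_ne_zero_iff e1 e2 p).mpr (kerL_of_cl q hn4 h)
  · intro h
    have h' : (Lap wP n.primeFactors).transpose.adjugate p p ≠ 0 := by
      rw [← Matrix.adjugate_transpose, Matrix.transpose_apply]; exact h
    exact q.no_order_four hn4 (redei_of_kerLT q.hd hn4
      ((adjugate_ne_zero_iff e2 (by rw [Matrix.transpose_transpose]; exact e1) p).mp h'))

end lapl

open Vale.Agent.P014.H74 in
theorem nsq_odd_iff {C : Type} [CommGroup C] [Fintype C] :
    Odd (nsq C) ↔ ∀ c : C, orderOf c ≠ 4 := by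
  classical
  refine ⟨fun hodd c hc => ?_, nsq_odd⟩
  have e1 : nsq C = Nat.card (powMonoidHom 2 : C →* C).range := by
    unfold nsq
    rw [Nat.card_eq_fintype_card, Fintype.card_subtype]
    congr 1
    ext x
    simp only [Finset.mem_filter, Finset.mem_univ, true_and, MonoidHom.mem_range,
      powMonoidHom_apply]
    constructor
    · rintro ⟨y, hy⟩; exact ⟨y, by rw [hy, sq]⟩
    · rintro ⟨y, hy⟩; exact ⟨y, by rw [← hy, sq]⟩
  rw [e1] at hodd
  have h1 : orderOf (c ^ 2) = 2 := by
    rw [orderOf_pow, hc]; norm_num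
  have h2 : orderOf (⟨c ^ 2, ⟨c, rfl⟩⟩ : (powMonoidHom 2 : C →* C).range) = 2 :=
    (Subgroup.orderOf_coe _).symm.trans h1
  have h3 := orderOf_dvd_natCard (⟨c ^ 2, ⟨c, rfl⟩⟩ : (powMonoidHom 2 : C →* C).range)
  rw [h2] at h3
  exact (Nat.not_even_iff_odd.mpr hodd) (even_iff_two_dvd.mpr h3)

/-- the parity of the number of squares -/
def gP (n : ℕ) : ZMod 2 := (∑ q ∈ n.primeFactors, eP q) *
  ∑ p : n.primeFactors, sP p * (Lap wP n.primeFactors).adjugate p p

/-- **[RED]** -/
theorem red {K : Type} [Field K] [NumberField K] {n : ℕ} (q : QF K n) (hn4 : n % 4 = 3)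
    (h17 : jacobiSym n 17 = -1) : ((H74.nsq (ClassGroup (𝓞 K)) : ℕ) : ZMod 2) = gP n := by
  classical
  have h17f : Fact (Nat.Prime 17) := ⟨by norm_num⟩
  have hn := q.hd
  have he : ∑ q ∈ n.primeFactors, eP q = 1 := by
    have h1 := sum_eP_ind hn (by omega) (dvd_refl n)
    have h2 : ∑ q ∈ n.primeFactors, eP q * ind n q = ∑ q ∈ n.primeFactors, eP q := by
      refine Finset.sum_congr rfl fun q hq => ?_
      rw [ind, if_pos (Nat.dvd_of_mem_primeFactors hq), mul_one]
    rw [h2] at h1
    rw [h1]; simp [ep, hn4]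
  have h17n : ¬ 17 ∣ n := by
    intro hc
    have : jacobiSym n 17 = 0 := by
      rw [jacobiSym.eq_zero_iff_not_coprime]
      intro h1
      have h2 : (17 : ℕ) ∣ Int.gcd n ((17 : ℕ) : ℤ) := Nat.dvd_gcd (by simpa using hc) (by norm_num)
      rw [h1] at h2
      norm_num at h2
    rw [this] at h17
    norm_num at h17
  have hs : ∑ p : n.primeFactors, sP p = 1 := by
    rw [Finset.sum_coe_sort n.primeFactors (fun p => sP p)]
    have h1 : ∑ p ∈ n.primeFactors, sP p = ∑ p ∈ n.primeFactors, lg 17 p := rfl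
    rw [h1, ← lg_prod]
    · have h2 : (∏ q ∈ n.primeFactors, (q : ℤ)) = n := by
        rw [← Nat.cast_prod, Nat.prod_primeFactors_of_squarefree hn]
      rw [h2, lg, if_pos h17]
    · intro q hq hc
      rw [Int.natCast_dvd_natCast] at hc
      exact h17n (hc.trans (Nat.dvd_of_mem_primeFactors hq))
  have hz : ∀ c : ZMod 2, c ≠ 0 → c = 1 := by decide
  unfold gP
  rw [he, one_mul]
  by_cases hcl : ∀ c : ClassGroup (𝓞 K), orderOf c ≠ 4
  · have h1 : ((H74.nsq (ClassGroup (𝓞 K)) : ℕ) : ZMod 2) = 1 :=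
      (ZMod.natCast_eq_one_iff_odd).mpr (nsq_odd_iff.mpr hcl)
    rw [h1]
    have h2 : ∀ p : n.primeFactors, sP p * (Lap wP n.primeFactors).adjugate p p = sP p := by
      intro p
      rw [hz _ ((cl_iff q hn4 p).mp hcl), mul_one]
    simp only [h2]
    exact hs.symm
  · have h1 : ((H74.nsq (ClassGroup (𝓞 K)) : ℕ) : ZMod 2) = 0 := by
      rw [ZMod.natCast_eq_zero_iff_even, ← Nat.not_odd_iff_even]
      exact fun h => hcl (nsq_odd_iff.mp h)
    rw [h1]
    symm
    apply Finset.sum_eq_zero
    intro p _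
    have h2 : (Lap wP n.primeFactors).adjugate p p = 0 := by
      by_contra hc
      exact hcl ((cl_iff q hn4 p).mpr hc)
    rw [h2, mul_zero]

end Vale.Agent.P014.H71
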