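import Vale.Agent.P014.H71.ChiAdd
import Vale.Agent.P014.H71.RedMat
import Vale.Agent.P014.H483.Exp5
import Vale.Agent.P014.H581.BDCl
import Vale.Agent.P014.H70.Glue
import Vale.Agent.P014.H74.F4

/-!
# The inputs of the recursion
-/

namespace Vale.Agent.P014.H71

open NumberField Vale.Agent.P017.H185
open Vale.Agent.P014.H74 (Dm BD BD3 ChiAdd nsq Inp Ex D1)
open Vale.Agent.P014.H70 (Kn qf)

open scoped Classical in
/-- the symbols, modified at even numbers and at numbers which are not primes -/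
noncomputable def wF (i j : ℕ) : ZMod 2 :=
  if (i.Prime ∧ i ≠ 2) ∧ (j.Prime ∧ j ≠ 2) then wP i j else if i < j then 0 else eP i * eP j

theorem wF_symm (i j : ℕ) (h : i ≠ j) : wF j i = wF i j + eP i * eP j := by
  have two : ∀ z : ZMod 2, z + z = 0 := CharTwo.add_self_eq_zero
  by_cases hij : (i.Prime ∧ i ≠ 2) ∧ (j.Prime ∧ j ≠ 2)
  · obtain ⟨hi, hj⟩ := hij
    have e1 : wF j i = wP j i := if_pos ⟨hj, hi⟩
    have e2 : wF i j = wP i j := if_pos ⟨hi, hj⟩
    rw [e1, e2]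
    have hi2 := hi.1.eq_two_or_odd.resolve_left hi.2
    have hj2 := hj.1.eq_two_or_odd.resolve_left hj.2
    have hne : i * j ≠ 0 := mul_ne_zero hi.1.ne_zero hj.1.ne_zero
    refine wP_recip (n := i * j) ?_ ?_ ?_ h
    · rw [Nat.mul_mod, hi2, hj2]
    · exact Nat.mem_primeFactors.mpr ⟨hi.1, dvd_mul_right _ _, hne⟩
    · exact Nat.mem_primeFactors.mpr ⟨hj.1, dvd_mul_left _ _, hne⟩
  · have e1 : wF j i = if j < i then 0 else eP j * eP i := if_neg (fun h => hij ⟨h.2, h.1⟩)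
    have e2 : wF i j = if i < j then 0 else eP i * eP j := if_neg hij
    rw [e1, e2]
    rcases lt_or_gt_of_ne h with h1 | h1
    · rw [if_neg (by omega), if_pos h1, zero_add, mul_comm]
    · rw [if_pos h1, if_neg (by omega), two]

theorem wF_eq {n : ℕ} (hn : n % 2 = 1) : ∀ i ∈ n.primeFactors, ∀ j ∈ n.primeFactors, i ≠ j →
    wF i j = wP i j := by
  intro i hi j hj _
  have h1 : ∀ p ∈ n.primeFactors, p.Prime ∧ p ≠ 2 := by
    intro p hp
    refine ⟨Nat.prime_of_mem_primeFactors hp, ?_⟩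
    rintro rfl
    have := Nat.dvd_of_mem_primeFactors hp
    omega
  unfold wF
  rw [if_pos ⟨h1 i hi, h1 j hj⟩]

/-- the determinants -/
noncomputable def DF (T : Finset ℕ) : ZMod 2 := (NMat sP eP wF T).det

/-- the weights of the blocks -/
noncomputable def gF (T : Finset ℕ) : ZMod 2 := H483.gB sP eP wF T

theorem DF_eq {n : ℕ} (hn : n % 2 = 1) : DF n.primeFactors = (NP n).det := by
  unfold DF NP
  rw [H483.NMat_congr (s' := sP) (e' := eP) (w' := wP) (fun _ _ => rfl) (fun _ _ => rfl)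
    (wF_eq hn)]

theorem gF_eq {n : ℕ} (hn : n % 2 = 1) : gF n.primeFactors = gP n := by
  unfold gF gP H483.gB
  rw [H483.Lap_congr (wF_eq hn)]

theorem ex_F : Ex eP sP DF gF where
  empty := H483.det_empty _ _ _
  rcs T q hq := H483.exp_rec sP eP wF T q hq
  gpar B hB := (H483.gB_ne_zero sP eP wF wF_symm B hB).1
  gpar2 B hB := (H483.gB_ne_zero sP eP wF wF_symm B hB).2

theorem gF_prime {q : ℕ} (h : Dm q) : gF {q} = 1 := by
  unfold gF
  rw [H483.gB_eq sP eP wF wF_symm {q} ⟨q, Finset.mem_singleton_self q⟩, Finset.sum_singleton,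
    Finset.sum_singleton, Matrix.adjugate_subsingleton, Matrix.one_apply_eq, mul_one]
  have h1 : eP q = 1 := if_pos h.1
  have h2 : sP q = 1 := if_pos h.2.2
  rw [h1, h2, one_mul]

theorem bd_F {n : ℕ} (hn : Dm n) (h3 : 3 < n) : ∃ (C : Type) (_ : CommGroup C) (_ : Fintype C)
    (phi : C → ℤ) (chi : ℕ → C → ℤ), BD n C phi chi ∧ ChiAdd n chi ∧
      ((nsq C : ℕ) : ZMod 2) = gF n.primeFactors := by
  obtain ⟨l, r, phi, h⟩ := H70.exists_theta (q := qf n hn.2.1) hn.1 hn.2.2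
  refine ⟨ClassGroup (𝓞 (Kn n)), inferInstance, inferInstance, phi, H581.chi (qf n hn.2.1),
    H581.BD_of_Theta hn.1 hn.2.2 h3 h, chiAdd (qf n hn.2.1), ?_⟩
  rw [gF_eq (by have := hn.1; omega), red (qf n hn.2.1) hn.1 hn.2.2]

theorem inp_F (hbd3 : ∀ n, Dm n → n % 3 = 1 → ∃ (y : ClassGroup (𝓞 (Kn n)) → ℤ)
    (chi : ℕ → ClassGroup (𝓞 (Kn n)) → ℤ), BD3 n (ClassGroup (𝓞 (Kn n))) y chi) : Inp DF gF where
  ex := ex_F
  g1 _ _ h := gF_prime h
  bd _ hn h3 := bd_F hn h3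
  bd3 n hn h3 := by
    obtain ⟨y, chi, h⟩ := hbd3 n hn h3
    refine ⟨ClassGroup (𝓞 (Kn n)), inferInstance, inferInstance, y, chi, h, ?_⟩
    rw [gF_eq (by have := hn.1; omega), red (qf n hn.2.1) hn.1 hn.2.2]

end Vale.Agent.P014.H71
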