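import Vale.Agent.P014.H71.Sel7

/-!
# Triviality of the Selmer group from the triviality of `Sha[2]` and the finiteness of `E(ℚ)`
-/

namespace Vale.Agent.P014.H71

open WeierstrassCurve
open scoped Classical

/-- the map from `E(ℚ)` to `E(ℚ̄)` -/
noncomputable def bcQ (W : WeierstrassCurve ℚ) : W.toAffine.Point →+ Pbar W :=
  (Affine.Point.map (W' := W) (Algebra.ofId ℚ (AlgebraicClosure ℚ)) :
    (W⁄ℚ).toAffine.Point →+ Pbar W)

theorem act_bcQ (W : WeierstrassCurve ℚ) (σ : GQ) (P : W.toAffine.Point) :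
    act W σ (bcQ W P) = bcQ W P := by
  rcases P with _ | ⟨x, y, hxy⟩
  · change act W σ (bcQ W 0) = bcQ W 0
    rw [_root_.map_zero, _root_.map_zero]
  · change act W σ (Affine.Point.map (W' := W) (Algebra.ofId ℚ (AlgebraicClosure ℚ))
      (Affine.Point.some x y hxy : (W⁄ℚ).toAffine.Point)) =
      Affine.Point.map (W' := W) (Algebra.ofId ℚ (AlgebraicClosure ℚ))
      (Affine.Point.some x y hxy : (W⁄ℚ).toAffine.Point)
    have h1 : (σ : AlgebraicClosure ℚ →ₐ[ℚ] AlgebraicClosure ℚ).comp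
        (Algebra.ofId ℚ (AlgebraicClosure ℚ)) = Algebra.ofId ℚ (AlgebraicClosure ℚ) :=
      Subsingleton.elim _ _
    unfold act
    rw [Affine.Point.map_map, h1]

variable {W : WeierstrassCurve ℚ} {e₁ e₂ e₃ : ℚ}

theorem rat_of_fixed {x : AlgebraicClosure ℚ} (hx : ∀ σ : GQ, σ x = x) :
    ∃ a : ℚ, algebraMap ℚ (AlgebraicClosure ℚ) a = x := by
  have : x ∈ Set.range (algebraMap ℚ (AlgebraicClosure ℚ)) := by
    rw [InfiniteGalois.mem_range_algebraMap_iff_fixed]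
    exact hx
  exact this

theorem exists_rat (h : T3 W e₁ e₂ e₃) {P : Pbar W} (hP : ∀ σ, act W σ P = P) :
    ∃ Q : W.toAffine.Point, bcQ W Q = P := by
  rcases (h.bc (AlgebraicClosure ℚ)).eq_zero_or_pt P with rfl | ⟨x, η, hη, rfl⟩
  · exact ⟨0, _root_.map_zero _⟩
  · have hfix : ∀ σ : GQ, σ x = x ∧ σ η = η := by
      intro σ
      have h1 := hP σ
      obtain ⟨hh, h2⟩ := map_pt (σ : AlgebraicClosure ℚ →ₐ[ℚ] AlgebraicClosure ℚ) h hη
      unfold act at h1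
      rw [h2] at h1
      exact (h.bc (AlgebraicClosure ℚ)).pt_inj h1
    obtain ⟨a, ha⟩ := rat_of_fixed (fun σ => (hfix σ).1)
    obtain ⟨b, hb⟩ := rat_of_fixed (fun σ => (hfix σ).2)
    have hab : b ^ 2 = 4 * ((a - e₁) * (a - e₂) * (a - e₃)) := by
      apply (algebraMap ℚ (AlgebraicClosure ℚ)).injective
      rw [map_pow, hb, hη, ← ha]
      simp only [map_mul, map_sub, map_ofNat]
    refine ⟨h.pt a b hab, ?_⟩
    obtain ⟨hh, h1⟩ := map_pt (Algebra.ofId ℚ (AlgebraicClosure ℚ)) h (x := a) (η := b) hab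
    exact h1.trans ((h.bc (AlgebraicClosure ℚ)).pt_congr ha hb)

/-- one coordinate of a half of a rational point -/
theorem coord_of_half (h : T3 W e₁ e₂ e₃) {c : GQ → Pbar W} (hc : ∀ σ, c σ + c σ = 0)
    {e : ℚ} {R : Pbar W} (hR2 : R + R ≠ 0)
    (hR : xc _ (R + R) = algebraMap ℚ (AlgebraicClosure ℚ) e) (hcR : ∀ σ, c σ = act W σ R - R)
    {d : ℤ} {β : AlgebraicClosure ℚ} (hβ0 : β ≠ 0) (hβ : β ^ 2 = (d : AlgebraicClosure ℚ))
    (hχ : ∀ σ, σ β = (((h.bc (AlgebraicClosure ℚ)).sgn (c σ) : ℤ) : AlgebraicClosure ℚ) * β) :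
    ∃ r : ℚ, e - e₁ = d * r ^ 2 := by
  set H := h.bc (AlgebraicClosure ℚ) with hH
  set ρ := rhoP (W⁄(AlgebraicClosure ℚ)) (algebraMap ℚ _ e₁) (algebraMap ℚ _ e₂)
    (algebraMap ℚ _ e₃) R with hρ
  have h1 : ρ ^ 2 = algebraMap ℚ (AlgebraicClosure ℚ) (e - e₁) := by
    rw [hρ, ← H.xc_two hR2, hR, ← map_sub]
  have h2 : ∀ σ : GQ, σ ρ = ((H.sgn (c σ) : ℤ) : AlgebraicClosure ℚ) * ρ := by
    intro σ
    have h4 := map_rhoP (σ : AlgebraicClosure ℚ →ₐ[ℚ] AlgebraicClosure ℚ) h R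
    have h5 : Affine.Point.map (W' := W) (σ : AlgebraicClosure ℚ →ₐ[ℚ] AlgebraicClosure ℚ) R =
        R + c σ := by
      have : act W σ R = R + c σ := by rw [hcR]; abel
      exact this
    rw [h5, H.rhoP_add hR2 (hc σ)] at h4
    exact h4.symm
  obtain ⟨r, hr⟩ : ∃ r : ℚ, algebraMap ℚ (AlgebraicClosure ℚ) r = ρ / β := by
    apply rat_of_fixed
    intro σ
    rw [map_div₀, h2, hχ]
    rcases Int.units_eq_one_or (H.sgn (c σ)) with h6 | h6
    · rw [h6]; simp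
    · rw [h6]; simp
  refine ⟨r, ?_⟩
  apply (algebraMap ℚ (AlgebraicClosure ℚ)).injective
  rw [← h1, map_mul, map_pow, hr, map_intCast, ← hβ, div_pow]
  field_simp

theorem eq_one_of_sq {d : ℤ} (hd : Squarefree d) {r : ℚ} (hr : r ^ 2 = d) : d = 1 := by
  obtain ⟨w, hw⟩ := int_of_sq_int hr
  have h1 : IsUnit w := hd w (by rw [hw]; exact ⟨1, by ring⟩)
  rcases Int.isUnit_iff.mp h1 with rfl | rfl
  · rw [hw]; norm_num
  · rw [hw]; norm_num

theorem coord_one {β : AlgebraicClosure ℚ} {d : ℤ} (hd : Squarefree d)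
    (hβ : β ^ 2 = (d : AlgebraicClosure ℚ)) (hfix : ∀ σ : GQ, σ β = β) : d = 1 := by
  obtain ⟨r, hr⟩ := rat_of_fixed hfix
  apply eq_one_of_sq hd (r := r)
  apply (algebraMap ℚ (AlgebraicClosure ℚ)).injective
  rw [map_pow, hr, hβ, map_intCast]

theorem selTriv_of_sha (h : T3 W e₁ e₂ e₃) (hsha : ∀ s : Sha W, s + s = 0 → s = 0)
    (hdiv : ∀ P : W.toAffine.Point, ∃ t R : W.toAffine.Point, t + t = 0 ∧ P = t + (R + R)) :
    SelTriv e₁ e₂ e₃ := by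
  intro d₁ d₂ d₃ hd₁ hd₂ hd₃ hw hLR hLp
  obtain ⟨w, hw⟩ := hw
  obtain ⟨β₁, hβ₁⟩ := IsAlgClosed.exists_pow_nat_eq ((d₁ : ℤ) : AlgebraicClosure ℚ) (n := 2)
    (by norm_num)
  obtain ⟨β₂, hβ₂⟩ := IsAlgClosed.exists_pow_nat_eq ((d₂ : ℤ) : AlgebraicClosure ℚ) (n := 2)
    (by norm_num)
  obtain ⟨β₃, hβ₃⟩ := IsAlgClosed.exists_pow_nat_eq ((d₃ : ℤ) : AlgebraicClosure ℚ) (n := 2)
    (by norm_num)
  have hne : ∀ {β : AlgebraicClosure ℚ} {d : ℤ}, Squarefree d →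
      β ^ 2 = (d : AlgebraicClosure ℚ) → β ≠ 0 := by
    rintro β d hd hβ rfl
    have h6 : (d : AlgebraicClosure ℚ) = 0 := by rw [← hβ]; ring
    exact hd.ne_zero (by exact_mod_cast h6)
  have n₁ := hne hd₁ hβ₁
  have n₂ := hne hd₂ hβ₂
  have n₃ := hne hd₃ hβ₃
  set H := h.bc (AlgebraicClosure ℚ) with hH
  set c : GQ → Pbar W := fun σ => H.ptSgn (chr β₁ σ) (chr β₂ σ) with hcdef
  have hc2 : ∀ σ, c σ + c σ = 0 := fun σ => (H.ptSgn_spec _ _).1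
  have s₁ : ∀ σ, H.sgn (c σ) = chr β₁ σ := fun σ => (H.ptSgn_spec _ _).2.1
  have s₂ : ∀ σ, H.rot.sgn (c σ) = chr β₂ σ := fun σ => (H.ptSgn_spec _ _).2.2
  have hprod : ∀ σ, chr β₁ σ * chr β₂ σ * chr β₃ σ = 1 := by
    intro σ
    apply unit_mul_three n₁ n₂ n₃
    rw [← chr_spec hβ₁, ← chr_spec hβ₂, ← chr_spec hβ₃, ← map_mul, ← map_mul]
    have h5 : (β₁ * β₂ * β₃) ^ 2 = ((w : ℤ) : AlgebraicClosure ℚ) ^ 2 := by
      rw [mul_pow, mul_pow, hβ₁, hβ₂, hβ₃]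
      exact_mod_cast congrArg (Int.cast : ℤ → AlgebraicClosure ℚ) hw
    rcases sq_eq_sq_iff_eq_or_eq_neg.mp h5 with h6 | h6 <;> rw [h6] <;> simp
  have s₃ : ∀ σ, H.rot.rot.sgn (c σ) = chr β₃ σ := by
    intro σ
    have h5 := H.sgn_mul_sgn_mul_sgn (hc2 σ)
    rw [s₁, s₂] at h5
    exact mul_left_cancel (h5.trans (hprod σ).symm)
  have g₁ : ∀ σ : GQ, σ β₁ = ((H.sgn (c σ) : ℤ) : AlgebraicClosure ℚ) * β₁ := by
    intro σ; rw [s₁]; exact chr_spec hβ₁ σ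
  have g₂ : ∀ σ : GQ, σ β₂ =
      (((h.rot.bc (AlgebraicClosure ℚ)).sgn (c σ) : ℤ) : AlgebraicClosure ℚ) * β₂ := by
    intro σ
    have : (h.rot.bc (AlgebraicClosure ℚ)).sgn (c σ) = chr β₂ σ := s₂ σ
    rw [this]; exact chr_spec hβ₂ σ
  have g₃ : ∀ σ : GQ, σ β₃ =
      (((h.rot.rot.bc (AlgebraicClosure ℚ)).sgn (c σ) : ℤ) : AlgebraicClosure ℚ) * β₃ := by
    intro σ
    have : (h.rot.rot.bc (AlgebraicClosure ℚ)).sgn (c σ) = chr β₃ σ := s₃ σ
    rw [this]; exact chr_spec hβ₃ σ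
  have hcS : c ∈ shaCocycles W := by
    refine ⟨?_, ?_, ?_, ?_⟩
    · exact ((chr_lc β₁).prodMk (chr_lc β₂)).comp (fun p => H.ptSgn p.1 p.2)
    · intro σ τ
      have ha : act W σ (c τ) = c τ := map_self_of_two _ h (hc2 τ)
      rw [ha]
      have hs : (c σ + c τ) + (c σ + c τ) = 0 := by
        calc (c σ + c τ) + (c σ + c τ) = (c σ + c σ) + (c τ + c τ) := by abel
          _ = 0 := by rw [hc2, hc2, add_zero]
      refine H.eq_of_sgn (hc2 _) hs ?_ ?_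
      · rw [H.sgn_add (hc2 σ) (hc2 τ), s₁, s₁, s₁, chr_mul hβ₁ n₁]
      · rw [H.rot.sgn_add (hc2 σ) (hc2 τ), s₂, s₂, s₂, chr_mul hβ₂ n₂]
    · exact locTriv_of_cond h hc2 hd₁.ne_zero hd₂.ne_zero hd₃.ne_zero hβ₁ hβ₂ hβ₃ g₁ g₂ g₃ hLR
    · intro p _
      exact locTriv_of_cond h hc2 hd₁.ne_zero hd₂.ne_zero hd₃.ne_zero hβ₁ hβ₂ hβ₃ g₁ g₂ g₃ (hLp p)
  obtain ⟨R₀, hR₀⟩ : ∃ R : Pbar W, ∀ σ, c σ = act W σ R - R := by
    have h5 := hsha (QuotientAddGroup.mk (⟨c, hcS⟩ : shaCocycles W)) (by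
      have h6 : (⟨c, hcS⟩ : shaCocycles W) + ⟨c, hcS⟩ = 0 := by
        apply Subtype.ext
        funext σ
        exact hc2 σ
      rw [← QuotientAddGroup.mk_add, h6]; rfl)
    rw [QuotientAddGroup.eq_zero_iff, AddSubgroup.mem_addSubgroupOf] at h5
    exact h5
  obtain ⟨Q, hQ⟩ := exists_rat h (P := R₀ + R₀) (by
    intro σ
    have h5 := hR₀ σ
    have h6 := hc2 σ
    rw [h5] at h6
    rw [map_add]
    calc act W σ R₀ + act W σ R₀ = ((act W σ R₀ - R₀) + (act W σ R₀ - R₀)) + (R₀ + R₀) := by abel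
      _ = R₀ + R₀ := by rw [h6, zero_add])
  obtain ⟨t, R', ht, hQt⟩ := hdiv Q
  set R := R₀ - bcQ W R' with hRdef
  have hcR : ∀ σ, c σ = act W σ R - R := by
    intro σ
    rw [hRdef, map_sub, act_bcQ, hR₀ σ]; abel
  have hRR : R + R = bcQ W t := by
    rw [hQt, map_add, map_add] at hQ
    calc R + R = (R₀ + R₀) - (bcQ W R' + bcQ W R') := by rw [hRdef]; abel
      _ = bcQ W t := by rw [← hQ]; abel
  rcases h.two_torsion ht with h5 | h5 | h5 | h5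
  · left
    rw [h5, _root_.map_zero] at hRR
    have hc0 : ∀ σ, c σ = 0 := by
      intro σ
      have h6 : act W σ R = R := map_self_of_two _ h hRR
      rw [hcR σ, h6, sub_self]
    refine ⟨coord_one hd₁ hβ₁ ?_, coord_one hd₂ hβ₂ ?_, coord_one hd₃ hβ₃ ?_⟩
    · intro σ; rw [g₁, hc0, T3.sgn_zero]; simp
    · intro σ; rw [g₂, hc0, T3.sgn_zero]; simp
    · intro σ; rw [g₃, hc0, T3.sgn_zero]; simp
  · right; left
    have h6 : bcQ W t = H.T := by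
      rw [h5]; exact map_T (Algebra.ofId ℚ (AlgebraicClosure ℚ)) h
    have hR2 : R + R ≠ 0 := by rw [hRR, h6]; exact H.T_ne_zero
    have hx : xc _ (R + R) = algebraMap ℚ (AlgebraicClosure ℚ) e₁ := by rw [hRR, h6]; rfl
    obtain ⟨r₂, hr₂⟩ := coord_of_half h.rot hc2 hR2 hx hcR n₂ hβ₂ g₂
    obtain ⟨r₃, hr₃⟩ := coord_of_half h.rot.rot hc2 hR2 hx hcR n₃ hβ₃ g₃
    exact ⟨r₂, r₃, hr₂, hr₃⟩
  · right; right; left
    have h6 : bcQ W t = H.rot.T := by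
      rw [h5]; exact map_T (Algebra.ofId ℚ (AlgebraicClosure ℚ)) h.rot
    have hR2 : R + R ≠ 0 := by rw [hRR, h6]; exact H.rot.T_ne_zero
    have hx : xc _ (R + R) = algebraMap ℚ (AlgebraicClosure ℚ) e₂ := by rw [hRR, h6]; rfl
    obtain ⟨r₃, hr₃⟩ := coord_of_half h.rot.rot hc2 hR2 hx hcR n₃ hβ₃ g₃
    obtain ⟨r₁, hr₁⟩ := coord_of_half h hc2 hR2 hx hcR n₁ hβ₁ g₁
    exact ⟨r₃, r₁, hr₃, hr₁⟩
  · right; right; right
    have h6 : bcQ W t = H.rot.rot.T := by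
      rw [h5]; exact map_T (Algebra.ofId ℚ (AlgebraicClosure ℚ)) h.rot.rot
    have hR2 : R + R ≠ 0 := by rw [hRR, h6]; exact H.rot.rot.T_ne_zero
    have hx : xc _ (R + R) = algebraMap ℚ (AlgebraicClosure ℚ) e₃ := by rw [hRR, h6]; rfl
    obtain ⟨r₁, hr₁⟩ := coord_of_half h hc2 hR2 hx hcR n₁ hβ₁ g₁
    obtain ⟨r₂, hr₂⟩ := coord_of_half h.rot hc2 hR2 hx hcR n₂ hβ₂ g₂
    exact ⟨r₁, r₂, hr₁, hr₂⟩

/-- in a finite group without point of order four every element is a 2-torsion element plus the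
double of an element -/
theorem div_of_finite {G : Type*} [AddCommGroup G] [Finite G]
    (hG : ∀ x : G, x + x = 0 → (∃ y, y + y = x) → x = 0) (P : G) :
    ∃ t R : G, t + t = 0 ∧ P = t + (R + R) := by
  let f : G →+ G := nsmulAddMonoidHom 2
  have hf : ∀ x, f x = x + x := fun x => two_nsmul x
  let g : f.range →+ f.range := nsmulAddMonoidHom 2
  have hg : ∀ x, g x = x + x := fun x => two_nsmul x
  have hinj : Function.Injective g := by
    rw [injective_iff_map_eq_zero]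
    rintro ⟨x, y, hy⟩ hx
    apply Subtype.ext
    apply hG x
    · have := congrArg Subtype.val hx
      rw [hg] at this
      exact this
    · exact ⟨y, by rw [← hf]; exact hy⟩
  have hsurj : Function.Surjective g := Finite.surjective_of_injective hinj
  obtain ⟨⟨z, R, hR⟩, hz⟩ := hsurj ⟨f P, P, rfl⟩
  have h1 : z + z = P + P := by
    have := congrArg Subtype.val hz
    rw [hg] at this
    rw [← hf P]
    exact this
  refine ⟨P - z, R, ?_, ?_⟩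
  · calc P - z + (P - z) = (P + P) - (z + z) := by abel
      _ = 0 := by rw [h1, sub_self]
  · rw [← hf R, hR]; abel

theorem no_four_tw {n : ℕ} (hn0 : n ≠ 0) (hn4 : n % 4 = 3) {k : ℤ} (hk : 4 * k + 1 = -(n : ℤ))
    (x : (tw k).toAffine.Point) (hx : x + x = 0) (hy : ∃ y, y + y = x) : x = 0 := by
  have hT := tw_T3 hn0 hk
  have hn : (0 : ℚ) < n := by exact_mod_cast Nat.pos_of_ne_zero hn0
  have hn' : (((n : ℕ) : ℤ) : ℚ) = n := by push_cast; rfl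
  have n1 : ¬ ∃ y, y + y = hT.T := by
    rintro ⟨y, hy⟩
    obtain ⟨r, hr⟩ := sq_of_isTwo hT.rot (x := 5 * ((n : ℕ) : ℤ) / 4) (η := 0)
      (by ring) hy
    rw [hn'] at hr
    exact not_sq_of_three_mod_four hn4 (r := 2 * r) (by linear_combination 4 * hr)
  have n2 : ¬ ∃ y, y + y = hT.rot.T := by
    rintro ⟨y, hy⟩
    obtain ⟨r, hr⟩ := sq_of_isTwo hT (x := ((n : ℕ) : ℤ)) (η := 0)
      (by ring) hy
    rw [hn'] at hr
    nlinarith [sq_nonneg r]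
  have n3 : ¬ ∃ y, y + y = hT.rot.rot.T := by
    rintro ⟨y, hy⟩
    obtain ⟨r, hr⟩ := sq_of_isTwo hT (x := -3 * ((n : ℕ) : ℤ)) (η := 0)
      (by ring) hy
    rw [hn'] at hr
    nlinarith [sq_nonneg r]
  rcases hT.two_torsion hx with h | h | h | h
  · exact h
  · rw [h] at hy; exact absurd hy n1
  · rw [h] at hy; exact absurd hy n2
  · rw [h] at hy; exact absurd hy n3

theorem hypN_of_sha {n : ℕ} (H : HypB n) {k : ℤ} (hk : 4 * k + 1 = -(n : ℤ))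
    (hfin : Finite (tw k).toAffine.Point) (hsha : ∀ s : Sha (tw k), s + s = 0 → s = 0) :
    HypN n :=
  ⟨H.sqf, H.n4, H.not17, H.res, selTriv_of_sha (tw_T3 H.n0 hk) hsha
    (div_of_finite (no_four_tw H.n0 H.n4 hk))⟩

/-- **[SEL3]** for `n` in `D-`: the determinant is nonzero if and only if `E(ℚ)` is finite and
`Sha[2] = 0` -/
theorem det_iff {n : ℕ} (H : HypB n) {k : ℤ} (hk : 4 * k + 1 = -(n : ℤ)) :
    (NP n).det ≠ 0 ↔
      (Finite (tw k).toAffine.Point ∧ ∀ s : Sha (tw k), s + s = 0 → s = 0) := by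
  constructor
  · intro h
    have H' := hypN_of_det H h
    exact ⟨finite_tw H' hk, fun s hs => sha_eq_zero (tw_T3 H.n0 hk) H'.sel hs⟩
  · rintro ⟨h1, h2⟩
    exact det_of_hypN (hypN_of_sha H hk h1 h2)

end Vale.Agent.P014.H71
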