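import Vale.Agent.P014.H71.Final
import Vale.Agent.P014.H71.Sel8
import Vale.Agent.P014.H71.InpB

/-!
# Theorem B: all twists by `-n`, `n = 3 mod 4`, `(n / 17) = -1`
-/

namespace Vale.Agent.P014.H71

open NumberField Vale.Agent.P017.H185
open Vale.Agent.P014.H74 (ell Dm Inp Gd)
open Vale.Agent.P014.H483 (rhoO)
open Vale.Agent.P014.H687 (an)
open Vale.Agent.P014.H70 (r3)
open scoped Classical

theorem hypB_of_Dm {n : ℕ} (hn : Dm n) : HypB n := by
  obtain ⟨h4, hsq, hJ⟩ := hn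
  have h17f : Fact (Nat.Prime 17) := ⟨by norm_num⟩
  refine ⟨hsq, h4, ?_, ?_⟩
  · intro hc
    have h1 : jacobiSym n 17 = 0 := by
      have h2 : ((n : ℤ) % ((17 : ℕ) : ℤ)) = 0 := by
        have : (17 : ℤ) ∣ n := by exact_mod_cast hc
        push_cast
        omega
      rw [jacobiSym.mod_left, h2]
      exact jacobiSym.zero_left (by norm_num)
    rw [h1] at hJ
    norm_num at hJ
  · intro _
    rw [jacobiSym.legendreSym.to_jacobiSym]
    exact hJ

theorem odd_iff_zmod {p : ℤ} {a : ZMod 2} (h : (p : ZMod 2) = a) : Odd p ↔ a ≠ 0 := by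
  rw [← h, Ne, ZMod.intCast_zmod_eq_zero_iff_dvd, ← Int.not_even_iff_odd, even_iff_two_dvd]
  norm_num

/-- **Theorem B, for one curve** -/
theorem mainB (hI : Inp DF gF) {n : ℕ} (hn : Dm n) {k : ℤ} (hk : 4 * k + 1 = -(n : ℤ)) :
    ∃ L : ℂ → ℂ, IsHasseWeil (tw k) L ∧
      (∃ p : ℤ, ‖L 1‖ = (p : ℝ) ^ 2 * (realPeriod (tw k) * (tamagawaProduct (tw k) : ℝ) / 4 ^ 2) ∧
        (Odd p ↔ Finite (tw k).toAffine.Point ∧ ∀ s : Sha (tw k), s + s = 0 → s = 0)) ∧
      (Finite (tw k).toAffine.Point → (∀ s : Sha (tw k), s + s = 0 → s = 0) →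
        L 1 ≠ 0 ∧ Nat.card (shaPrimary (tw k) 2) = 1 ∧ PPartRankZero (tw k) L 2) := by
  have HB := hypB_of_Dm hn
  obtain ⟨P, hP, p, hp, hpa⟩ := hI.main_odd hn (ρ := rhoO (an r3)) (H483.par_O H687.form17)
    H483.odd_O
  rw [DF_eq (by have := hn.1; omega)] at hpa
  have hodd : Odd p ↔ Finite (tw k).toAffine.Point ∧ ∀ s : Sha (tw k), s + s = 0 → s = 0 :=
    (odd_iff_zmod hpa).trans (det_iff HB hk)
  have hco : Nat.Coprime 17 n :=
    (Nat.Prime.coprime_iff_not_dvd (by norm_num)).mpr HB.not17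
  obtain ⟨L, hL, ε, hε, hL1⟩ := H483.hw_value hn.1 hn.2.1 hco hk hP
  have hn0 : n ≠ 0 := hn.2.1.ne_zero
  have hΩ := H483.realPeriod_pos hn0 hk
  obtain ⟨r, hr⟩ : ∃ r, n.primeFactors.card = r + 1 := by
    have : 0 < n.primeFactors.card := by
      rw [Finset.card_pos, Nat.nonempty_primeFactors]
      have := hn.1
      omega
    exact ⟨n.primeFactors.card - 1, by omega⟩
  rw [hr, Nat.add_sub_cancel] at hp
  refine ⟨L, hL, ⟨p, ?_, hodd⟩, fun hfin hsha => ?_⟩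
  · rw [hL1, Complex.norm_real, Real.norm_eq_abs, abs_mul, abs_div, abs_mul,
      abs_of_pos hΩ, tamagawaProduct_tw HB hk, hr, hp]
    have e1 : |ε| = 1 := by rcases hε with h | h <;> rw [h] <;> simp
    have e2 : |(((2 ^ r * p : ℤ) : ℝ) ^ 2)| = (2 ^ r * (p : ℝ)) ^ 2 := by
      rw [abs_of_nonneg (sq_nonneg _)]; push_cast; ring
    have e3 : |(2 : ℝ)| = 2 := by norm_num
    rw [e1, e2, e3]
    have h4 : (4 : ℝ) ^ r = 2 ^ r * 2 ^ r := by
      rw [← mul_pow]; norm_num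
    push_cast
    rw [pow_succ (4 : ℝ) r, h4]
    ring
  · have hpo : Odd p := hodd.mpr ⟨hfin, hsha⟩
    have H : HypN n := hypN_of_sha HB hk hfin hsha
    have hP0 : P ≠ 0 := by
      rw [hp]
      have : p ≠ 0 := by rintro rfl; simp at hpo
      positivity
    refine ⟨?_, sha_tw H hk, ?_⟩
    · rw [hL1]
      have hε0 : ε ≠ 0 := by rcases hε with h | h <;> rw [h] <;> norm_num
      have hP0' : (P : ℝ) ≠ 0 := by exact_mod_cast hP0
      exact_mod_cast mul_ne_zero (div_ne_zero (mul_ne_zero hε0 (pow_ne_zero 2 hP0')) two_ne_zero)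
        hΩ.ne'
    · refine ppart_of H hk hε (P := P) (s := 1) ?_ odd_one ?_
      · rw [hL1, realPeriod_tw hn0 hk]
        congr 1
        ring
      · rw [hr, Nat.add_sub_cancel, hp, pow_succ]
        obtain ⟨c, hc⟩ := hpo
        exact ⟨c, by rw [hc]; push_cast; ring⟩

end Vale.Agent.P014.H71
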