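import Vale.Agent.P014.H71.InpB
import Vale.Agent.P014.H581.Th3Full
import Vale.Agent.P014.H698.R8

/-!
# The inputs of the recursion, unconditionally
-/

namespace Vale.Agent.P014.H71

open NumberField Vale.Agent.P017.H185
open Vale.Agent.P014.H74 (Dm BD3 Inp)
open Vale.Agent.P014.H70 (Kn qf)

theorem inp : Inp DF gF :=
  inp_F fun n hn h3 => by
    obtain ⟨y, h⟩ := H581.BD3_exists_of H70.rel17 (qf n hn.2.1)
      (fun F R => H698.R3.main R) hn.1 hn.2.2 h3
    exact ⟨y, _, h⟩

end Vale.Agent.P014.H71
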