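import Mathlib

/-!
# Points on intersections of two quadrics over a finite prime field
-/

namespace Vale.Agent.P014.H71

section

variable {F : Type*} [Field F] [Fintype F] [DecidableEq F]

theorem sum_shift (hF : ringChar F ≠ 2) (c : F) :
    ∑ u : F, quadraticChar F (u + c) = 0 := by
  rw [← quadraticChar_sum_zero hF]
  exact Fintype.sum_equiv (Equiv.addRight c) _ _ (fun u => rfl)

theorem sum_two (hF : ringChar F ≠ 2) {c : F} (hc : c ≠ 0) :
    ∑ u : F, quadraticChar F u * quadraticChar F (u + c) = -1 := by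
  have h1 : ∑ u : F, quadraticChar F u * quadraticChar F (u + c) =
      ∑ u ∈ Finset.univ.erase (0 : F), quadraticChar F (1 + c * u⁻¹) := by
    rw [← Finset.add_sum_erase Finset.univ _ (Finset.mem_univ (0 : F))]
    rw [quadraticChar_zero, zero_mul, zero_add]
    refine Finset.sum_congr rfl fun u hu => ?_
    have hu0 : u ≠ 0 := Finset.ne_of_mem_erase hu
    have h2 : u + c = u * (1 + c * u⁻¹) := by field_simp
    rw [h2, map_mul, ← mul_assoc, ← sq, quadraticChar_sq_one hu0, one_mul]
  have h2 : ∑ u ∈ Finset.univ.erase (0 : F), quadraticChar F (1 + c * u⁻¹) =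
      ∑ u ∈ Finset.univ.erase (1 : F), quadraticChar F u := by
    refine Finset.sum_bij' (fun u _ => 1 + c * u⁻¹) (fun v _ => c * (v - 1)⁻¹) ?_ ?_ ?_ ?_ ?_
    · intro u hu
      have hu0 : u ≠ 0 := Finset.ne_of_mem_erase hu
      simp [hc, hu0]
    · intro v hv
      have hv0 : v ≠ 1 := Finset.ne_of_mem_erase hv
      have : v - 1 ≠ 0 := sub_ne_zero.mpr hv0
      simp [hc, this]
    · intro u hu
      have hu0 : u ≠ 0 := Finset.ne_of_mem_erase hu
      field_simp
      ring_nf
      field_simp
    · intro v hv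
      have hv0 : v ≠ 1 := Finset.ne_of_mem_erase hv
      have : v - 1 ≠ 0 := sub_ne_zero.mpr hv0
      field_simp
      ring
    · intro u hu; rfl
  rw [h1, h2]
  have h3 := Finset.add_sum_erase Finset.univ (fun u : F => quadraticChar F u)
    (Finset.mem_univ (1 : F))
  rw [quadraticChar_sum_zero hF, map_one] at h3
  linarith

theorem sum_two' (hF : ringChar F ≠ 2) {a b : F} (hab : a ≠ b) :
    ∑ u : F, quadraticChar F (u + a) * quadraticChar F (u + b) = -1 := by
  rw [← sum_two hF (sub_ne_zero.mpr hab.symm)]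
  exact Fintype.sum_equiv (Equiv.addRight a) _ _ (fun u => by
    simp only [Equiv.coe_addRight]
    congr 2
    ring)

/-- the count of points -/
theorem sum_three (hF : ringChar F ≠ 2) {a b c : F} (hab : a ≠ b) (hac : a ≠ c) (hbc : b ≠ c)
    {A B C : ℤ} (h : A * B * C = 1) :
    ∑ u : F, (1 + A * quadraticChar F (u + a)) * (1 + B * quadraticChar F (u + b)) *
        (1 + C * quadraticChar F (u + c)) + (1 + A * B + A * C + B * C) =
      Fintype.card F + 1 + ∑ u : F, quadraticChar F (u + a) * quadraticChar F (u + b) *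
        quadraticChar F (u + c) := by
  have e : ∀ u : F, (1 + A * quadraticChar F (u + a)) * (1 + B * quadraticChar F (u + b)) *
        (1 + C * quadraticChar F (u + c)) =
      1 + A * quadraticChar F (u + a) + B * quadraticChar F (u + b) +
      C * quadraticChar F (u + c) + A * B * (quadraticChar F (u + a) * quadraticChar F (u + b)) +
      A * C * (quadraticChar F (u + a) * quadraticChar F (u + c)) +
      B * C * (quadraticChar F (u + b) * quadraticChar F (u + c)) +
      quadraticChar F (u + a) * quadraticChar F (u + b) * quadraticChar F (u + c) := by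
    intro u
    linear_combination (quadraticChar F (u + a) * quadraticChar F (u + b) *
      quadraticChar F (u + c)) * h
  simp only [e, Finset.sum_add_distrib, ← Finset.mul_sum]
  rw [sum_shift hF, sum_shift hF, sum_shift hF, sum_two' hF hab, sum_two' hF hac, sum_two' hF hbc]
  simp
  ring

theorem chi_vals (x : F) : quadraticChar F x = 0 ∨ quadraticChar F x = 1 ∨
    quadraticChar F x = -1 := by
  by_cases hx : x = 0
  · left; rw [hx, quadraticChar_zero]
  · right; exact quadraticChar_dichotomy hx

/-- **Existence of points.** -/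
theorem exists_point (hF : ringChar F ≠ 2) {a b c : F} (hab : a ≠ b) (hac : a ≠ c) (hbc : b ≠ c)
    {A B C : ℤ} (hA : A = 1 ∨ A = -1) (hB : B = 1 ∨ B = -1) (hC : C = 1 ∨ C = -1)
    (h : A * B * C = 1) :
    (A = 1 ∧ B = 1 ∧ C = 1) ∨ ∃ u : F, (u + a = 0 ∨ quadraticChar F (u + a) = A) ∧
      (u + b = 0 ∨ quadraticChar F (u + b) = B) ∧ (u + c = 0 ∨ quadraticChar F (u + c) = C) := by
  have hnn : ∀ {A : ℤ} (x : F), (A = 1 ∨ A = -1) → 0 ≤ 1 + A * quadraticChar F x := by
    intro A x hA
    rcases hA with rfl | rfl <;> rcases chi_vals x with h1 | h1 | h1 <;> rw [h1] <;> norm_num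
  have k1 := sum_three hF hab hac hbc (A := 1) (B := 1) (C := 1) (by norm_num)
  have k2 := sum_three hF hab hac hbc h
  have k3 : 0 ≤ ∑ u : F, (1 + 1 * quadraticChar F (u + a)) * (1 + 1 * quadraticChar F (u + b)) *
        (1 + 1 * quadraticChar F (u + c)) :=
    Finset.sum_nonneg fun u _ => mul_nonneg (mul_nonneg (hnn _ (Or.inl rfl)) (hnn _ (Or.inl rfl)))
      (hnn _ (Or.inl rfl))
  by_cases hall : A = 1 ∧ B = 1 ∧ C = 1
  · exact Or.inl hall
  right
  have k4 : 1 + A * B + A * C + B * C = 0 := by
    rcases hA with rfl | rfl <;> rcases hB with rfl | rfl <;> rcases hC with rfl | rfl <;>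
      first | (exfalso; exact hall ⟨rfl, rfl, rfl⟩) | (exfalso; norm_num at h; done) | norm_num
  rw [k4] at k2
  have k5 : 0 < ∑ u : F, (1 + A * quadraticChar F (u + a)) * (1 + B * quadraticChar F (u + b)) *
        (1 + C * quadraticChar F (u + c)) := by
    push_cast at k1
    linarith
  obtain ⟨u, -, hu⟩ := Finset.exists_lt_of_sum_lt (s := Finset.univ) (f := fun _ : F => (0 : ℤ))
    (g := fun u : F => (1 + A * quadraticChar F (u + a)) * (1 + B * quadraticChar F (u + b)) *
        (1 + C * quadraticChar F (u + c))) (by rw [Finset.sum_const_zero]; exact k5)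
  refine ⟨u, ?_, ?_, ?_⟩
  · by_contra hc
    push Not at hc
    have h1 : 1 + A * quadraticChar F (u + a) = 0 := by
      rcases quadraticChar_dichotomy hc.1 with h2 | h2 <;> rcases hA with h3 | h3 <;>
        rw [h2, h3] <;> rw [h2, h3] at hc <;> simp at hc ⊢
    rw [h1, zero_mul, zero_mul] at hu
    exact lt_irrefl _ hu
  · by_contra hc
    push Not at hc
    have h1 : 1 + B * quadraticChar F (u + b) = 0 := by
      rcases quadraticChar_dichotomy hc.1 with h2 | h2 <;> rcases hB with h3 | h3 <;>
        rw [h2, h3] <;> rw [h2, h3] at hc <;> simp at hc ⊢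
    rw [h1, mul_zero, zero_mul] at hu
    exact lt_irrefl _ hu
  · by_contra hc
    push Not at hc
    have h1 : 1 + C * quadraticChar F (u + c) = 0 := by
      rcases quadraticChar_dichotomy hc.1 with h2 | h2 <;> rcases hC with h3 | h3 <;>
        rw [h2, h3] <;> rw [h2, h3] at hc <;> simp at hc ⊢
    rw [h1, mul_zero] at hu
    exact lt_irrefl _ hu

end

end Vale.Agent.P014.H71
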