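import Vale.Agent.P014.H581.Chi
import Vale.Agent.P014.H74.F2

/-!
# The genus characters as functions of the divisor
-/

namespace Vale.Agent.P014.H71

open NumberField Vale.Agent.P017.H185 Vale.Agent.P017.H185.QF

theorem sg_add (a b : ZMod 2) : H74.sg (a + b) = H74.sg a * H74.sg b := by
  revert a b; decide

theorem jac_prod {m : ℕ} (S : Finset ℕ) (hS : ∀ q ∈ S, q.Prime ∧ Nat.Coprime m q) :
    jacobiSym m (∏ q ∈ S, q) =
      H74.sg (∑ q ∈ S, (if jacobiSym m q = -1 then (1 : ZMod 2) else 0)) := by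
  classical
  induction S using Finset.induction_on with
  | empty => simp [H74.sg]
  | insert p S hp ih =>
    have h1 := ih (fun q hq => hS q (Finset.mem_insert_of_mem hq))
    obtain ⟨h2, h3⟩ := hS p (Finset.mem_insert_self p S)
    have : NeZero p := ⟨h2.ne_zero⟩
    have : NeZero (∏ q ∈ S, q) :=
      ⟨Finset.prod_ne_zero_iff.mpr fun q hq => (hS q (Finset.mem_insert_of_mem hq)).1.ne_zero⟩
    rw [Finset.prod_insert hp, Finset.sum_insert hp, jacobiSym.mul_right, sg_add, h1]
    congr 1
    rcases jacobiSym.trichotomy (m : ℤ) p with h | h | h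
    · exact absurd h (H581.jac_ne_zero h3)
    · rw [h]; simp [H74.sg]
    · rw [h]; simp [H74.sg]

theorem chiAdd {K : Type} [Field K] [NumberField K] {n : ℕ} (q : QF K n) :
    H74.ChiAdd n (H581.chi q) := by
  intro x
  refine ⟨fun p => if jacobiSym (H581.nr q x) p = -1 then 1 else 0, ?_⟩
  intro V hV
  have hVn : V ∣ n := (Nat.mem_divisors.mp (Finset.mem_filter.mp hV).1).1
  have hsq : Squarefree V := q.hd.squarefree_of_dvd hVn
  obtain ⟨h1, h2, h3, h4⟩ := (H581.exists_coprime q x (H581.n_ne_zero q)).choose_spec.choose_spec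
  have h5 : Nat.Coprime (H581.nr q x) n := h4
  have h6 := jac_prod (m := H581.nr q x) V.primeFactors (fun p hp =>
    ⟨Nat.prime_of_mem_primeFactors hp, Nat.Coprime.coprime_dvd_right
      ((Nat.dvd_of_mem_primeFactors hp).trans hVn) h5⟩)
  rw [Nat.prod_primeFactors_of_squarefree hsq] at h6
  exact h6

end Vale.Agent.P014.H71
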