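import Vale.Agent.P014.H71.MainP
import Vale.Agent.P014.H580.FMmain

/-!
# The count for both signs
-/

namespace Vale.Agent.P014.H71

open Vale.Agent.P014.FM (Dm)
open Vale.Agent.P014.H687.DP (Dp)
open scoped Classical

theorem abs_iff (X : ℕ) (k : ℤ) : |4 * k + 1| ≤ (X : ℤ) ↔ (4 * k + 1).natAbs ≤ X := by
  rw [Int.abs_eq_natAbs]; exact_mod_cast Iff.rfl

/-- the integers `k` and the numbers `n = |4 k + 1|` -/
theorem card_fam (X : ℕ) (Q : ℕ → Prop) [DecidablePred Q] :
    Nat.card {k : ℤ // |4 * k + 1| ≤ X ∧ Fam k ∧ Q (4 * k + 1).natAbs} =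
      ((Dm X).filter Q).card + (((Dp X).filter Q).erase 1).card := by
  have hdisj : Disjoint ((Dm X).filter Q) (((Dp X).filter Q).erase 1) := by
    rw [Finset.disjoint_left]
    intro n h1 h2
    rw [Finset.mem_filter, FM.Dm, Finset.mem_filter] at h1
    rw [Finset.mem_erase, Finset.mem_filter, Dp, Finset.mem_filter] at h2
    have a1 := h1.1.2.2.1
    have a2 := h2.2.1.2.2.1
    omega
  rw [← Finset.card_union_of_disjoint hdisj, ← Fintype.card_coe, ← Nat.card_eq_fintype_card]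
  refine Nat.card_congr (Equiv.ofBijective (fun k => ⟨(4 * k.1 + 1).natAbs, ?_⟩) ⟨?_, ?_⟩)
  · obtain ⟨k, h1, h2, h3⟩ := k
    rw [abs_iff] at h1
    simp only [Finset.mem_union, Finset.mem_erase, Finset.mem_filter, FM.Dm, Dp,
      Finset.mem_range, Nat.lt_succ_iff]
    rcases h2.cases with ⟨n, hn, hk, e⟩ | ⟨n, hn, hn1, hk, e⟩
    · left
      rw [e] at h1 h3 ⊢
      exact ⟨⟨h1, hn.2.1, hn.1, hn.2.2⟩, h3⟩
    · right
      rw [e] at h1 h3 ⊢
      exact ⟨hn1, ⟨h1, hn.2.1, hn.1, hn.2.2⟩, h3⟩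
  · rintro ⟨k, h1⟩ ⟨l, h2⟩ h
    have h' : (4 * k + 1).natAbs = (4 * l + 1).natAbs := congrArg Subtype.val h
    apply Subtype.ext
    simp only
    omega
  · rintro ⟨n, hn⟩
    simp only [Finset.mem_union, Finset.mem_erase, Finset.mem_filter, FM.Dm, Dp,
      Finset.mem_range, Nat.lt_succ_iff] at hn
    rcases hn with ⟨⟨h1, h2, h3, h4⟩, h5⟩ | ⟨h0, ⟨h1, h2, h3, h4⟩, h5⟩
    · have hk : 4 * ((-(n : ℤ) - 1) / 4) + 1 = -(n : ℤ) := by omega
      have e : (4 * ((-(n : ℤ) - 1) / 4) + 1).natAbs = n := by rw [hk]; simp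
      refine ⟨⟨(-(n : ℤ) - 1) / 4, ?_, ⟨?_, ?_, ?_⟩, ?_⟩, Subtype.ext e⟩
      · rw [abs_iff, e]; exact h1
      · rw [← Int.squarefree_natAbs, e]; exact h2
      · intro hc
        rw [hc] at hk
        omega
      · rw [hk, neg_eq_neg_one_mul, jacobiSym.mul_left, h4, Int.sign_mul,
          Int.sign_natCast_of_ne_zero h2.ne_zero]
        norm_num
      · rw [e]; exact h5
    · have hk : 4 * (((n : ℤ) - 1) / 4) + 1 = (n : ℤ) := by omega
      have e : (4 * (((n : ℤ) - 1) / 4) + 1).natAbs = n := by rw [hk]; simp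
      refine ⟨⟨((n : ℤ) - 1) / 4, ?_, ⟨?_, ?_, ?_⟩, ?_⟩, Subtype.ext e⟩
      · rw [abs_iff, e]; exact h1
      · rw [← Int.squarefree_natAbs, e]; exact h2
      · intro hc
        rw [hc] at hk
        omega
      · rw [hk, h4, Int.sign_natCast_of_ne_zero h2.ne_zero]
      · rw [e]; exact h5

theorem card_fam' (X : ℕ) :
    Nat.card {k : ℤ // |4 * k + 1| ≤ X ∧ Fam k} = (Dm X).card + ((Dp X).erase 1).card := by
  have h := card_fam X (fun _ => True)
  simp only [and_true, Finset.filter_true] at h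
  exact h

/-- the lower bound for the size of the family -/
theorem fam_ge (X : ℕ) (hX : 1000000 ≤ X) :
    (X : ℝ) / 101 ≤ Nat.card {k : ℤ // |4 * k + 1| ≤ X ∧ Fam k} := by
  rw [card_fam']
  have h1 := H698.Dm_card_ge X hX
  have h2 := H687.DP.Dp_card_ge X hX
  have h3 : ((Dp X).card : ℝ) - 1 ≤ ((Dp X).erase 1).card := by
    have := Finset.pred_card_le_card_erase (s := Dp X) (a := 1)
    have h4 : (Dp X).card ≤ ((Dp X).erase 1).card + 1 := by omega
    have : ((Dp X).card : ℝ) ≤ ((Dp X).erase 1).card + 1 := by exact_mod_cast h4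
    linarith
  have hXR : (1000000 : ℝ) ≤ X := by exact_mod_cast hX
  push_cast
  linarith

/-- the proportion -/
theorem fam_prop : ∀ ε : ℝ, 0 < ε → ∃ X₀ : ℕ, ∀ X : ℕ, X₀ ≤ X →
    (1 / 3 - ε) * (Nat.card {k : ℤ // |4 * k + 1| ≤ X ∧ Fam k} : ℝ) ≤
      Nat.card {k : ℤ // |4 * k + 1| ≤ X ∧ Fam k ∧ (NP (4 * k + 1).natAbs).det = 1} := by
  intro ε hε
  obtain ⟨X₁, h1⟩ := FM.prop_dm (ε / 2) (by positivity)
  obtain ⟨X₂, h2⟩ := FM.prop_dp (ε / 2) (by positivity)
  obtain ⟨X₃, h3⟩ := exists_nat_ge (400 / ε)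
  refine ⟨max (max X₁ X₂) (max X₃ 1000000), fun X hX => ?_⟩
  have k1 := h1 X ((le_max_left _ _).trans ((le_max_left _ _).trans hX))
  have k2 := h2 X ((le_max_right _ _).trans ((le_max_left _ _).trans hX))
  have k3 : 400 / ε ≤ (X : ℝ) := h3.trans (by
    exact_mod_cast (le_max_left X₃ 1000000).trans ((le_max_right _ _).trans hX))
  have k4 := H698.Dm_card_ge X ((le_max_right _ _).trans ((le_max_right _ _).trans hX))
  rw [card_fam', card_fam X (fun n => (NP n).det = 1)]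
  have k5 : (((Dp X).filter fun n => (NP n).det = 1).card : ℝ) - 1 ≤
      (((Dp X).filter fun n => (NP n).det = 1).erase 1).card := by
    have := Finset.pred_card_le_card_erase (s := (Dp X).filter fun n => (NP n).det = 1) (a := 1)
    have h4 : ((Dp X).filter fun n => (NP n).det = 1).card ≤
      (((Dp X).filter fun n => (NP n).det = 1).erase 1).card + 1 := by omega
    have : (((Dp X).filter fun n => (NP n).det = 1).card : ℝ) ≤
      (((Dp X).filter fun n => (NP n).det = 1).erase 1).card + 1 := by exact_mod_cast h4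
    linarith
  have k6 : (((Dp X).erase 1).card : ℝ) ≤ (Dp X).card := by
    exact_mod_cast Finset.card_erase_le
  have k7 : 400 ≤ ε * X := by
    rw [div_le_iff₀ hε] at k3
    linarith
  have k8 : (0 : ℝ) ≤ (Dp X).card := by positivity
  push_cast
  by_cases hc : 1 / 3 - ε ≤ 0
  · have k9 : (1 / 3 - ε) * (((Dm X).card : ℝ) + (((Dp X).erase 1).card : ℝ)) ≤ 0 :=
      mul_nonpos_of_nonpos_of_nonneg hc (by positivity)
    exact k9.trans (by positivity)
  · push Not at hc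
    have k9 : (1 / 3 - ε) * (((Dm X).card : ℝ) + (((Dp X).erase 1).card : ℝ)) ≤
        (1 / 3 - ε) * (((Dm X).card : ℝ) + ((Dp X).card : ℝ)) :=
      mul_le_mul_of_nonneg_left (by linarith) hc.le
    have k10 : ε / 2 * (X / 200) ≤ ε / 2 * ((Dm X).card : ℝ) :=
      mul_le_mul_of_nonneg_left k4 (by positivity)
    have k11 : 0 ≤ ε / 2 * ((Dp X).card : ℝ) := by positivity
    nlinarith

end Vale.Agent.P014.H71
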