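import Vale.Agent.P014.H580.K11
import Vale.Agent.P014.H687.FM5d
import Vale.Agent.P014.H687.FM3sw
import Vale.Agent.P014.H698.Dens

/-!
# The proportion of the twists with nonzero determinant
-/

namespace Vale.Agent.P014.H71

open Vale.Agent.P014.FM

theorem fm_main : ∀ ε : ℝ, 0 < ε → ∃ X0 : ℕ, ∀ X : ℕ, X0 ≤ X →
    ∑ n ∈ Dm X, kerAv n ≤ 3 * ((Dm X).card : ℝ) + ε * X := by
  intro ε hε
  obtain ⟨X1, h1⟩ := fm4 H687.FM.sw (ε / 2) (by positivity)
  obtain ⟨X2, h2⟩ := H687.FM.fm5 H687.FM.sw (ε / 2) (by positivity)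
  refine ⟨max X1 X2, fun X hX => ?_⟩
  have k1 := (abs_le.1 (h1 X ((le_max_left _ _).trans hX))).2
  have k2 := (abs_le.1 (h2 X ((le_max_right _ _).trans hX))).2
  rw [Finset.sum_sub_distrib] at k1
  linarith

/-- at least one third of the family has nonzero determinant -/
theorem proportion_main : ∀ ε : ℝ, 0 < ε → ∃ X0 : ℕ, ∀ X : ℕ, X0 ≤ X →
    (1 / 3 - ε) * ((Dm X).card : ℝ) ≤ (((Dm X).filter fun n => (NP n).det = 1).card : ℝ) :=
  H698.proportion fm_main

end Vale.Agent.P014.H71
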