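import Vale.Agent.P014.H71.LocSel

/-!
# Finiteness of the group of rational points
-/

namespace Vale.Agent.P014.H71

open WeierstrassCurve Vale.Agent.P017.H185

section

variable {F : Type*} [Field F] [DecidableEq F] {V : WeierstrassCurve F} {a₁ a₂ a₃ : F}

theorem isTwo_of_sq (h : T3 V a₁ a₂ a₃) {x η : F} (hη) (h1 : ∃ r, r ^ 2 = x - a₁)
    (h2 : ∃ r, r ^ 2 = x - a₂) (h3 : ∃ r, r ^ 2 = x - a₃) : ∃ R, R + R = h.pt x η hη := by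
  obtain ⟨r₁, hr₁⟩ := h1
  obtain ⟨r₂, hr₂⟩ := h2
  obtain ⟨r₃, hr₃⟩ := h3
  have h1 : (η - 2 * (r₁ * r₂ * r₃)) * (η + 2 * (r₁ * r₂ * r₃)) = 0 := by
    have : (η - 2 * (r₁ * r₂ * r₃)) * (η + 2 * (r₁ * r₂ * r₃)) =
      η ^ 2 - 4 * (r₁ ^ 2 * r₂ ^ 2 * r₃ ^ 2) := by ring
    rw [this, hη, hr₁, hr₂, hr₃]; ring
  rcases mul_eq_zero.mp h1 with h2 | h2
  · obtain ⟨hh, h3⟩ := h.half hη hr₁ hr₂ hr₃ (by linear_combination h2)
    exact ⟨_, h3⟩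
  · obtain ⟨hh, h3⟩ := h.half hη (r₁ := -r₁) (by rw [neg_sq]; exact hr₁) hr₂ hr₃
      (by linear_combination h2)
    exact ⟨_, h3⟩

theorem sq_of_isTwo (h : T3 V a₁ a₂ a₃) {x η : F} (hη) {R : V.toAffine.Point}
    (hR : R + R = h.pt x η hη) : ∃ r, r ^ 2 = x - a₁ := by
  have h0 : R + R ≠ 0 := by rw [hR]; exact h.pt_ne_zero _ _ _
  have := h.xc_two h0
  rw [hR, h.xc_pt] at this
  exact ⟨_, this.symm⟩

/-- `P + T₁` is divisible by two -/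
theorem isTwo_add_T (h : T3 V a₁ a₂ a₃) {x η : F} (hη) (hx : x ≠ a₁)
    (h1 : ∃ r, r ^ 2 = (a₁ - a₂) * (a₁ - a₃) / (x - a₁))
    (h2 : ∃ r, r ^ 2 = (a₁ - a₂) * (x - a₃) / (x - a₁))
    (h3 : ∃ r, r ^ 2 = (a₁ - a₃) * (x - a₂) / (x - a₁)) : ∃ R, R + R = h.pt x η hη + h.T := by
  obtain ⟨hh, h4⟩ := h.add_T hη hx
  rw [h4]
  have hx' : x - a₁ ≠ 0 := sub_ne_zero.mpr hx
  apply isTwo_of_sq h
  · obtain ⟨r, hr⟩ := h1
    exact ⟨r, by rw [hr]; ring⟩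
  · obtain ⟨r, hr⟩ := h2
    exact ⟨r, by rw [hr]; field_simp; ring⟩
  · obtain ⟨r, hr⟩ := h3
    exact ⟨r, by rw [hr]; field_simp; ring⟩

end

variable {W : WeierstrassCurve ℚ} {e₁ e₂ e₃ : ℚ}

/-- descent at one 2-torsion point -/
theorem descent_aux (h : T3 W e₁ e₂ e₃) {x η : ℚ} (hη) (hx1 : x ≠ e₁)
    {d₁ d₂ d₃ w : ℤ} {t₁ t₂ t₃ : ℚ} (hd₁ : d₁ ≠ 0) (hw : d₁ * d₂ * d₃ = w ^ 2)
    (h1 : x - e₁ = d₁ * t₁ ^ 2) (h2 : x - e₂ = d₂ * t₂ ^ 2) (h3 : x - e₃ = d₃ * t₃ ^ 2)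
    {r₂ r₃ : ℚ} (hr₂ : e₁ - e₂ = d₂ * r₂ ^ 2) (hr₃ : e₁ - e₃ = d₃ * r₃ ^ 2) :
    ∃ R, h.pt x η hη = h.T + (R + R) := by
  have hx' : x - e₁ ≠ 0 := sub_ne_zero.mpr hx1
  have ht₁ : t₁ ≠ 0 := by
    rintro rfl; apply hx'; rw [h1]; ring
  have hd : (d₁ : ℚ) ≠ 0 := by exact_mod_cast hd₁
  have hwQ : (d₁ : ℚ) * d₂ * d₃ = w ^ 2 := by exact_mod_cast hw
  obtain ⟨R, hR⟩ : ∃ R, R + R = h.pt x η hη + h.T := by
    refine isTwo_add_T h hη hx1 ⟨r₂ * r₃ * w / (d₁ * t₁), ?_⟩ ⟨r₂ * t₃ * w / (d₁ * t₁), ?_⟩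
      ⟨r₃ * t₂ * w / (d₁ * t₁), ?_⟩
    · rw [h1, hr₂, hr₃]
      field_simp
      linear_combination -hwQ * (r₂ ^ 2 * r₃ ^ 2)
    · rw [h1, h3, hr₂]
      field_simp
      linear_combination -hwQ * (r₂ ^ 2 * t₃ ^ 2)
    · rw [h1, h2, hr₃]
      field_simp
      linear_combination -hwQ * (r₃ ^ 2 * t₂ ^ 2)
  refine ⟨R, ?_⟩
  rw [hR]
  have h5 := h.two_T
  calc h.pt x η hη = (h.T + h.T) + h.pt x η hη := by rw [h5, zero_add]
    _ = h.T + (h.pt x η hη + h.T) := by abel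

theorem descent (h : T3 W e₁ e₂ e₃) (hS : SelTriv e₁ e₂ e₃) (P : W.toAffine.Point) :
    ∃ t R, t + t = 0 ∧ P = t + (R + R) := by
  by_cases hP : P + P = 0
  · exact ⟨P, 0, hP, by rw [add_zero, add_zero]⟩
  · obtain ⟨x, η, hη, rfl, h0, hx1, hx2, hx3⟩ := h.exists_pt_of_two_ne hP
    obtain ⟨d₁, t₁, hd₁, ht₁, k1⟩ := exists_squarefree_mul_sq (sub_ne_zero.mpr hx1)
    obtain ⟨d₂, t₂, hd₂, ht₂, k2⟩ := exists_squarefree_mul_sq (sub_ne_zero.mpr hx2)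
    obtain ⟨d₃, t₃, hd₃, ht₃, k3⟩ := exists_squarefree_mul_sq (sub_ne_zero.mpr hx3)
    have hw : ∃ w : ℤ, d₁ * d₂ * d₃ = w ^ 2 := by
      apply int_of_sq_int (r := η / (2 * (t₁ * t₂ * t₃)))
      rw [div_pow, hη, k1, k2, k3]
      push_cast
      field_simp
      ring
    have hloc : ∀ (K : Type) [Field K] [Algebra ℚ K], LocCond e₁ e₂ e₃ d₁ d₂ d₃ K := by
      intro K _ _
      refine Or.inr ⟨algebraMap ℚ K x, algebraMap ℚ K t₁, algebraMap ℚ K t₂, algebraMap ℚ K t₃,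
        ?_, ?_, ?_⟩
      · rw [← map_sub, k1, map_mul, map_pow, map_intCast]
      · rw [← map_sub, k2, map_mul, map_pow, map_intCast]
      · rw [← map_sub, k3, map_mul, map_pow, map_intCast]
    obtain ⟨w, hw'⟩ := hw
    rcases hS d₁ d₂ d₃ hd₁ hd₂ hd₃ ⟨w, hw'⟩ (hloc ℝ) (fun p _ => hloc ℚ_[p]) with
      ⟨rfl, rfl, rfl⟩ | ⟨r₂, r₃, hr₂, hr₃⟩ | ⟨r₃, r₁, hr₃, hr₁⟩ | ⟨r₁, r₂, hr₁, hr₂⟩
    · obtain ⟨R, hR⟩ : ∃ R, R + R = h.pt x η hη :=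
        isTwo_of_sq h hη ⟨t₁, by rw [k1]; push_cast; ring⟩ ⟨t₂, by rw [k2]; push_cast; ring⟩
          ⟨t₃, by rw [k3]; push_cast; ring⟩
      exact ⟨0, R, add_zero 0, by rw [hR, zero_add]⟩
    · obtain ⟨R, hR⟩ := descent_aux h hη hx1 hd₁.ne_zero hw' k1 k2 k3 hr₂ hr₃
      exact ⟨h.T, R, h.two_T, hR⟩
    · have hη' : η ^ 2 = 4 * ((x - e₂) * (x - e₃) * (x - e₁)) := by rw [hη]; ring
      obtain ⟨R, hR⟩ := descent_aux h.rot hη' hx2 hd₂.ne_zero (w := w) (by rw [← hw']; ring)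
        k2 k3 k1 hr₃ hr₁
      exact ⟨h.rot.T, R, h.rot.two_T, hR⟩
    · have hη' : η ^ 2 = 4 * ((x - e₃) * (x - e₁) * (x - e₂)) := by rw [hη]; ring
      obtain ⟨R, hR⟩ := descent_aux h.rot.rot hη' hx3 hd₃.ne_zero (w := w) (by rw [← hw']; ring)
        k3 k1 k2 hr₁ hr₂
      exact ⟨h.rot.rot.T, R, h.rot.rot.two_T, hR⟩

/-! ### The short model -/

theorem SelTriv.scale (hS : SelTriv e₁ e₂ e₃) (c : ℚ) :
    SelTriv (4 * e₁ + c) (4 * e₂ + c) (4 * e₃ + c) := by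
  intro d₁ d₂ d₃ h₁ h₂ h₃ hw hR hp
  have key : ∀ (K : Type) [Field K] [Algebra ℚ K],
      LocCond (4 * e₁ + c) (4 * e₂ + c) (4 * e₃ + c) d₁ d₂ d₃ K → LocCond e₁ e₂ e₃ d₁ d₂ d₃ K := by
    intro K _ _ hK
    have := algebraRat.charZero K
    rcases hK with hK | ⟨x, s₁, s₂, s₃, hs₁, hs₂, hs₃⟩
    · exact Or.inl hK
    · have h4 : (4 : K) ≠ 0 := by norm_num
      refine Or.inr ⟨(x - algebraMap ℚ K c) / 4, s₁ / 2, s₂ / 2, s₃ / 2, ?_, ?_, ?_⟩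
      · rw [map_add, map_mul, map_ofNat] at hs₁
        field_simp
        linear_combination 4 * hs₁
      · rw [map_add, map_mul, map_ofNat] at hs₂
        field_simp
        linear_combination 4 * hs₂
      · rw [map_add, map_mul, map_ofNat] at hs₃
        field_simp
        linear_combination 4 * hs₃
  rcases hS d₁ d₂ d₃ h₁ h₂ h₃ hw (key ℝ hR) (fun p _ => key ℚ_[p] (hp p)) with
      ⟨rfl, rfl, rfl⟩ | ⟨r₂, r₃, hr₂, hr₃⟩ | ⟨r₃, r₁, hr₃, hr₁⟩ | ⟨r₁, r₂, hr₁, hr₂⟩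
  · exact Or.inl ⟨rfl, rfl, rfl⟩
  · exact Or.inr (Or.inl ⟨2 * r₂, 2 * r₃, by linear_combination 4 * hr₂,
      by linear_combination 4 * hr₃⟩)
  · exact Or.inr (Or.inr (Or.inl ⟨2 * r₃, 2 * r₁, by linear_combination 4 * hr₃,
      by linear_combination 4 * hr₁⟩))
  · exact Or.inr (Or.inr (Or.inr ⟨2 * r₁, 2 * r₂, by linear_combination 4 * hr₁,
      by linear_combination 4 * hr₂⟩))

/-- `y² = x (x + n) (x + 17 n)` -/
def short (n : ℚ) : WeierstrassCurve ℚ where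
  a₁ := 0
  a₂ := 18 * n
  a₃ := 0
  a₄ := 17 * n ^ 2
  a₆ := 0

theorem short_T3 {n : ℚ} (hn : n ≠ 0) : T3 (short n) 0 (-n) (-17 * n) := by
  refine ⟨two_ne_zero, ?_, ?_, ?_, ?_, ?_, ?_⟩
  · simp only [short, WeierstrassCurve.b₂]; ring
  · simp only [short, WeierstrassCurve.b₄]; ring
  · simp only [short, WeierstrassCurve.b₆]; ring
  · intro hc; apply hn; linarith
  · intro hc; apply hn; linarith
  · intro hc; apply hn; linarith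

theorem short_isElliptic {n : ℚ} (hn : n ≠ 0) : (short n).IsElliptic := by
  rw [WeierstrassCurve.isElliptic_iff]
  simp only [short, WeierstrassCurve.Δ, WeierstrassCurve.b₂, WeierstrassCurve.b₄,
    WeierstrassCurve.b₆, WeierstrassCurve.b₈]
  rw [isUnit_iff_ne_zero]
  have : (-(0 ^ 2 + 4 * (18 * n)) ^ 2 * (0 ^ 2 * 0 + 4 * (18 * n) * 0 - 0 * 0 * (17 * n ^ 2) +
      18 * n * 0 ^ 2 - (17 * n ^ 2) ^ 2) - 8 * (2 * (17 * n ^ 2) + 0 * 0) ^ 3 -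
      27 * (0 ^ 2 + 4 * 0) ^ 2 + 9 * (0 ^ 2 + 4 * (18 * n)) * (2 * (17 * n ^ 2) + 0 * 0) *
      (0 ^ 2 + 4 * 0)) = 1183744 * n ^ 6 := by ring
  rw [this]
  positivity

theorem finite_short {n : ℕ} (H : HypN n) : Finite (short n).toAffine.Point := by
  have hn : (n : ℚ) ≠ 0 := by exact_mod_cast H.n0
  have hT := short_T3 hn
  have hS : SelTriv 0 (-(n : ℚ)) (-17 * (n : ℚ)) := by
    have h1 := (H.sel).scale (-5 * n)
    push_cast at h1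
    convert h1 using 1 <;> ring
  have := short_isElliptic hn
  refine finite_of_descent (short n) rfl rfl {P | P + P = 0} ?_ 2 (by norm_num)
    (fun T hT => by rw [two_nsmul]; exact hT) ?_
  · apply Set.Finite.subset (Set.toFinite {0, hT.T, hT.rot.T, hT.rot.rot.T})
    intro P hP
    rcases hT.two_torsion hP with h1 | h1 | h1 | h1 <;> simp [h1]
  · intro P
    obtain ⟨t, R, ht, hP⟩ := descent hT hS P
    exact ⟨t, ht, R, by rw [hP, two_nsmul]⟩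

/-- **Finiteness of `E(ℚ)`.** -/
theorem finite_tw {n : ℕ} (H : HypN n) {k : ℤ} (hk : 4 * k + 1 = -(n : ℤ)) :
    Finite (tw k).toAffine.Point := by
  have hn : (n : ℚ) ≠ 0 := by exact_mod_cast H.n0
  have hT := short_T3 hn
  have hT' := tw_T3 H.n0 hk
  have := finite_short H
  have hmap : ∀ P : (tw k).toAffine.Point, ∃ Q : (short n).toAffine.Point,
      (P = 0 → Q = 0) ∧ ∀ x η hη, P = hT'.pt x η hη → ∃ hh, Q = hT.pt (4 * x - 5 * n) (8 * η) hh := by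
    intro P
    rcases hT'.eq_zero_or_pt P with rfl | ⟨x, η, hη, rfl⟩
    · exact ⟨0, fun _ => rfl, fun x η hη h0 => absurd h0.symm (hT'.pt_ne_zero _ _ _)⟩
    · have hh : (8 * η) ^ 2 = 4 * ((4 * x - 5 * n - 0) * (4 * x - 5 * n - -(n : ℚ)) *
          (4 * x - 5 * n - -17 * (n : ℚ))) := by
        rw [mul_pow, hη]; push_cast; ring
      refine ⟨hT.pt _ _ hh, fun h0 => absurd h0 (hT'.pt_ne_zero _ _ _), ?_⟩
      intro x' η' hη' he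
      obtain ⟨rfl, rfl⟩ := hT'.pt_inj he
      exact ⟨hh, rfl⟩
  choose f hf0 hf using hmap
  apply Finite.of_injective f
  intro P P' hPP
  rcases hT'.eq_zero_or_pt P with h1 | ⟨x, η, hη, h1⟩ <;>
  rcases hT'.eq_zero_or_pt P' with h2 | ⟨x', η', hη', h2⟩
  · rw [h1, h2]
  · obtain ⟨hh, h3⟩ := hf P' x' η' hη' h2
    rw [hf0 P h1, h3] at hPP
    exact absurd hPP.symm (hT.pt_ne_zero _ _ _)
  · obtain ⟨hh, h3⟩ := hf P x η hη h1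
    rw [hf0 P' h2, h3] at hPP
    exact absurd hPP (hT.pt_ne_zero _ _ _)
  · obtain ⟨hh, h3⟩ := hf P x η hη h1
    obtain ⟨hh', h3'⟩ := hf P' x' η' hη' h2
    rw [h3, h3'] at hPP
    obtain ⟨h4, h5⟩ := hT.pt_inj hPP
    rw [h1, h2]
    exact hT'.pt_congr (by linarith) (by linarith)

end Vale.Agent.P014.H71
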