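import Vale.Agent.P014.H71.PPart
import Vale.Agent.P014.H71.Nsq
import Vale.Agent.P014.H71.HypCl
import Vale.Agent.P014.H74.C2
import Vale.Agent.P014.H581.BDCl
import Vale.Agent.P014.H70.Glue
import Vale.Agent.P014.H483.FinL
import Vale.Agent.P014.H582.Fam

/-!
# The final assembly
-/

namespace Vale.Agent.P014.H71

open NumberField Vale.Agent.P017.H185
open Vale.Agent.P014.H70 (Kn qf r3)
open Vale.Agent.P014.H74 (ell BD nsq Ca PV)
open Vale.Agent.P014.H483 (rhoO)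
open Vale.Agent.P014.H687 (an)

theorem BD_exists {K : Type} [Field K] [NumberField K] {n : ℕ} (q : QF K n) (hn : n % 4 = 3)
    (h17 : jacobiSym n 17 = -1) (hn3 : 3 < n) :
    ∃ phi chi, BD n (ClassGroup (𝓞 K)) phi chi := by
  obtain ⟨l, r, phi, h⟩ := H70.exists_theta (q := q) hn h17
  exact ⟨phi, _, H581.BD_of_Theta hn h17 hn3 h⟩

/-- the algebraic part of the value of the `L`-function -/
theorem exists_P {K : Type} [Field K] [NumberField K] {n : ℕ} (q : QF K n) (hn : Ca n)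
    (hcl : ∀ c : ClassGroup (𝓞 K), orderOf c ≠ 4) :
    ∃ (P : ℤ) (s : ℕ), Odd s ∧
      (2 : ℤ) ^ n.primeFactors.card ∣ P - 2 ^ (n.primeFactors.card - 1) * s ∧
      ell (rhoO (an r3)) n = ell (rhoO (an r3)) 3 * (P : ℝ) ^ 2 := by
  have h4 := hn.1
  by_cases h3 : n = 3
  · subst h3
    exact ⟨1, 1, odd_one, by simp [Nat.Prime.primeFactors (by norm_num : Nat.Prime 3)], by simp⟩
  · have h3' : 3 < n := by omega
    obtain ⟨phi, chi, h⟩ := BD_exists q h4 hn.2.2.1 h3'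
    obtain ⟨h1, h2⟩ := H74.main_C H74.fam_Ca (fun m hm hm3 => by
      obtain ⟨phi, chi, h⟩ := BD_exists (qf m hm.2.1) hm.1 hm.2.2.1 hm3
      exact ⟨_, _, _, phi, chi, h⟩) hn h3' h (H483.par_O H687.form17) H483.odd_O
    exact ⟨_, _, nsq_odd hcl, h2, h1⟩

/-- **the main theorem** -/
theorem main {K : Type} [Field K] [NumberField K] {n : ℕ} (q : QF K n) (h4 : n % 4 = 3)
    (hq : ∃! q : ℕ, q.Prime ∧ q ∣ n ∧ q % 4 = 3) (h17 : ¬ IsSquare (n : ZMod 17))
    (hcl : ∀ c : ClassGroup (𝓞 K), orderOf c ≠ 4) {k : ℤ} (hk : 4 * k + 1 = -(n : ℤ)) :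
    (∃ C : WeierstrassCurve.VariableChange ℚ, C • tw k = short n) ∧ GlobalMinimal (tw k) ∧
      Finite (tw k).toAffine.Point ∧ Nat.card (shaPrimary (tw k) 2) = 1 ∧
      ∃ L : ℂ → ℂ, IsHasseWeil (tw k) L ∧ L 1 ≠ 0 ∧ PPartRankZero (tw k) L 2 := by
  have hfact : Fact (Nat.Prime 17) := ⟨by norm_num⟩
  obtain ⟨q₀, H⟩ := hyp_of q h4 hq h17 hcl
  have hJ : jacobiSym n 17 = -1 := by
    have h1 := ZMod.nonsquare_iff_jacobiSym_eq_neg_one (p := 17) (a := (n : ℤ))
    have h2 := h1.mpr (by simpa using h17)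
    exact_mod_cast h2
  have hCa : Ca n := ⟨h4, q.hd, hJ, q₀, H.q₀p, H.q₀n, H.uniq⟩
  obtain ⟨P, s, hs, hd, hP⟩ := exists_P q hCa hcl
  have hco : Nat.Coprime 17 n :=
    (Nat.Prime.coprime_iff_not_dvd (by norm_num)).mpr H.not17
  obtain ⟨L, hL, ε, hε, hL1⟩ := H483.hw_value h4 q.hd hco hk hP
  have hn0 : n ≠ 0 := q.hd.ne_zero
  have hΩ := H483.realPeriod_pos hn0 hk
  have hP0 : P ≠ 0 := by
    rintro rfl
    have ht : 1 ≤ n.primeFactors.card := by
      have : 0 < n.primeFactors.card := by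
        rw [Finset.card_pos, Nat.nonempty_primeFactors]; omega
      exact this
    obtain ⟨w, hw, hw2⟩ := exists_odd ht hs hd
    have : w = 0 := by
      rcases mul_eq_zero.mp hw2.symm with h | h
      · exact absurd h (by positivity)
      · exact h
    rw [this] at hw
    simp at hw
  refine ⟨tw_iso_short hk, globalMinimal_tw q.hd hk, finite_tw H.toN hk, sha_tw H.toN hk, L, hL, ?_, ?_⟩
  · rw [hL1]
    have hε0 : ε ≠ 0 := by rcases hε with h | h <;> rw [h] <;> norm_num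
    have hP0' : (P : ℝ) ≠ 0 := by exact_mod_cast hP0
    exact_mod_cast mul_ne_zero (div_ne_zero (mul_ne_zero hε0 (pow_ne_zero 2 hP0')) two_ne_zero)
      hΩ.ne'
  · refine ppart_of H.toN hk hε (P := P) ?_ hs hd
    rw [hL1, realPeriod_tw hn0 hk]
    congr 1
    ring

end Vale.Agent.P014.H71
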