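import Mathlib

/-!
# Weierstrass curves with full rational 2-torsion

`T3 W e₁ e₂ e₃`: the polynomial `4x³ + b₂x² + 2b₄x + b₆` of `W` is `4(x-e₁)(x-e₂)(x-e₃)`, with
distinct roots.
-/

namespace Vale.Agent.P014.H71

open WeierstrassCurve

variable {F : Type*} [Field F]

/-- `W` has full 2-torsion, with `x`-coordinates `e₁ e₂ e₃`. -/
structure T3 (W : WeierstrassCurve F) (e₁ e₂ e₃ : F) : Prop where
  h2 : (2 : F) ≠ 0
  b2 : W.b₂ = -4 * (e₁ + e₂ + e₃)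
  b4 : W.b₄ = 2 * (e₁ * e₂ + e₁ * e₃ + e₂ * e₃)
  b6 : W.b₆ = -4 * (e₁ * e₂ * e₃)
  h12 : e₁ ≠ e₂
  h13 : e₁ ≠ e₃
  h23 : e₂ ≠ e₃

/-- `2y + a₁x + a₃` -/
def eta (W : WeierstrassCurve F) (x y : F) : F := 2 * y + W.a₁ * x + W.a₃

/-- `ρ₁ = ((x - e₁)² - (e₁ - e₂)(e₁ - e₃)) / η` -/
def rho (e₁ e₂ e₃ x η : F) : F := ((x - e₁) ^ 2 - (e₁ - e₂) * (e₁ - e₃)) / η

namespace T3

variable {W : WeierstrassCurve F} {e₁ e₂ e₃ : F}

theorem rot (h : T3 W e₁ e₂ e₃) : T3 W e₂ e₃ e₁ :=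
  ⟨h.h2, by rw [h.b2]; ring, by rw [h.b4]; ring, by rw [h.b6]; ring, h.h23, h.h12.symm, h.h13.symm⟩

theorem swap (h : T3 W e₁ e₂ e₃) : T3 W e₁ e₃ e₂ :=
  ⟨h.h2, by rw [h.b2]; ring, by rw [h.b4]; ring, by rw [h.b6]; ring, h.h13, h.h12, h.h23.symm⟩

theorem h4 (h : T3 W e₁ e₂ e₃) : (4 : F) ≠ 0 := by
  have : (4 : F) = 2 * 2 := by norm_num
  rw [this]; exact mul_ne_zero h.h2 h.h2

theorem eta_sq (h : T3 W e₁ e₂ e₃) {x y : F} (hxy : W.toAffine.Equation x y) :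
    eta W x y ^ 2 = 4 * ((x - e₁) * (x - e₂) * (x - e₃)) := by
  rw [Affine.equation_iff] at hxy
  have h1 : eta W x y ^ 2 = 4 * x ^ 3 + W.b₂ * x ^ 2 + 2 * W.b₄ * x + W.b₆ := by
    simp only [eta, b₂, b₄, b₆]
    linear_combination 4 * hxy
  rw [h1, h.b2, h.b4, h.b6]; ring

theorem equation_of_eta (h : T3 W e₁ e₂ e₃) {x y : F}
    (hxy : eta W x y ^ 2 = 4 * ((x - e₁) * (x - e₂) * (x - e₃))) : W.toAffine.Equation x y := by
  rw [Affine.equation_iff]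
  have h1 : eta W x y ^ 2 = 4 * x ^ 3 + W.b₂ * x ^ 2 + 2 * W.b₄ * x + W.b₆ := by
    rw [hxy, h.b2, h.b4, h.b6]; ring
  simp only [eta, b₂, b₄, b₆] at h1
  apply mul_left_cancel₀ h.h4
  linear_combination h1

theorem nonsing (h : T3 W e₁ e₂ e₃) {x y : F} (hxy : W.toAffine.Equation x y) :
    W.toAffine.Nonsingular x y := by
  rw [Affine.nonsingular_iff']
  refine ⟨hxy, ?_⟩
  by_contra hcon
  push Not at hcon
  obtain ⟨hx, hy⟩ := hcon
  have h1 : eta W x y = 0 := hy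
  have h2 := h.eta_sq hxy
  have h3 : 6 * x ^ 2 + W.b₂ * x + W.b₄ = 0 := by
    have h1' := h1
    simp only [eta] at h1'
    simp only [b₂, b₄]
    linear_combination (-2) * hx + W.a₁ * h1'
  rw [h.b2, h.b4] at h3
  have h3' : (x - e₁) * (x - e₂) + (x - e₁) * (x - e₃) + (x - e₂) * (x - e₃) = 0 := by
    apply mul_left_cancel₀ h.h2
    linear_combination h3
  rw [h1] at h2
  have h4 : (x - e₁) * (x - e₂) * (x - e₃) = 0 := by
    apply mul_left_cancel₀ h.h4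
    linear_combination -h2
  rcases mul_eq_zero.mp h4 with h5 | h5
  · rcases mul_eq_zero.mp h5 with h6 | h6
    · have h7 : x = e₁ := by linear_combination h6
      rw [h7] at h3'
      have : (e₁ - e₂) * (e₁ - e₃) = 0 := by linear_combination h3'
      rcases mul_eq_zero.mp this with h8 | h8
      · exact h.h12 (by linear_combination h8)
      · exact h.h13 (by linear_combination h8)
    · have h7 : x = e₂ := by linear_combination h6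
      rw [h7] at h3'
      have : (e₁ - e₂) * (e₂ - e₃) = 0 := by linear_combination -h3'
      rcases mul_eq_zero.mp this with h8 | h8
      · exact h.h12 (by linear_combination h8)
      · exact h.h23 (by linear_combination h8)
  · have h7 : x = e₃ := by linear_combination h5
    rw [h7] at h3'
    have : (e₁ - e₃) * (e₂ - e₃) = 0 := by linear_combination h3'
    rcases mul_eq_zero.mp this with h8 | h8
    · exact h.h13 (by linear_combination h8)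
    · exact h.h23 (by linear_combination h8)

theorem eta_half (h : T3 W e₁ e₂ e₃) (x η : F) :
    eta W x ((η - W.a₁ * x - W.a₃) / 2) = η := by
  have := h.h2
  simp only [eta]; field_simp; ring

/-- the point with given `x` and `2y + a₁x + a₃` -/
def pt (h : T3 W e₁ e₂ e₃) (x η : F) (hη : η ^ 2 = 4 * ((x - e₁) * (x - e₂) * (x - e₃))) :
    W.toAffine.Point :=
  .some x ((η - W.a₁ * x - W.a₃) / 2) (h.nonsing (h.equation_of_eta (by rw [h.eta_half]; exact hη)))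

/-- the 2-torsion point with `x = e₁` -/
def T (h : T3 W e₁ e₂ e₃) : W.toAffine.Point := h.pt e₁ 0 (by ring)

theorem eq_of_eta (h : T3 W e₁ e₂ e₃) {x y y' : F} (hη : eta W x y = eta W x y') : y = y' := by
  simp only [eta] at hη
  apply mul_left_cancel₀ h.h2
  linear_combination hη

theorem some_eq_some (h : T3 W e₁ e₂ e₃) {x y x' y' : F} {hn : W.toAffine.Nonsingular x y}
    {hn' : W.toAffine.Nonsingular x' y'} (hx : x = x') (hη : eta W x y = eta W x' y') :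
    (Affine.Point.some x y hn : W.toAffine.Point) = .some x' y' hn' := by
  subst hx
  have := h.eq_of_eta hη
  subst this
  rfl

theorem some_eq_pt (h : T3 W e₁ e₂ e₃) {x y : F} (hn : W.toAffine.Nonsingular x y) :
    (Affine.Point.some x y hn : W.toAffine.Point) = h.pt x (eta W x y) (h.eta_sq hn.1) :=
  h.some_eq_some rfl (by rw [h.eta_half])

theorem pt_congr (h : T3 W e₁ e₂ e₃) {x η x' η' : F} {h1 h2} (hx : x = x') (hη : η = η') :
    h.pt x η h1 = h.pt x' η' h2 := by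
  subst hx hη; rfl

theorem neg_pt (h : T3 W e₁ e₂ e₃) (x η : F) (hη) :
    -(h.pt x η hη) = h.pt x (-η) (by rw [neg_sq]; exact hη) := by
  unfold pt
  rw [Affine.Point.neg_some]
  refine h.some_eq_some rfl ?_
  rw [h.eta_half]
  have := h.h2
  simp only [eta, Affine.negY]; field_simp; ring

variable [DecidableEq F]

theorem pt_add_pt_neg (h : T3 W e₁ e₂ e₃) (x η : F) (hη) :
    h.pt x η hη + h.pt x (-η) (by rw [neg_sq]; exact hη) = 0 := by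
  rw [← h.neg_pt x η hη, add_neg_cancel]

theorem two_pt_of_zero (h : T3 W e₁ e₂ e₃) (x : F) (hη) : h.pt x 0 hη + h.pt x 0 hη = 0 := by
  have := h.pt_add_pt_neg x 0 hη
  simpa using this

theorem two_T (h : T3 W e₁ e₂ e₃) : h.T + h.T = 0 := h.two_pt_of_zero _ _

/-- chord addition -/
theorem pt_add_pt (h : T3 W e₁ e₂ e₃) {x₁ η₁ x₂ η₂ : F} (h1 h2) (hx : x₁ ≠ x₂) :
    ∃ hh, h.pt x₁ η₁ h1 + h.pt x₂ η₂ h2 =
      h.pt ((((η₁ - η₂) / (x₁ - x₂)) ^ 2) / 4 + (e₁ + e₂ + e₃) - x₁ - x₂)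
        (-((η₁ - η₂) / (x₁ - x₂) *
          ((((η₁ - η₂) / (x₁ - x₂)) ^ 2) / 4 + (e₁ + e₂ + e₃) - x₁ - x₂ - x₁) + η₁)) hh := by
  have hx' : x₁ - x₂ ≠ 0 := sub_ne_zero.mpr hx
  have h2' := h.h2
  have h4' := h.h4
  set y₁ : F := (η₁ - W.a₁ * x₁ - W.a₃) / 2 with hy₁
  set y₂ : F := (η₂ - W.a₁ * x₂ - W.a₃) / 2 with hy₂
  have hb2 : W.a₁ ^ 2 + 4 * W.a₂ = -4 * (e₁ + e₂ + e₃) := by rw [← h.b2]; rfl
  have hs : W.toAffine.slope x₁ x₂ y₁ y₂ = ((η₁ - η₂) / (x₁ - x₂) - W.a₁) / 2 := by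
    rw [Affine.slope_of_X_ne hx, hy₁, hy₂]
    field_simp
    ring
  have hX : W.toAffine.addX x₁ x₂ (W.toAffine.slope x₁ x₂ y₁ y₂) =
      (((η₁ - η₂) / (x₁ - x₂)) ^ 2) / 4 + (e₁ + e₂ + e₃) - x₁ - x₂ := by
    rw [hs, Affine.addX]
    apply mul_left_cancel₀ h4'
    generalize (η₁ - η₂) / (x₁ - x₂) = m
    have e1 : 4 * (((m - W.a₁) / 2) ^ 2) = (m - W.a₁) ^ 2 := by
      rw [div_pow]; norm_num; field_simp
    have e2 : 2 * ((m - W.a₁) / 2) = m - W.a₁ := by field_simp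
    have e3 : 4 * (m ^ 2 / 4) = m ^ 2 := by field_simp
    linear_combination e1 + 2 * W.a₁ * e2 - e3 - hb2
  have key : h.pt x₁ η₁ h1 + h.pt x₂ η₂ h2 = .some _ _
      (Affine.nonsingular_add (W := W.toAffine) (x₁ := x₁) (x₂ := x₂) (y₁ := y₁) (y₂ := y₂)
        (h.nonsing (h.equation_of_eta (by rw [h.eta_half]; exact h1)))
        (h.nonsing (h.equation_of_eta (by rw [h.eta_half]; exact h2)))
        fun hxy => hx hxy.left) := Affine.Point.add_of_X_ne hx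
  have hη : eta W (W.toAffine.addX x₁ x₂ (W.toAffine.slope x₁ x₂ y₁ y₂))
      (W.toAffine.addY x₁ x₂ y₁ (W.toAffine.slope x₁ x₂ y₁ y₂)) =
        (-((η₁ - η₂) / (x₁ - x₂) *
          ((((η₁ - η₂) / (x₁ - x₂)) ^ 2) / 4 + (e₁ + e₂ + e₃) - x₁ - x₂ - x₁) + η₁)) := by
    rw [Affine.addY, Affine.negAddY, hX, hs]
    simp only [eta, Affine.negY]
    rw [hy₁]
    generalize (η₁ - η₂) / (x₁ - x₂) = m
    generalize m ^ 2 / 4 + (e₁ + e₂ + e₃) - x₁ - x₂ = X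
    have e2 : 2 * ((m - W.a₁) / 2) = m - W.a₁ := by field_simp
    have e3 : 2 * ((η₁ - W.a₁ * x₁ - W.a₃) / 2) = η₁ - W.a₁ * x₁ - W.a₃ := by field_simp
    linear_combination -(X - x₁) * e2 - e3
  have hh := h.eta_sq (Affine.nonsingular_add (W := W.toAffine) (x₁ := x₁) (x₂ := x₂) (y₁ := y₁)
        (y₂ := y₂)
        (h.nonsing (h.equation_of_eta (by rw [h.eta_half]; exact h1)))
        (h.nonsing (h.equation_of_eta (by rw [h.eta_half]; exact h2)))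
        fun hxy => hx hxy.left).1
  rw [hη, hX] at hh
  refine ⟨hh, ?_⟩
  rw [key, h.some_eq_pt]
  exact h.pt_congr hX hη

/-- doubling -/
theorem two_pt (h : T3 W e₁ e₂ e₃) {x η : F} (h1) (hη0 : η ≠ 0) :
    ∃ hh, h.pt x η h1 + h.pt x η h1 =
      h.pt (((2 * ((x - e₁) * (x - e₂) + (x - e₁) * (x - e₃) + (x - e₂) * (x - e₃)) / η) ^ 2) / 4
          + (e₁ + e₂ + e₃) - x - x)
        (-(2 * ((x - e₁) * (x - e₂) + (x - e₁) * (x - e₃) + (x - e₂) * (x - e₃)) / η *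
          (((2 * ((x - e₁) * (x - e₂) + (x - e₁) * (x - e₃) + (x - e₂) * (x - e₃)) / η) ^ 2) / 4
          + (e₁ + e₂ + e₃) - x - x - x) + η)) hh := by
  have h2' := h.h2
  have h4' := h.h4
  set y : F := (η - W.a₁ * x - W.a₃) / 2 with hy
  have hb2 : W.a₁ ^ 2 + 4 * W.a₂ = -4 * (e₁ + e₂ + e₃) := by rw [← h.b2]; rfl
  have hb4 : 2 * W.a₄ + W.a₁ * W.a₃ = 2 * (e₁ * e₂ + e₁ * e₃ + e₂ * e₃) := by rw [← h.b4]; rfl
  have e3 : 2 * y = η - W.a₁ * x - W.a₃ := by rw [hy]; field_simp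
  have hne : y ≠ W.toAffine.negY x y := by
    intro hc
    apply hη0
    simp only [Affine.negY] at hc
    linear_combination hc - e3
  have hs : W.toAffine.slope x x y y =
      (2 * ((x - e₁) * (x - e₂) + (x - e₁) * (x - e₃) + (x - e₂) * (x - e₃)) / η - W.a₁) / 2 := by
    rw [Affine.slope_of_Y_ne rfl hne]
    have hden : y - W.toAffine.negY x y = η := by
      simp only [Affine.negY]
      linear_combination e3
    rw [hden, div_eq_iff hη0]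
    apply mul_left_cancel₀ h2'
    have e4 : 2 * ((2 * ((x - e₁) * (x - e₂) + (x - e₁) * (x - e₃) + (x - e₂) * (x - e₃)) / η - W.a₁)
        / 2 * η) = 2 * ((x - e₁) * (x - e₂) + (x - e₁) * (x - e₃) + (x - e₂) * (x - e₃))
          - W.a₁ * η := by
      field_simp
    rw [e4]
    linear_combination hb4 + x * hb2 - W.a₁ * e3
  have hX : W.toAffine.addX x x (W.toAffine.slope x x y y) =
      (((2 * ((x - e₁) * (x - e₂) + (x - e₁) * (x - e₃) + (x - e₂) * (x - e₃)) / η) ^ 2) / 4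
          + (e₁ + e₂ + e₃) - x - x) := by
    rw [hs, Affine.addX]
    apply mul_left_cancel₀ h4'
    generalize 2 * ((x - e₁) * (x - e₂) + (x - e₁) * (x - e₃) + (x - e₂) * (x - e₃)) / η = m
    have e1 : 4 * (((m - W.a₁) / 2) ^ 2) = (m - W.a₁) ^ 2 := by
      rw [div_pow]; norm_num; field_simp
    have e2 : 2 * ((m - W.a₁) / 2) = m - W.a₁ := by field_simp
    have e3 : 4 * (m ^ 2 / 4) = m ^ 2 := by field_simp
    linear_combination e1 + 2 * W.a₁ * e2 - e3 - hb2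
  have key : h.pt x η h1 + h.pt x η h1 = .some _ _
      (Affine.nonsingular_add (W := W.toAffine) (x₁ := x) (x₂ := x) (y₁ := y) (y₂ := y)
        (h.nonsing (h.equation_of_eta (by rw [h.eta_half]; exact h1)))
        (h.nonsing (h.equation_of_eta (by rw [h.eta_half]; exact h1)))
        fun hxy => hne hxy.right) := Affine.Point.add_self_of_Y_ne hne
  have hη : eta W (W.toAffine.addX x x (W.toAffine.slope x x y y))
      (W.toAffine.addY x x y (W.toAffine.slope x x y y)) =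
        (-(2 * ((x - e₁) * (x - e₂) + (x - e₁) * (x - e₃) + (x - e₂) * (x - e₃)) / η *
          (((2 * ((x - e₁) * (x - e₂) + (x - e₁) * (x - e₃) + (x - e₂) * (x - e₃)) / η) ^ 2) / 4
          + (e₁ + e₂ + e₃) - x - x - x) + η)) := by
    rw [Affine.addY, Affine.negAddY, hX, hs]
    simp only [eta, Affine.negY]
    generalize 2 * ((x - e₁) * (x - e₂) + (x - e₁) * (x - e₃) + (x - e₂) * (x - e₃)) / η = m
    generalize m ^ 2 / 4 + (e₁ + e₂ + e₃) - x - x = X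
    have e2 : 2 * ((m - W.a₁) / 2) = m - W.a₁ := by field_simp
    linear_combination -(X - x) * e2 - e3
  have hh := h.eta_sq (Affine.nonsingular_add (W := W.toAffine) (x₁ := x) (x₂ := x) (y₁ := y)
        (y₂ := y)
        (h.nonsing (h.equation_of_eta (by rw [h.eta_half]; exact h1)))
        (h.nonsing (h.equation_of_eta (by rw [h.eta_half]; exact h1)))
        fun hxy => hne hxy.right).1
  rw [hη, hX] at hh
  refine ⟨hh, ?_⟩
  rw [key, h.some_eq_pt]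
  exact h.pt_congr hX hη

omit [DecidableEq F] in
theorem rho_swap (x η : F) : rho e₁ e₃ e₂ x η = rho e₁ e₂ e₃ x η := by
  unfold rho; ring

theorem two_pt_rho (h : T3 W e₁ e₂ e₃) {x η : F} (h1) (hη0 : η ≠ 0) :
    ∃ X Y, ∃ hh, h.pt x η h1 + h.pt x η h1 = h.pt X Y hh ∧ X - e₁ = rho e₁ e₂ e₃ x η ^ 2 ∧
      X - e₂ = rho e₂ e₃ e₁ x η ^ 2 ∧ X - e₃ = rho e₃ e₁ e₂ x η ^ 2 := by
  obtain ⟨hh, h2⟩ := h.two_pt h1 hη0
  refine ⟨_, _, hh, h2, ?_, ?_, ?_⟩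
  all_goals
    have h4' := h.h4
    have hη2 : η ^ 2 ≠ 0 := pow_ne_zero 2 hη0
    apply mul_right_cancel₀ hη2
    unfold rho
    rw [div_pow, div_pow, div_mul_cancel₀ _ hη2]
    apply mul_left_cancel₀ h4'
    have e : ∀ A B : F, 4 * ((A / η ^ 2 / 4 + B) * η ^ 2) = A + 4 * B * η ^ 2 := by
      intro A B; field_simp
  · have := e ((2 * ((x - e₁) * (x - e₂) + (x - e₁) * (x - e₃) + (x - e₂) * (x - e₃))) ^ 2)
      (e₁ + e₂ + e₃ - x - x - e₁)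
    rw [h1] at this ⊢
    linear_combination this
  · have := e ((2 * ((x - e₁) * (x - e₂) + (x - e₁) * (x - e₃) + (x - e₂) * (x - e₃))) ^ 2)
      (e₁ + e₂ + e₃ - x - x - e₂)
    rw [h1] at this ⊢
    linear_combination this
  · have := e ((2 * ((x - e₁) * (x - e₂) + (x - e₁) * (x - e₃) + (x - e₂) * (x - e₃))) ^ 2)
      (e₁ + e₂ + e₃ - x - x - e₃)
    rw [h1] at this ⊢
    linear_combination this

/-- halving -/
theorem half (h : T3 W e₁ e₂ e₃) {x η : F} (h1) {r₁ r₂ r₃ : F} (hr1 : r₁ ^ 2 = x - e₁)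
    (hr2 : r₂ ^ 2 = x - e₂) (hr3 : r₃ ^ 2 = x - e₃) (hr : η = 2 * (r₁ * r₂ * r₃)) :
    ∃ hh, h.pt (x + r₁ * r₂ + r₁ * r₃ + r₂ * r₃) (2 * ((r₁ + r₂) * (r₁ + r₃) * (r₂ + r₃))) hh +
      h.pt (x + r₁ * r₂ + r₁ * r₃ + r₂ * r₃) (2 * ((r₁ + r₂) * (r₁ + r₃) * (r₂ + r₃))) hh =
        h.pt x η h1 := by
  have hh : (2 * ((r₁ + r₂) * (r₁ + r₃) * (r₂ + r₃))) ^ 2 =
      4 * ((x + r₁ * r₂ + r₁ * r₃ + r₂ * r₃ - e₁) * (x + r₁ * r₂ + r₁ * r₃ + r₂ * r₃ - e₂) *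
        (x + r₁ * r₂ + r₁ * r₃ + r₂ * r₃ - e₃)) := by
    have e1 : e₁ = x - r₁ ^ 2 := by rw [hr1]; ring
    have e2 : e₂ = x - r₂ ^ 2 := by rw [hr2]; ring
    have e3 : e₃ = x - r₃ ^ 2 := by rw [hr3]; ring
    rw [e1, e2, e3]; ring
  have h12 : r₁ + r₂ ≠ 0 := by
    intro hc
    apply h.h12
    have : (r₁ + r₂) * (r₁ - r₂) = e₂ - e₁ := by linear_combination hr1 - hr2
    rw [hc] at this
    linear_combination this
  have h13 : r₁ + r₃ ≠ 0 := by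
    intro hc
    apply h.h13
    have : (r₁ + r₃) * (r₁ - r₃) = e₃ - e₁ := by linear_combination hr1 - hr3
    rw [hc] at this
    linear_combination this
  have h23 : r₂ + r₃ ≠ 0 := by
    intro hc
    apply h.h23
    have : (r₂ + r₃) * (r₂ - r₃) = e₃ - e₂ := by linear_combination hr2 - hr3
    rw [hc] at this
    linear_combination this
  have hP : (r₁ + r₂) * (r₁ + r₃) * (r₂ + r₃) ≠ 0 := mul_ne_zero (mul_ne_zero h12 h13) h23
  refine ⟨hh, ?_⟩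
  obtain ⟨hh', h2⟩ := h.two_pt hh (mul_ne_zero h.h2 hP)
  rw [h2]
  have hm : 2 * ((x + r₁ * r₂ + r₁ * r₃ + r₂ * r₃ - e₁) * (x + r₁ * r₂ + r₁ * r₃ + r₂ * r₃ - e₂) +
      (x + r₁ * r₂ + r₁ * r₃ + r₂ * r₃ - e₁) * (x + r₁ * r₂ + r₁ * r₃ + r₂ * r₃ - e₃) +
      (x + r₁ * r₂ + r₁ * r₃ + r₂ * r₃ - e₂) * (x + r₁ * r₂ + r₁ * r₃ + r₂ * r₃ - e₃)) /
        (2 * ((r₁ + r₂) * (r₁ + r₃) * (r₂ + r₃))) = 2 * (r₁ + r₂ + r₃) := by
    rw [div_eq_iff (mul_ne_zero h.h2 hP)]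
    have e1 : e₁ = x - r₁ ^ 2 := by rw [hr1]; ring
    have e2 : e₂ = x - r₂ ^ 2 := by rw [hr2]; ring
    have e3 : e₃ = x - r₃ ^ 2 := by rw [hr3]; ring
    rw [e1, e2, e3]; ring
  have hX : (2 * ((x + r₁ * r₂ + r₁ * r₃ + r₂ * r₃ - e₁) * (x + r₁ * r₂ + r₁ * r₃ + r₂ * r₃ - e₂) +
      (x + r₁ * r₂ + r₁ * r₃ + r₂ * r₃ - e₁) * (x + r₁ * r₂ + r₁ * r₃ + r₂ * r₃ - e₃) +
      (x + r₁ * r₂ + r₁ * r₃ + r₂ * r₃ - e₂) * (x + r₁ * r₂ + r₁ * r₃ + r₂ * r₃ - e₃)) /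
        (2 * ((r₁ + r₂) * (r₁ + r₃) * (r₂ + r₃)))) ^ 2 / 4 + (e₁ + e₂ + e₃) -
        (x + r₁ * r₂ + r₁ * r₃ + r₂ * r₃) - (x + r₁ * r₂ + r₁ * r₃ + r₂ * r₃) = x := by
    rw [hm]
    have h4' := h.h4
    have : (2 * (r₁ + r₂ + r₃)) ^ 2 / 4 = (r₁ + r₂ + r₃) ^ 2 := by
      rw [div_eq_iff h4']; ring
    rw [this]
    linear_combination hr1 + hr2 + hr3
  refine h.pt_congr hX ?_
  rw [hX, hm, hr]
  ring

/-- translation by a point of order two -/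
theorem add_T (h : T3 W e₁ e₂ e₃) {x η : F} (h1) (hx : x ≠ e₁) :
    ∃ hh, h.pt x η h1 + h.T = h.pt (e₁ + (e₁ - e₂) * (e₁ - e₃) / (x - e₁))
      (-(η * ((e₁ - e₂) * (e₁ - e₃)) / (x - e₁) ^ 2)) hh := by
  obtain ⟨hh, h2⟩ := h.pt_add_pt h1 (x₂ := e₁) (η₂ := 0) (by ring) hx
  have hx' : x - e₁ ≠ 0 := sub_ne_zero.mpr hx
  have h4' := h.h4
  have hX : ((η - 0) / (x - e₁)) ^ 2 / 4 + (e₁ + e₂ + e₃) - x - e₁ =
      e₁ + (e₁ - e₂) * (e₁ - e₃) / (x - e₁) := by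
    rw [sub_zero, div_pow, h1]
    field_simp
    ring
  have hY : -((η - 0) / (x - e₁) * (((η - 0) / (x - e₁)) ^ 2 / 4 + (e₁ + e₂ + e₃) - x - e₁ - x)
      + η) = -(η * ((e₁ - e₂) * (e₁ - e₃)) / (x - e₁) ^ 2) := by
    rw [hX, sub_zero]
    field_simp
    ring
  have hh' := hh
  rw [hY, hX] at hh'
  refine ⟨hh', ?_⟩
  exact h2.trans (h.pt_congr hX hY)

omit [DecidableEq F] in
theorem rho_add_T1 (h : T3 W e₁ e₂ e₃) {x η : F} (hx : x ≠ e₁) (hη : η ≠ 0) :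
    rho e₁ e₂ e₃ (e₁ + (e₁ - e₂) * (e₁ - e₃) / (x - e₁))
      (-(η * ((e₁ - e₂) * (e₁ - e₃)) / (x - e₁) ^ 2)) = rho e₁ e₂ e₃ x η := by
  have hx' : x - e₁ ≠ 0 := sub_ne_zero.mpr hx
  have h12 : e₁ - e₂ ≠ 0 := sub_ne_zero.mpr h.h12
  have h13 : e₁ - e₃ ≠ 0 := sub_ne_zero.mpr h.h13
  unfold rho
  rw [div_eq_div_iff (by simp [hη, h12, h13, hx']) hη]
  field_simp
  ring

omit [DecidableEq F] in
theorem rho_add_T2 (h : T3 W e₁ e₂ e₃) {x η : F} (hx : x ≠ e₁) (hη : η ≠ 0) :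
    rho e₂ e₃ e₁ (e₁ + (e₁ - e₂) * (e₁ - e₃) / (x - e₁))
      (-(η * ((e₁ - e₂) * (e₁ - e₃)) / (x - e₁) ^ 2)) = -rho e₂ e₃ e₁ x η := by
  have hx' : x - e₁ ≠ 0 := sub_ne_zero.mpr hx
  have h12 : e₁ - e₂ ≠ 0 := sub_ne_zero.mpr h.h12
  have h13 : e₁ - e₃ ≠ 0 := sub_ne_zero.mpr h.h13
  have hden : -(η * ((e₁ - e₂) * (e₁ - e₃)) / (x - e₁) ^ 2) ≠ 0 := by
    simp [hη, h12, h13, hx']
  unfold rho
  rw [neg_div' η, div_eq_div_iff hden hη]
  field_simp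
  ring

omit [DecidableEq F] in
theorem rho_add_T3 (h : T3 W e₁ e₂ e₃) {x η : F} (hx : x ≠ e₁) (hη : η ≠ 0) :
    rho e₃ e₁ e₂ (e₁ + (e₁ - e₂) * (e₁ - e₃) / (x - e₁))
      (-(η * ((e₁ - e₂) * (e₁ - e₃)) / (x - e₁) ^ 2)) = -rho e₃ e₁ e₂ x η := by
  have hx' : x - e₁ ≠ 0 := sub_ne_zero.mpr hx
  have h12 : e₁ - e₂ ≠ 0 := sub_ne_zero.mpr h.h12
  have h13 : e₁ - e₃ ≠ 0 := sub_ne_zero.mpr h.h13
  have hden : -(η * ((e₁ - e₂) * (e₁ - e₃)) / (x - e₁) ^ 2) ≠ 0 := by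
    simp [hη, h12, h13, hx']
  unfold rho
  rw [neg_div' η, div_eq_div_iff hden hη]
  field_simp
  ring

theorem T_add_T (h : T3 W e₁ e₂ e₃) : h.T + h.rot.T = h.rot.rot.T := by
  have h1 : h.rot.T = h.pt e₂ 0 (by ring) := rfl
  obtain ⟨hh, h2⟩ := h.pt_add_pt (x₁ := e₁) (η₁ := 0) (x₂ := e₂) (η₂ := 0) (by ring) (by ring) h.h12
  have h3 : h.rot.rot.T = h.pt e₃ 0 (by ring) := rfl
  rw [h1, h3, T, h2]
  refine h.pt_congr ?_ ?_
  · rw [sub_zero, zero_div]; ring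
  · rw [sub_zero, zero_div]; ring

end T3

end Vale.Agent.P014.H71
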