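import Vale.Agent.P014.H71.Tors
import Vale.Agent.P014.Defs

/-!
# Galois theory for the 2-descent
-/

namespace Vale.Agent.P014.H71

open WeierstrassCurve

/-! ### Quadratic characters -/

theorem exists_squarefree_mul_sq {r : ℚ} (hr : r ≠ 0) :
    ∃ (d : ℤ) (t : ℚ), Squarefree d ∧ t ≠ 0 ∧ r = d * t ^ 2 := by
  have h0 : r.num * r.den ≠ 0 := mul_ne_zero (Rat.num_ne_zero.mpr hr) (by exact_mod_cast r.den_nz)
  obtain ⟨a, b, hab, ha⟩ := Nat.sq_mul_squarefree (r.num * r.den).natAbs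
  have hb : b ≠ 0 := by
    rintro rfl
    apply h0
    rw [← Int.natAbs_eq_zero, ← hab]; ring
  have hden : (r.den : ℚ) ≠ 0 := by exact_mod_cast r.den_nz
  have hbQ : (b : ℚ) ≠ 0 := by exact_mod_cast hb
  have hr2 : r = ((r.num * r.den : ℤ) : ℚ) / (r.den : ℚ) ^ 2 := by
    push_cast
    rw [sq, mul_div_mul_right _ _ hden]
    exact (Rat.num_div_den r).symm
  have habs : ((b : ℤ) ^ 2 * a : ℤ) = ((r.num * r.den : ℤ)).natAbs := by exact_mod_cast hab
  rcases Int.natAbs_eq (r.num * r.den) with h1 | h1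
  · refine ⟨a, b / r.den, Int.squarefree_natCast.mpr ha, div_ne_zero hbQ hden, ?_⟩
    have h2 : ((r.num * r.den : ℤ) : ℚ) = b ^ 2 * a := by
      rw [h1, ← habs]; push_cast; ring
    calc r = _ := hr2
      _ = _ := by rw [h2]; push_cast; field_simp
  · have hsq : Squarefree (-(a : ℤ)) :=
      Int.squarefree_natAbs.mp (by rw [Int.natAbs_neg, Int.natAbs_natCast]; exact ha)
    refine ⟨-a, b / r.den, hsq, div_ne_zero hbQ hden, ?_⟩
    have h2 : ((r.num * r.den : ℤ) : ℚ) = -(b ^ 2 * a) := by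
      rw [h1, ← habs]; push_cast; ring
    calc r = _ := hr2
      _ = _ := by rw [h2]; push_cast; field_simp

theorem isGalois_algebraicClosure (K : Type*) [Field K] [CharZero K] :
    IsGalois K (AlgebraicClosure K) := ⟨⟩

theorem isGalois_algebraicClosure_rat (i : Algebra ℚ (AlgebraicClosure ℚ)) :
    @IsGalois ℚ _ (AlgebraicClosure ℚ) _ i := by
  obtain rfl : i = AlgebraicClosure.instAlgebra ℚ := Subsingleton.elim _ _
  exact isGalois_algebraicClosure ℚ

instance : IsGalois ℚ (AlgebraicClosure ℚ) := isGalois_algebraicClosure_rat _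

theorem exists_sqrt_of_char (χ : GQ →* ℤˣ) (hχ : IsLocallyConstant χ) :
    ∃ (d : ℤ) (β : AlgebraicClosure ℚ), Squarefree d ∧ β ^ 2 = (d : AlgebraicClosure ℚ) ∧
      ∀ σ, σ β = ((χ σ : ℤ) : AlgebraicClosure ℚ) * β := by
  by_cases htriv : ∀ σ, χ σ = 1
  · exact ⟨1, 1, squarefree_one, by simp, fun σ => by rw [htriv]; simp⟩
  · push Not at htriv
    obtain ⟨σ₀, hσ₀⟩ := htriv
    have hσ₀' : χ σ₀ = -1 := (Int.units_eq_one_or (χ σ₀)).resolve_left hσ₀
    have hcl : IsClosed (χ.ker : Set GQ) := by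
      have : (χ.ker : Set GQ) = χ ⁻¹' {1} := by ext σ; simp [MonoidHom.mem_ker]
      rw [this]; exact hχ.isClosed_fiber 1
    let H : ClosedSubgroup GQ := ⟨χ.ker, hcl⟩
    have hfix : (IntermediateField.fixedField H.toSubgroup).fixingSubgroup = H.toSubgroup :=
      InfiniteGalois.fixingSubgroup_fixedField H
    obtain ⟨α, hα1, hα2⟩ : ∃ α : AlgebraicClosure ℚ,
        α ∈ IntermediateField.fixedField χ.ker ∧ σ₀ α ≠ α := by
      by_contra hcon
      push Not at hcon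
      have : σ₀ ∈ (IntermediateField.fixedField H.toSubgroup).fixingSubgroup := by
        rw [IntermediateField.mem_fixingSubgroup_iff]
        exact hcon
      rw [hfix] at this
      have h2 : χ σ₀ = 1 := this
      exact hσ₀ h2
    have hα3 : ∀ σ : GQ, χ σ = 1 → σ α = α := by
      intro σ hσ
      rw [IntermediateField.mem_fixedField_iff] at hα1
      exact hα1 σ hσ
    have hβ1 : ∀ σ : GQ, χ σ = 1 → σ (α - σ₀ α) = α - σ₀ α := by
      intro σ hσ
      rw [map_sub, hα3 σ hσ]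
      have h3 : (σ₀⁻¹ * σ * σ₀) α = α := hα3 _ (by rw [map_mul, map_mul, hσ, map_inv]; simp)
      have h4 : σ (σ₀ α) = σ₀ ((σ₀⁻¹ * σ * σ₀) α) := by
        rw [AlgEquiv.mul_apply, AlgEquiv.mul_apply]
        exact (AlgEquiv.apply_symm_apply σ₀ _).symm
      rw [h4, h3]
    have hβ2 : σ₀ (α - σ₀ α) = -(α - σ₀ α) := by
      have h3 : (σ₀ * σ₀) α = α := hα3 _ (by rw [map_mul, hσ₀']; rfl)
      rw [map_sub]
      rw [AlgEquiv.mul_apply] at h3
      rw [h3]; ring
    have hβ3 : ∀ σ : GQ, σ (α - σ₀ α) = ((χ σ : ℤ) : AlgebraicClosure ℚ) * (α - σ₀ α) := by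
      intro σ
      rcases Int.units_eq_one_or (χ σ) with h1 | h1
      · rw [hβ1 σ h1, h1]; simp
      · have h3 : (σ₀⁻¹ * σ) (α - σ₀ α) = α - σ₀ α := hβ1 _ (by rw [map_mul, map_inv, hσ₀', h1]; rfl)
        have h4 : σ (α - σ₀ α) = σ₀ ((σ₀⁻¹ * σ) (α - σ₀ α)) := by
          rw [AlgEquiv.mul_apply]
          exact (AlgEquiv.apply_symm_apply σ₀ _).symm
        rw [h4, h3, hβ2, h1]; simp
    have hβ0 : α - σ₀ α ≠ 0 := by
      intro hc; exact hα2 (sub_eq_zero.mp hc).symm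
    obtain ⟨r, hr⟩ : (α - σ₀ α) ^ 2 ∈ Set.range (algebraMap ℚ (AlgebraicClosure ℚ)) := by
      rw [InfiniteGalois.mem_range_algebraMap_iff_fixed]
      intro σ
      rw [map_pow, hβ3, mul_pow]
      rcases Int.units_eq_one_or (χ σ) with h1 | h1 <;> rw [h1] <;> simp
    have hr0 : r ≠ 0 := by
      rintro rfl
      rw [map_zero] at hr
      exact pow_ne_zero 2 hβ0 hr.symm
    obtain ⟨d, t, hd, ht, hrd⟩ := exists_squarefree_mul_sq hr0
    have ht' : algebraMap ℚ (AlgebraicClosure ℚ) t ≠ 0 := by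
      rwa [Ne, map_eq_zero]
    refine ⟨d, (α - σ₀ α) / algebraMap ℚ (AlgebraicClosure ℚ) t, hd, ?_, fun σ => ?_⟩
    · rw [div_pow, ← hr, hrd, map_mul, map_pow, mul_div_assoc, div_self (pow_ne_zero 2 ht'), mul_one]
      simp
    · rw [map_div₀, hβ3, AlgEquiv.commutes, mul_div_assoc]

/-! ### Base change -/

section bc

variable {W : WeierstrassCurve ℚ} {e₁ e₂ e₃ : ℚ}

theorem T3.bc (h : T3 W e₁ e₂ e₃) (F : Type*) [Field F] [Algebra ℚ F] :
    T3 (W⁄F) (algebraMap ℚ F e₁) (algebraMap ℚ F e₂) (algebraMap ℚ F e₃) := by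
  have hinj := (algebraMap ℚ F).injective
  refine ⟨?_, ?_, ?_, ?_, fun hc => h.h12 (hinj hc), fun hc => h.h13 (hinj hc),
    fun hc => h.h23 (hinj hc)⟩
  · intro hc
    have : algebraMap ℚ F 2 = algebraMap ℚ F 0 := by rw [map_ofNat, map_zero]; exact hc
    exact two_ne_zero (hinj this)
  · rw [WeierstrassCurve.baseChange, map_b₂, h.b2]
    simp only [map_mul, map_neg, map_add, map_ofNat]
  · rw [WeierstrassCurve.baseChange, map_b₄, h.b4]
    simp only [map_mul, map_add, map_ofNat]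
  · rw [WeierstrassCurve.baseChange, map_b₆, h.b6]
    simp only [map_mul, map_neg, map_ofNat]

variable {S F K : Type*} [CommRing S] [Algebra ℚ S] [Field F] [Field K] [Algebra ℚ F] [Algebra ℚ K]
  [Algebra S F] [Algebra S K] [IsScalarTower ℚ S F] [IsScalarTower ℚ S K] [DecidableEq F]
  [DecidableEq K] (f : F →ₐ[S] K)

omit [DecidableEq F] [DecidableEq K] [IsScalarTower ℚ S F] [IsScalarTower ℚ S K]
  [Algebra ℚ S] in
theorem map_alg (r : ℚ) : f (algebraMap ℚ F r) = algebraMap ℚ K r :=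
  RingHom.map_rat_algebraMap (f : F →+* K) r

theorem map_pt (h : T3 W e₁ e₂ e₃) {x η : F} (hη) :
    ∃ hh, Affine.Point.map (W' := W) f ((h.bc F).pt x η hη) = (h.bc K).pt (f x) (f η) hh := by
  have hh : (f η) ^ 2 = 4 * ((f x - algebraMap ℚ K e₁) * (f x - algebraMap ℚ K e₂) *
      (f x - algebraMap ℚ K e₃)) := by
    rw [← map_alg f e₁, ← map_alg f e₂, ← map_alg f e₃, ← map_pow, hη]
    simp only [map_mul, map_sub, map_ofNat]
  refine ⟨hh, ?_⟩
  unfold T3.pt
  rw [Affine.Point.map_some]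
  refine (h.bc K).some_eq_some rfl ?_
  rw [(h.bc K).eta_half]
  have h3 : eta (W⁄K) (f x) (f ((η - (W⁄F).a₁ * x - (W⁄F).a₃) / 2)) =
      f (eta (W⁄F) x ((η - (W⁄F).a₁ * x - (W⁄F).a₃) / 2)) := by
    simp only [eta, map_add, map_mul, map_ofNat, WeierstrassCurve.baseChange, map_a₁, map_a₃,
      map_alg f]
  rw [h3, (h.bc F).eta_half]

theorem map_T (h : T3 W e₁ e₂ e₃) :
    Affine.Point.map (W' := W) f (h.bc F).T = (h.bc K).T := by
  obtain ⟨hh, h1⟩ := map_pt f h (x := algebraMap ℚ F e₁) (η := 0) (by ring)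
  exact h1.trans ((h.bc K).pt_congr (map_alg f e₁) (map_zero f))

theorem map_rhoP (h : T3 W e₁ e₂ e₃) (Q : (W⁄F).toAffine.Point) :
    rhoP (W⁄K) (algebraMap ℚ K e₁) (algebraMap ℚ K e₂) (algebraMap ℚ K e₃)
      (Affine.Point.map (W' := W) f Q) =
    f (rhoP (W⁄F) (algebraMap ℚ F e₁) (algebraMap ℚ F e₂) (algebraMap ℚ F e₃) Q) := by
  rcases (h.bc F).eq_zero_or_pt Q with rfl | ⟨x, η, hη, rfl⟩
  · rw [_root_.map_zero]
    exact (map_zero f).symm
  · obtain ⟨hh, h1⟩ := map_pt f h hη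
    rw [h1, (h.bc K).rhoP_pt, (h.bc F).rhoP_pt]
    unfold rho
    simp only [map_div₀, map_sub, map_mul, map_pow, map_alg f]

theorem map_xc (Q : (W⁄F).toAffine.Point) :
    xc (W⁄K) (Affine.Point.map (W' := W) f Q) = f (xc (W⁄F) Q) := by
  rcases Q with _ | ⟨x, y, hxy⟩
  · exact (map_zero f).symm
  · rfl

end bc

end Vale.Agent.P014.H71
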