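import Mathlib

/-!
# Local conditions of the 2-descent, integral form
-/

namespace Vale.Agent.P014.H71

/-- The pair of equations `d₂s₂² - d₁s₁² = n e²`, `d₃s₃² - d₁s₁² = 17 n e²` has a primitive
solution modulo `p ^ k`. -/
def Sol (n d₁ d₂ d₃ : ℤ) (p k : ℕ) : Prop :=
  ∃ s₁ s₂ s₃ e : ℤ, ¬ ((p : ℤ) ∣ s₁ ∧ (p : ℤ) ∣ s₂ ∧ (p : ℤ) ∣ s₃ ∧ (p : ℤ) ∣ e) ∧
    (p : ℤ) ^ k ∣ d₂ * s₂ ^ 2 - d₁ * s₁ ^ 2 - n * e ^ 2 ∧
    (p : ℤ) ^ k ∣ d₃ * s₃ ^ 2 - d₁ * s₁ ^ 2 - 17 * n * e ^ 2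

theorem dvd_of_mul_eq_sq {p : ℤ} (hp : Prime p) {x w : ℤ} (h : p * x = w ^ 2) : p ∣ x := by
  have h1 : p ∣ w := hp.dvd_of_dvd_pow ⟨x, h.symm⟩
  obtain ⟨v, rfl⟩ := h1
  exact ⟨v ^ 2, mul_left_cancel₀ hp.ne_zero (by rw [h]; ring)⟩

theorem not_dvd_of_squarefree {p : ℤ} (hp : Prime p) {d x : ℤ} (hd : Squarefree d)
    (h : d = p * x) : ¬ p ∣ x := by
  rintro ⟨y, rfl⟩
  have : p * p ∣ d := ⟨y, by rw [h]; ring⟩
  exact hp.not_isUnit (hd p this)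

/-- `p` divides an even number of `d₁, d₂, d₃` -/
theorem parity₁ {p : ℤ} (hp : Prime p) {d₁ d₂ d₃ w : ℤ} (h₁ : Squarefree d₁)
    (h₂ : Squarefree d₂) (h₃ : Squarefree d₃) (h : d₁ * d₂ * d₃ = w ^ 2) (hd : p ∣ d₁) :
    (p ∣ d₂ ∧ ¬ p ∣ d₃) ∨ (¬ p ∣ d₂ ∧ p ∣ d₃) := by
  obtain ⟨x₁, hx₁⟩ := hd
  have hn1 := not_dvd_of_squarefree hp h₁ hx₁
  by_cases h2 : p ∣ d₂
  · by_cases h3 : p ∣ d₃
    · exfalso
      obtain ⟨x₂, hx₂⟩ := h2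
      obtain ⟨x₃, hx₃⟩ := h3
      have hn2 := not_dvd_of_squarefree hp h₂ hx₂
      have hn3 := not_dvd_of_squarefree hp h₃ hx₃
      have e1 : p * (p * (p * (x₁ * x₂ * x₃))) = w ^ 2 := by rw [← h, hx₁, hx₂, hx₃]; ring
      have hw : p ∣ w := hp.dvd_of_dvd_pow ⟨_, e1.symm⟩
      obtain ⟨v, rfl⟩ := hw
      have e2 : p * (x₁ * x₂ * x₃) = v ^ 2 := by
        have : p ^ 2 * (p * (x₁ * x₂ * x₃)) = p ^ 2 * v ^ 2 := by linear_combination e1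
        exact mul_left_cancel₀ (pow_ne_zero 2 hp.ne_zero) this
      rcases hp.dvd_or_dvd (dvd_of_mul_eq_sq hp e2) with h4 | h4
      · rcases hp.dvd_or_dvd h4 with h5 | h5
        · exact hn1 h5
        · exact hn2 h5
      · exact hn3 h4
    · exact Or.inl ⟨h2, h3⟩
  · by_cases h3 : p ∣ d₃
    · exact Or.inr ⟨h2, h3⟩
    · exfalso
      have e1 : p * (x₁ * d₂ * d₃) = w ^ 2 := by rw [← h, hx₁]; ring
      rcases hp.dvd_or_dvd (dvd_of_mul_eq_sq hp e1) with h4 | h4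
      · rcases hp.dvd_or_dvd h4 with h5 | h5
        · exact hn1 h5
        · exact h2 h5
      · exact h3 h4

/-- the four possibilities -/
theorem parity {p : ℤ} (hp : Prime p) {d₁ d₂ d₃ w : ℤ} (h₁ : Squarefree d₁)
    (h₂ : Squarefree d₂) (h₃ : Squarefree d₃) (h : d₁ * d₂ * d₃ = w ^ 2) :
    (¬ p ∣ d₁ ∧ ¬ p ∣ d₂ ∧ ¬ p ∣ d₃) ∨ (¬ p ∣ d₁ ∧ p ∣ d₂ ∧ p ∣ d₃) ∨
      (p ∣ d₁ ∧ ¬ p ∣ d₂ ∧ p ∣ d₃) ∨ (p ∣ d₁ ∧ p ∣ d₂ ∧ ¬ p ∣ d₃) := by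
  by_cases h1 : p ∣ d₁
  · rcases parity₁ hp h₁ h₂ h₃ h h1 with h4 | h4 <;> tauto
  · by_cases h2 : p ∣ d₂
    · rcases parity₁ hp h₂ h₁ h₃ (by rw [← h]; ring) h2 with h4 | h4 <;> tauto
    · by_cases h3 : p ∣ d₃
      · rcases parity₁ hp h₃ h₁ h₂ (by rw [← h]; ring) h3 with h4 | h4 <;> tauto
      · tauto

theorem dvd_of_dvd_mul_sq {p : ℤ} (hp : Prime p) {c x : ℤ} (hc : ¬ p ∣ c) (h : p ∣ c * x ^ 2) :
    p ∣ x := by
  rcases hp.dvd_or_dvd h with h1 | h1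
  · exact absurd h1 hc
  · exact hp.dvd_of_dvd_pow h1

theorem dvd_of_sq_dvd {p : ℤ} (hp : Prime p) {d x : ℤ} (hd : Squarefree d) (hpd : p ∣ d)
    (hx : p ^ 2 ∣ d * x ^ 2) : p ∣ x := by
  obtain ⟨y, hy⟩ := hpd
  have hny := not_dvd_of_squarefree hp hd hy
  have e : p * (y * x ^ 2) = d * x ^ 2 := by rw [hy]; ring
  have : p * p ∣ p * (y * x ^ 2) := by
    rw [← sq, e]; exact hx
  exact dvd_of_dvd_mul_sq hp hny (Int.dvd_of_mul_dvd_mul_left hp.ne_zero this)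

section

variable {n d₁ d₂ d₃ : ℤ} {p : ℕ}

theorem Sol.third {s₁ s₂ s₃ e : ℤ} {k : ℕ}
    (hi : (p : ℤ) ^ k ∣ d₂ * s₂ ^ 2 - d₁ * s₁ ^ 2 - n * e ^ 2)
    (hii : (p : ℤ) ^ k ∣ d₃ * s₃ ^ 2 - d₁ * s₁ ^ 2 - 17 * n * e ^ 2) :
    (p : ℤ) ^ k ∣ d₃ * s₃ ^ 2 - d₂ * s₂ ^ 2 - 16 * n * e ^ 2 := by
  have := dvd_sub hii hi
  have e : d₃ * s₃ ^ 2 - d₂ * s₂ ^ 2 - 16 * n * e ^ 2 = d₃ * s₃ ^ 2 - d₁ * s₁ ^ 2 - 17 * n * e ^ 2
    - (d₂ * s₂ ^ 2 - d₁ * s₁ ^ 2 - n * e ^ 2) := by ring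
  rw [e]; exact this

theorem Sol.not23 (hp : p.Prime) (h16n : ¬ (p : ℤ) ∣ 16 * n) (h₂ : Squarefree d₂)
    (h₃ : Squarefree d₃) (hs : Sol n d₁ d₂ d₃ p 2) :
    ¬ (¬ (p : ℤ) ∣ d₁ ∧ (p : ℤ) ∣ d₂ ∧ (p : ℤ) ∣ d₃) := by
  rintro ⟨hd1, hd2, hd3⟩
  have hpZ : Prime (p : ℤ) := Nat.prime_iff_prime_int.mp hp
  obtain ⟨s₁, s₂, s₃, e, hprim, hi, hii⟩ := hs
  have hiii := Sol.third hi hii
  have hpp : (p : ℤ) ∣ (p : ℤ) ^ 2 := dvd_pow_self _ two_ne_zero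
  have hi1 := hpp.trans hi
  have hii1 := hpp.trans hii
  have hiii1 := hpp.trans hiii
  have hsq : ∀ {x : ℤ}, (p : ℤ) ∣ x → (p : ℤ) ^ 2 ∣ x ^ 2 := fun hx => pow_dvd_pow_of_dvd hx 2
  have he : (p : ℤ) ∣ e := by
    refine dvd_of_dvd_mul_sq hpZ h16n ?_
    have : (16 * n * e ^ 2 : ℤ) = d₃ * s₃ ^ 2 - d₂ * s₂ ^ 2 -
        (d₃ * s₃ ^ 2 - d₂ * s₂ ^ 2 - 16 * n * e ^ 2) := by ring
    rw [this]
    exact dvd_sub (dvd_sub (Dvd.dvd.mul_right hd3 _) (Dvd.dvd.mul_right hd2 _)) hiii1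
  have hs1 : (p : ℤ) ∣ s₁ := by
    refine dvd_of_dvd_mul_sq hpZ hd1 ?_
    have : (d₁ * s₁ ^ 2 : ℤ) = d₂ * s₂ ^ 2 - n * e ^ 2 -
        (d₂ * s₂ ^ 2 - d₁ * s₁ ^ 2 - n * e ^ 2) := by ring
    rw [this]
    exact dvd_sub (dvd_sub (Dvd.dvd.mul_right hd2 _)
      (Dvd.dvd.mul_left (dvd_pow he two_ne_zero) _)) hi1
  have hs2 : (p : ℤ) ∣ s₂ := by
    refine dvd_of_sq_dvd hpZ h₂ hd2 ?_
    have : (d₂ * s₂ ^ 2 : ℤ) = d₁ * s₁ ^ 2 + n * e ^ 2 +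
        (d₂ * s₂ ^ 2 - d₁ * s₁ ^ 2 - n * e ^ 2) := by ring
    rw [this]
    exact dvd_add (dvd_add (Dvd.dvd.mul_left (hsq hs1) _) (Dvd.dvd.mul_left (hsq he) _)) hi
  have hs3 : (p : ℤ) ∣ s₃ := by
    refine dvd_of_sq_dvd hpZ h₃ hd3 ?_
    have : (d₃ * s₃ ^ 2 : ℤ) = d₁ * s₁ ^ 2 + 17 * n * e ^ 2 +
        (d₃ * s₃ ^ 2 - d₁ * s₁ ^ 2 - 17 * n * e ^ 2) := by ring
    rw [this]
    exact dvd_add (dvd_add (Dvd.dvd.mul_left (hsq hs1) _) (Dvd.dvd.mul_left (hsq he) _)) hii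
  exact hprim ⟨hs1, hs2, hs3, he⟩

theorem Sol.not13 (hp : p.Prime) (h17n : ¬ (p : ℤ) ∣ 17 * n) (h₁ : Squarefree d₁)
    (h₃ : Squarefree d₃) (hs : Sol n d₁ d₂ d₃ p 2) :
    ¬ ((p : ℤ) ∣ d₁ ∧ ¬ (p : ℤ) ∣ d₂ ∧ (p : ℤ) ∣ d₃) := by
  rintro ⟨hd1, hd2, hd3⟩
  have hpZ : Prime (p : ℤ) := Nat.prime_iff_prime_int.mp hp
  obtain ⟨s₁, s₂, s₃, e, hprim, hi, hii⟩ := hs
  have hpp : (p : ℤ) ∣ (p : ℤ) ^ 2 := dvd_pow_self _ two_ne_zero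
  have hi1 := hpp.trans hi
  have hii1 := hpp.trans hii
  have hsq : ∀ {x : ℤ}, (p : ℤ) ∣ x → (p : ℤ) ^ 2 ∣ x ^ 2 := fun hx => pow_dvd_pow_of_dvd hx 2
  have he : (p : ℤ) ∣ e := by
    refine dvd_of_dvd_mul_sq hpZ h17n ?_
    have : (17 * n * e ^ 2 : ℤ) = d₃ * s₃ ^ 2 - d₁ * s₁ ^ 2 -
        (d₃ * s₃ ^ 2 - d₁ * s₁ ^ 2 - 17 * n * e ^ 2) := by ring
    rw [this]
    exact dvd_sub (dvd_sub (Dvd.dvd.mul_right hd3 _) (Dvd.dvd.mul_right hd1 _)) hii1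
  have hs2 : (p : ℤ) ∣ s₂ := by
    refine dvd_of_dvd_mul_sq hpZ hd2 ?_
    have : (d₂ * s₂ ^ 2 : ℤ) = d₁ * s₁ ^ 2 + n * e ^ 2 +
        (d₂ * s₂ ^ 2 - d₁ * s₁ ^ 2 - n * e ^ 2) := by ring
    rw [this]
    exact dvd_add (dvd_add (Dvd.dvd.mul_right hd1 _)
      (Dvd.dvd.mul_left (dvd_pow he two_ne_zero) _)) hi1
  have hs1 : (p : ℤ) ∣ s₁ := by
    refine dvd_of_sq_dvd hpZ h₁ hd1 ?_
    have : (d₁ * s₁ ^ 2 : ℤ) = d₂ * s₂ ^ 2 - n * e ^ 2 -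
        (d₂ * s₂ ^ 2 - d₁ * s₁ ^ 2 - n * e ^ 2) := by ring
    rw [this]
    exact dvd_sub (dvd_sub (Dvd.dvd.mul_left (hsq hs2) _) (Dvd.dvd.mul_left (hsq he) _)) hi
  have hs3 : (p : ℤ) ∣ s₃ := by
    refine dvd_of_sq_dvd hpZ h₃ hd3 ?_
    have : (d₃ * s₃ ^ 2 : ℤ) = d₁ * s₁ ^ 2 + 17 * n * e ^ 2 +
        (d₃ * s₃ ^ 2 - d₁ * s₁ ^ 2 - 17 * n * e ^ 2) := by ring
    rw [this]
    exact dvd_add (dvd_add (Dvd.dvd.mul_left (hsq hs1) _) (Dvd.dvd.mul_left (hsq he) _)) hii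
  exact hprim ⟨hs1, hs2, hs3, he⟩

theorem Sol.not12 (hp : p.Prime) (hpn : ¬ (p : ℤ) ∣ n) (h₁ : Squarefree d₁)
    (h₂ : Squarefree d₂) (hs : Sol n d₁ d₂ d₃ p 2) :
    ¬ ((p : ℤ) ∣ d₁ ∧ (p : ℤ) ∣ d₂ ∧ ¬ (p : ℤ) ∣ d₃) := by
  rintro ⟨hd1, hd2, hd3⟩
  have hpZ : Prime (p : ℤ) := Nat.prime_iff_prime_int.mp hp
  obtain ⟨s₁, s₂, s₃, e, hprim, hi, hii⟩ := hs
  have hpp : (p : ℤ) ∣ (p : ℤ) ^ 2 := dvd_pow_self _ two_ne_zero
  have hi1 := hpp.trans hi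
  have hii1 := hpp.trans hii
  have hsq : ∀ {x : ℤ}, (p : ℤ) ∣ x → (p : ℤ) ^ 2 ∣ x ^ 2 := fun hx => pow_dvd_pow_of_dvd hx 2
  have he : (p : ℤ) ∣ e := by
    refine dvd_of_dvd_mul_sq hpZ hpn ?_
    have : (n * e ^ 2 : ℤ) = d₂ * s₂ ^ 2 - d₁ * s₁ ^ 2 -
        (d₂ * s₂ ^ 2 - d₁ * s₁ ^ 2 - n * e ^ 2) := by ring
    rw [this]
    exact dvd_sub (dvd_sub (Dvd.dvd.mul_right hd2 _) (Dvd.dvd.mul_right hd1 _)) hi1
  have hs3 : (p : ℤ) ∣ s₃ := by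
    refine dvd_of_dvd_mul_sq hpZ hd3 ?_
    have : (d₃ * s₃ ^ 2 : ℤ) = d₁ * s₁ ^ 2 + 17 * n * e ^ 2 +
        (d₃ * s₃ ^ 2 - d₁ * s₁ ^ 2 - 17 * n * e ^ 2) := by ring
    rw [this]
    exact dvd_add (dvd_add (Dvd.dvd.mul_right hd1 _)
      (Dvd.dvd.mul_left (dvd_pow he two_ne_zero) _)) hii1
  have hs1 : (p : ℤ) ∣ s₁ := by
    refine dvd_of_sq_dvd hpZ h₁ hd1 ?_
    have : (d₁ * s₁ ^ 2 : ℤ) = d₃ * s₃ ^ 2 - 17 * n * e ^ 2 -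
        (d₃ * s₃ ^ 2 - d₁ * s₁ ^ 2 - 17 * n * e ^ 2) := by ring
    rw [this]
    exact dvd_sub (dvd_sub (Dvd.dvd.mul_left (hsq hs3) _) (Dvd.dvd.mul_left (hsq he) _)) hii
  have hs2 : (p : ℤ) ∣ s₂ := by
    refine dvd_of_sq_dvd hpZ h₂ hd2 ?_
    have : (d₂ * s₂ ^ 2 : ℤ) = d₁ * s₁ ^ 2 + n * e ^ 2 +
        (d₂ * s₂ ^ 2 - d₁ * s₁ ^ 2 - n * e ^ 2) := by ring
    rw [this]
    exact dvd_add (dvd_add (Dvd.dvd.mul_left (hsq hs1) _) (Dvd.dvd.mul_left (hsq he) _)) hi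
  exact hprim ⟨hs1, hs2, hs3, he⟩

/-- at a prime not dividing `34 n` all `dᵢ` are units -/
theorem Sol.good {w : ℤ} (hp : p.Prime) (hp2 : ¬ (p : ℤ) ∣ 16)
    (hp17 : ¬ (p : ℤ) ∣ 17) (hpn : ¬ (p : ℤ) ∣ n) (h₁ : Squarefree d₁)
    (h₂ : Squarefree d₂) (h₃ : Squarefree d₃) (h : d₁ * d₂ * d₃ = w ^ 2)
    (hs : Sol n d₁ d₂ d₃ p 2) : ¬ (p : ℤ) ∣ d₁ ∧ ¬ (p : ℤ) ∣ d₂ ∧ ¬ (p : ℤ) ∣ d₃ := by
  have hpZ : Prime (p : ℤ) := Nat.prime_iff_prime_int.mp hp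
  have h17n : ¬ (p : ℤ) ∣ 17 * n := by
    intro hc; rcases hpZ.dvd_or_dvd hc with hc | hc
    · exact hp17 hc
    · exact hpn hc
  have h16n : ¬ (p : ℤ) ∣ 16 * n := by
    intro hc; rcases hpZ.dvd_or_dvd hc with hc | hc
    · exact hp2 hc
    · exact hpn hc
  rcases parity hpZ h₁ h₂ h₃ h with hc | hc | hc | hc
  · exact hc
  · exact absurd hc (hs.not23 hp h16n h₂ h₃)
  · exact absurd hc (hs.not13 hp h17n h₁ h₃)
  · exact absurd hc (hs.not12 hp hpn h₁ h₂)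

end

/-! ### The prime 2 -/

theorem sq_odd {s : ℤ} (h : s % 2 = 1) : ∃ t, s ^ 2 = 8 * t + 1 := by
  obtain ⟨r, rfl⟩ : ∃ r, s = 2 * r + 1 := ⟨s / 2, by omega⟩
  obtain ⟨t, ht⟩ : ∃ t, r * (r + 1) = 2 * t := by
    rcases Int.even_or_odd r with ⟨m, hm⟩ | ⟨m, hm⟩
    · exact ⟨m * (r + 1), by rw [hm]; ring⟩
    · exact ⟨r * (m + 1), by rw [hm]; ring⟩
  exact ⟨t, by linear_combination 4 * ht⟩

theorem sq_even {s : ℤ} (h : s % 2 = 0) : ∃ t, s = 2 * t ∧ s ^ 2 = 4 * t ^ 2 := by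
  refine ⟨s / 2, by omega, ?_⟩
  have : s = 2 * (s / 2) := by omega
  rw [this]; ring_nf; simp

theorem mul_sq_odd (c : ℤ) {s : ℤ} (h : s % 2 = 1) : ∃ t, c * s ^ 2 = 8 * t + c := by
  obtain ⟨t, ht⟩ := sq_odd h
  exact ⟨c * t, by rw [ht]; ring⟩

theorem mul_sq_even (c : ℤ) {s : ℤ} (h : s % 2 = 0) : ∃ t, c * s ^ 2 = 4 * t := by
  obtain ⟨t, -, ht⟩ := sq_even h
  exact ⟨c * t ^ 2, by rw [ht]; ring⟩

theorem two_aux {n d₁ a b v : ℤ} (hn : n % 4 = 3) (hd₁ : d₁ % 2 = 1) (ha : a % 2 = 1)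
    (hb : b % 2 = 1) (h : d₁ * a * b = v ^ 2) {s₁ s₂ s₃ e : ℤ}
    (hprim : ¬ ((2 : ℤ) ∣ s₁ ∧ (2 : ℤ) ∣ s₂ ∧ (2 : ℤ) ∣ s₃ ∧ (2 : ℤ) ∣ e))
    (hi : (64 : ℤ) ∣ 2 * (a * s₂ ^ 2) - d₁ * s₁ ^ 2 - n * e ^ 2)
    (hii : (64 : ℤ) ∣ 2 * (b * s₃ ^ 2) - d₁ * s₁ ^ 2 - 17 * (n * e ^ 2)) : False := by
  have hv : v % 2 = 1 := by
    rcases Int.emod_two_eq_zero_or_one v with h1 | h1
    · obtain ⟨t, ht, ht2⟩ := sq_even h1
      have h3 : Odd (d₁ * a * b) :=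
        ((Int.odd_iff.mpr hd₁).mul (Int.odd_iff.mpr ha)).mul (Int.odd_iff.mpr hb)
      rw [h, ht2] at h3
      have := Int.odd_iff.mp h3
      omega
    · exact h1
  obtain ⟨v', hv'⟩ := sq_odd hv
  rw [hv'] at h
  rcases Int.emod_two_eq_zero_or_one s₁ with h1 | h1
  · obtain ⟨t1, ht1⟩ := mul_sq_even d₁ h1
    have he : e % 2 = 0 := by
      rcases Int.emod_two_eq_zero_or_one e with he | he
      · exact he
      · obtain ⟨te, hte⟩ := mul_sq_odd n he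
        omega
    obtain ⟨te, hte⟩ := mul_sq_even n he
    have h2 : s₂ % 2 = 0 := by
      rcases Int.emod_two_eq_zero_or_one s₂ with h2 | h2
      · exact h2
      · obtain ⟨t2, ht2⟩ := mul_sq_odd a h2
        omega
    have h3 : s₃ % 2 = 0 := by
      rcases Int.emod_two_eq_zero_or_one s₃ with h3 | h3
      · exact h3
      · obtain ⟨t3, ht3⟩ := mul_sq_odd b h3
        omega
    apply hprim
    refine ⟨?_, ?_, ?_, ?_⟩ <;> omega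
  · obtain ⟨t1, ht1⟩ := mul_sq_odd d₁ h1
    have he : e % 2 = 1 := by
      rcases Int.emod_two_eq_zero_or_one e with he | he
      · obtain ⟨te, hte⟩ := mul_sq_even n he
        omega
      · exact he
    obtain ⟨te, hte⟩ := mul_sq_odd n he
    rcases Int.emod_two_eq_zero_or_one s₂ with h2 | h2
    · obtain ⟨u, hu, -⟩ := sq_even h2
      have h3 : s₃ % 2 = 0 := by
        rcases Int.emod_two_eq_zero_or_one s₃ with h3 | h3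
        · exact h3
        · obtain ⟨t3, ht3⟩ := mul_sq_odd b h3
          obtain ⟨t2, ht2⟩ := mul_sq_even a h2
          omega
      obtain ⟨z, hz, -⟩ := sq_even h3
      have e2 : a * s₂ ^ 2 = 4 * (a * u ^ 2) := by rw [hu]; ring
      have e3 : b * s₃ ^ 2 = 4 * (b * z ^ 2) := by rw [hz]; ring
      have hd1 : d₁ % 4 = 1 := by omega
      have hab : (a * b) % 4 = 1 := by
        obtain ⟨r, hr⟩ : ∃ r, d₁ = 4 * r + 1 := ⟨d₁ / 4, by omega⟩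
        have : d₁ * a * b = 4 * (r * (a * b)) + a * b := by rw [hr]; ring
        omega
      have hab' : a % 4 = b % 4 := by
        obtain ⟨r, hr⟩ : ∃ r, a = 4 * r + a % 4 := ⟨a / 4, by omega⟩
        obtain ⟨t, ht⟩ : ∃ t, b = 4 * t + b % 4 := ⟨b / 4, by omega⟩
        have h5 : a % 4 = 1 ∨ a % 4 = 3 := by omega
        have h6 : b % 4 = 1 ∨ b % 4 = 3 := by omega
        rcases h5 with h5 | h5 <;> rcases h6 with h6 | h6 <;> rw [h5] at hr <;> rw [h6] at ht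
        · omega
        · have : a * b = 4 * (4 * (r * t) + 3 * r + t) + 3 := by rw [hr, ht]; ring
          omega
        · have : a * b = 4 * (4 * (r * t) + r + 3 * t) + 3 := by rw [hr, ht]; ring
          omega
        · omega
      rcases Int.emod_two_eq_zero_or_one u with hu2 | hu2
      · obtain ⟨t2, ht2⟩ := mul_sq_even a hu2
        rcases Int.emod_two_eq_zero_or_one z with hz2 | hz2
        · obtain ⟨t3, ht3⟩ := mul_sq_even b hz2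
          omega
        · obtain ⟨t3, ht3⟩ := mul_sq_odd b hz2
          omega
      · obtain ⟨t2, ht2⟩ := mul_sq_odd a hu2
        rcases Int.emod_two_eq_zero_or_one z with hz2 | hz2
        · obtain ⟨t3, ht3⟩ := mul_sq_even b hz2
          omega
        · obtain ⟨t3, ht3⟩ := mul_sq_odd b hz2
          omega
    · obtain ⟨t2, ht2⟩ := mul_sq_odd a h2
      have h3 : s₃ % 2 = 1 := by
        rcases Int.emod_two_eq_zero_or_one s₃ with h3 | h3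
        · obtain ⟨t3, ht3⟩ := mul_sq_even b h3
          omega
        · exact h3
      obtain ⟨t3, ht3⟩ := mul_sq_odd b h3
      obtain ⟨r, hr⟩ : ∃ r, b = a + 8 * r := ⟨(b - a) / 8, by omega⟩
      obtain ⟨t, ht⟩ := sq_odd ha
      have : d₁ * a * b = 8 * (d₁ * t + d₁ * a * r) + d₁ := by
        rw [hr]; linear_combination d₁ * ht
      omega

theorem Sol.two {n d₁ d₂ d₃ w : ℤ} (hn : n % 4 = 3) (h₁ : Squarefree d₁)
    (h₂ : Squarefree d₂) (h₃ : Squarefree d₃) (h : d₁ * d₂ * d₃ = w ^ 2)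
    (hs : Sol n d₁ d₂ d₃ 2 6) : d₁ % 4 = 1 ∧ d₂ % 2 = 1 ∧ d₃ % 2 = 1 := by
  have hs2 : Sol n d₁ d₂ d₃ 2 2 := by
    obtain ⟨s₁, s₂, s₃, e, hprim, hi, hii⟩ := hs
    have : (((2 : ℕ) : ℤ)) ^ 2 ∣ (((2 : ℕ) : ℤ)) ^ 6 := pow_dvd_pow _ (by norm_num)
    exact ⟨s₁, s₂, s₃, e, hprim, this.trans hi, this.trans hii⟩
  have hpZ : Prime (((2 : ℕ) : ℤ)) := Nat.prime_iff_prime_int.mp Nat.prime_two
  have h12 := hs2.not12 Nat.prime_two (by norm_num; omega) h₁ h₂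
  have h13 := hs2.not13 Nat.prime_two (by norm_num; omega) h₁ h₃
  rcases parity hpZ h₁ h₂ h₃ h with ⟨hd1, hd2, hd3⟩ | ⟨hd1, hd2, hd3⟩ | hc | hc
  · obtain ⟨s₁, s₂, s₃, e, hprim, hi, hii⟩ := hs
    norm_num at hd1 hd2 hd3 hprim hi hii
    have hd1' : d₁ % 2 = 1 := by omega
    have hd2' : d₂ % 2 = 1 := by omega
    have hd3' : d₃ % 2 = 1 := by omega
    refine ⟨?_, by omega, by omega⟩
    have hw : w % 2 = 1 := by
      rcases Int.emod_two_eq_zero_or_one w with h1 | h1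
      · obtain ⟨t, ht, ht2⟩ := sq_even h1
        have h3 : Odd (d₁ * d₂ * d₃) :=
          ((Int.odd_iff.mpr hd1').mul (Int.odd_iff.mpr hd2')).mul (Int.odd_iff.mpr hd3')
        rw [h, ht2] at h3
        have := Int.odd_iff.mp h3
        omega
      · exact h1
    obtain ⟨v', hv'⟩ := sq_odd hw
    rw [hv'] at h
    have hmm : 17 * n * e ^ 2 = 17 * (n * e ^ 2) := by ring
    rw [hmm] at hii
    rcases Int.emod_two_eq_zero_or_one e with he | he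
    · obtain ⟨te, hte⟩ := mul_sq_even n he
      rcases Int.emod_two_eq_zero_or_one s₁ with h1 | h1
      · exfalso
        obtain ⟨t1, ht1⟩ := mul_sq_even d₁ h1
        have h2 : s₂ % 2 = 0 := by
          rcases Int.emod_two_eq_zero_or_one s₂ with h2 | h2
          · exact h2
          · obtain ⟨t2, ht2⟩ := mul_sq_odd d₂ h2
            omega
        have h3 : s₃ % 2 = 0 := by
          rcases Int.emod_two_eq_zero_or_one s₃ with h3 | h3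
          · exact h3
          · obtain ⟨t3, ht3⟩ := mul_sq_odd d₃ h3
            omega
        have := hprim (by omega) (by omega) (by omega)
        omega
      · obtain ⟨t1, ht1⟩ := mul_sq_odd d₁ h1
        have h2 : s₂ % 2 = 1 := by
          rcases Int.emod_two_eq_zero_or_one s₂ with h2 | h2
          · obtain ⟨t2, ht2⟩ := mul_sq_even d₂ h2
            omega
          · exact h2
        have h3 : s₃ % 2 = 1 := by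
          rcases Int.emod_two_eq_zero_or_one s₃ with h3 | h3
          · obtain ⟨t3, ht3⟩ := mul_sq_even d₃ h3
            omega
          · exact h3
        obtain ⟨t2, ht2⟩ := mul_sq_odd d₂ h2
        obtain ⟨t3, ht3⟩ := mul_sq_odd d₃ h3
        obtain ⟨r, hr⟩ : ∃ r, d₂ = d₁ + 4 * r := ⟨(d₂ - d₁) / 4, by omega⟩
        obtain ⟨r', hr'⟩ : ∃ r', d₃ = d₁ + 4 * r' := ⟨(d₃ - d₁) / 4, by omega⟩
        obtain ⟨t, ht⟩ := sq_odd hd1'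
        have : d₁ * d₂ * d₃ = 4 * (2 * (t * d₁) + d₁ * d₁ * r' + d₁ * r * d₁ + 4 * d₁ * r * r')
            + d₁ := by
          rw [hr, hr']; linear_combination d₁ * ht
        omega
    · obtain ⟨te, hte⟩ := mul_sq_odd n he
      rcases Int.emod_two_eq_zero_or_one s₁ with h1 | h1
      · obtain ⟨t1, ht1⟩ := mul_sq_even d₁ h1
        have h2 : s₂ % 2 = 1 := by
          rcases Int.emod_two_eq_zero_or_one s₂ with h2 | h2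
          · obtain ⟨t2, ht2⟩ := mul_sq_even d₂ h2
            omega
          · exact h2
        have h3 : s₃ % 2 = 1 := by
          rcases Int.emod_two_eq_zero_or_one s₃ with h3 | h3
          · obtain ⟨t3, ht3⟩ := mul_sq_even d₃ h3
            omega
          · exact h3
        obtain ⟨t2, ht2⟩ := mul_sq_odd d₂ h2
        obtain ⟨t3, ht3⟩ := mul_sq_odd d₃ h3
        obtain ⟨r, hr⟩ : ∃ r, d₃ = d₂ + 8 * r := ⟨(d₃ - d₂) / 8, by omega⟩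
        obtain ⟨t, ht⟩ := sq_odd hd2'
        have : d₁ * d₂ * d₃ = 8 * (d₁ * t + d₁ * d₂ * r) + d₁ := by
          rw [hr]; linear_combination d₁ * ht
        omega
      · obtain ⟨t1, ht1⟩ := mul_sq_odd d₁ h1
        have h2 : s₂ % 2 = 0 := by
          rcases Int.emod_two_eq_zero_or_one s₂ with h2 | h2
          · exact h2
          · obtain ⟨t2, ht2⟩ := mul_sq_odd d₂ h2
            omega
        obtain ⟨t2, ht2⟩ := mul_sq_even d₂ h2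
        omega
  · exfalso
    obtain ⟨s₁, s₂, s₃, e, hprim, hi, hii⟩ := hs
    obtain ⟨a, ha⟩ := hd2
    obtain ⟨b, hb⟩ := hd3
    have hna := not_dvd_of_squarefree hpZ h₂ ha
    have hnb := not_dvd_of_squarefree hpZ h₃ hb
    norm_num at hd1 hprim hi hii ha hb hna hnb
    have hw : w % 2 = 0 := by
      rcases Int.emod_two_eq_zero_or_one w with h1 | h1
      · exact h1
      · obtain ⟨t, ht⟩ := sq_odd h1
        have : d₁ * d₂ * d₃ = 4 * (d₁ * a * b) := by rw [ha, hb]; ring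
        omega
    obtain ⟨v, hv, hv2⟩ := sq_even hw
    have hv3 : d₁ * a * b = v ^ 2 := by
      have : 4 * (d₁ * a * b) = 4 * v ^ 2 := by
        rw [← hv2, ← h, ha, hb]; ring
      linarith
    refine two_aux (n := n) (d₁ := d₁) (a := a) (b := b) (v := v) (s₁ := s₁) (s₂ := s₂) (s₃ := s₃)
      (e := e) hn (by omega) (by omega) (by omega) hv3
      (fun hc => by have := hprim hc.1 hc.2.1 hc.2.2.1; omega) ?_ ?_
    · convert hi using 1; rw [ha]; ring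
    · convert hii using 1; rw [hb]; ring
  · exact absurd hc h13
  · exact absurd hc h12

/-! ### The prime 17 -/

theorem legendre_mul_sq {p : ℕ} [Fact p.Prime] {c x : ℤ} (hx : ¬ (p : ℤ) ∣ x) :
    legendreSym p (c * x ^ 2) = legendreSym p c := by
  rw [legendreSym.mul, legendreSym.sq_one' p (by rwa [Ne, ZMod.intCast_zmod_eq_zero_iff_dvd]), mul_one]

theorem legendre_congr {p : ℕ} [Fact p.Prime] {a b : ℤ} (h : (p : ℤ) ∣ a - b) :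
    legendreSym p a = legendreSym p b := by
  have : (a : ZMod p) = b := by
    rw [← sub_eq_zero, ← Int.cast_sub, ZMod.intCast_zmod_eq_zero_iff_dvd]; exact h
  rw [legendreSym, legendreSym, this]

theorem legendre_ne_zero {p : ℕ} [Fact p.Prime] {a : ℤ} (h : ¬ (p : ℤ) ∣ a) :
    legendreSym p a = 1 ∨ legendreSym p a = -1 :=
  legendreSym.eq_one_or_neg_one p (by rwa [Ne, ZMod.intCast_zmod_eq_zero_iff_dvd])

/-- `17 ∤ d₂`, and `(d₂/17) = 1` if `17 ∤ d₁`, while `(d₂/17) = (n/17)` if `17 ∣ d₁`. -/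
theorem Sol.seventeen {n d₁ d₂ d₃ w : ℤ} [Fact (Nat.Prime 17)] (hn : ¬ (17 : ℤ) ∣ n)
    (h₁ : Squarefree d₁)
    (h₂ : Squarefree d₂) (h₃ : Squarefree d₃) (h : d₁ * d₂ * d₃ = w ^ 2)
    (hs : Sol n d₁ d₂ d₃ 17 2) : ¬ (17 : ℤ) ∣ d₂ ∧ ((17 : ℤ) ∣ d₁ ↔ (17 : ℤ) ∣ d₃) ∧
      (¬ (17 : ℤ) ∣ d₁ → legendreSym 17 d₂ = 1) ∧
      ((17 : ℤ) ∣ d₁ → legendreSym 17 d₂ = legendreSym 17 n) := by
  have hp : Nat.Prime 17 := Fact.out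
  have hpZ : Prime (17 : ℤ) := Nat.prime_iff_prime_int.mp hp
  have h12 := hs.not12 hp hn h₁ h₂
  obtain ⟨s₁, s₂, s₃, e, hprim, hi, hii⟩ := hs
  simp only [Nat.cast_ofNat] at hprim hi hii h12
  have hpp : (17 : ℤ) ∣ (17 : ℤ) ^ 2 := dvd_pow_self _ two_ne_zero
  have hi1 := hpp.trans hi
  have hii1 := hpp.trans hii
  have hsq : ∀ {x : ℤ}, (17 : ℤ) ∣ x → (17 : ℤ) ^ 2 ∣ x ^ 2 := fun hx => pow_dvd_pow_of_dvd hx 2
  have h31 : (17 : ℤ) ∣ d₃ * s₃ ^ 2 - d₁ * s₁ ^ 2 := by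
    have : (d₃ * s₃ ^ 2 - d₁ * s₁ ^ 2 : ℤ) = 17 * (n * e ^ 2) +
        (d₃ * s₃ ^ 2 - d₁ * s₁ ^ 2 - 17 * n * e ^ 2) := by ring
    rw [this]
    exact dvd_add (Dvd.intro _ rfl) hii1
  rcases parity hpZ h₁ h₂ h₃ h with ⟨hd1, hd2, hd3⟩ | ⟨hd1, hd2, hd3⟩ | ⟨hd1, hd2, hd3⟩ | hc
  · refine ⟨hd2, by tauto, fun _ => ?_, fun hc => absurd hc hd1⟩
    by_cases hs1 : (17 : ℤ) ∣ s₁
    · exfalso
      have hs3 : (17 : ℤ) ∣ s₃ := by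
        refine dvd_of_dvd_mul_sq hpZ hd3 ?_
        have : (d₃ * s₃ ^ 2 : ℤ) = d₁ * s₁ ^ 2 + (d₃ * s₃ ^ 2 - d₁ * s₁ ^ 2) := by ring
        rw [this]
        exact dvd_add (Dvd.dvd.mul_left (dvd_pow hs1 two_ne_zero) _) h31
      have he : (17 : ℤ) ∣ e := by
        have h5 : (17 : ℤ) * 17 ∣ 17 * (n * e ^ 2) := by
          have : (17 : ℤ) * (n * e ^ 2) = d₃ * s₃ ^ 2 - d₁ * s₁ ^ 2 -
              (d₃ * s₃ ^ 2 - d₁ * s₁ ^ 2 - 17 * n * e ^ 2) := by ring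
          rw [this, ← sq]
          exact dvd_sub (dvd_sub (Dvd.dvd.mul_left (hsq hs3) _) (Dvd.dvd.mul_left (hsq hs1) _)) hii
        exact dvd_of_dvd_mul_sq hpZ hn (Int.dvd_of_mul_dvd_mul_left (by norm_num) h5)
      have hs2 : (17 : ℤ) ∣ s₂ := by
        refine dvd_of_dvd_mul_sq hpZ hd2 ?_
        have : (d₂ * s₂ ^ 2 : ℤ) = d₁ * s₁ ^ 2 + n * e ^ 2 +
            (d₂ * s₂ ^ 2 - d₁ * s₁ ^ 2 - n * e ^ 2) := by ring
        rw [this]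
        exact dvd_add (dvd_add (Dvd.dvd.mul_left (dvd_pow hs1 two_ne_zero) _)
          (Dvd.dvd.mul_left (dvd_pow he two_ne_zero) _)) hi1
      exact hprim ⟨hs1, hs2, hs3, he⟩
    · have hs3 : ¬ (17 : ℤ) ∣ s₃ := by
        intro hs3
        apply hs1
        refine dvd_of_dvd_mul_sq hpZ hd1 ?_
        have : (d₁ * s₁ ^ 2 : ℤ) = d₃ * s₃ ^ 2 - (d₃ * s₃ ^ 2 - d₁ * s₁ ^ 2) := by ring
        rw [this]
        exact dvd_sub (Dvd.dvd.mul_left (dvd_pow hs3 two_ne_zero) _) h31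
      have e1 : legendreSym 17 d₃ = legendreSym 17 d₁ := by
        have := legendre_congr (p := 17) h31
        rwa [legendre_mul_sq hs3, legendre_mul_sq hs1] at this
      have hw : ¬ (17 : ℤ) ∣ w := by
        intro hw
        have : (17 : ℤ) ∣ d₁ * d₂ * d₃ := by rw [h]; exact dvd_pow hw two_ne_zero
        rcases hpZ.dvd_or_dvd this with h6 | h6
        · rcases hpZ.dvd_or_dvd h6 with h7 | h7
          · exact hd1 h7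
          · exact hd2 h7
        · exact hd3 h6
      have e2 : legendreSym 17 (d₁ * d₂ * d₃) = 1 := by
        rw [h]
        exact legendreSym.sq_one' 17 (by rwa [Ne, ZMod.intCast_zmod_eq_zero_iff_dvd])
      rw [legendreSym.mul, legendreSym.mul, e1] at e2
      rcases legendre_ne_zero (p := 17) hd1 with h8 | h8 <;> rw [h8] at e2 <;> linarith
  · exfalso
    have hs1 : (17 : ℤ) ∣ s₁ := by
      refine dvd_of_dvd_mul_sq hpZ hd1 ?_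
      have : (d₁ * s₁ ^ 2 : ℤ) = d₃ * s₃ ^ 2 - (d₃ * s₃ ^ 2 - d₁ * s₁ ^ 2) := by ring
      rw [this]
      exact dvd_sub (Dvd.dvd.mul_right hd3 _) h31
    have he : (17 : ℤ) ∣ e := by
      refine dvd_of_dvd_mul_sq hpZ hn ?_
      have : (n * e ^ 2 : ℤ) = d₂ * s₂ ^ 2 - d₁ * s₁ ^ 2 -
          (d₂ * s₂ ^ 2 - d₁ * s₁ ^ 2 - n * e ^ 2) := by ring
      rw [this]
      exact dvd_sub (dvd_sub (Dvd.dvd.mul_right hd2 _)
        (Dvd.dvd.mul_left (dvd_pow hs1 two_ne_zero) _)) hi1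
    have hs2 : (17 : ℤ) ∣ s₂ := by
      refine dvd_of_sq_dvd hpZ h₂ hd2 ?_
      have : (d₂ * s₂ ^ 2 : ℤ) = d₁ * s₁ ^ 2 + n * e ^ 2 +
          (d₂ * s₂ ^ 2 - d₁ * s₁ ^ 2 - n * e ^ 2) := by ring
      rw [this]
      exact dvd_add (dvd_add (Dvd.dvd.mul_left (hsq hs1) _) (Dvd.dvd.mul_left (hsq he) _)) hi
    have hs3 : (17 : ℤ) ∣ s₃ := by
      refine dvd_of_sq_dvd hpZ h₃ hd3 ?_
      have : (d₃ * s₃ ^ 2 : ℤ) = d₁ * s₁ ^ 2 + 17 * n * e ^ 2 +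
          (d₃ * s₃ ^ 2 - d₁ * s₁ ^ 2 - 17 * n * e ^ 2) := by ring
      rw [this]
      exact dvd_add (dvd_add (Dvd.dvd.mul_left (hsq hs1) _) (Dvd.dvd.mul_left (hsq he) _)) hii
    exact hprim ⟨hs1, hs2, hs3, he⟩
  · refine ⟨hd2, by tauto, fun hc => absurd hd1 hc, fun _ => ?_⟩
    have h2n : (17 : ℤ) ∣ d₂ * s₂ ^ 2 - n * e ^ 2 := by
      have : (d₂ * s₂ ^ 2 - n * e ^ 2 : ℤ) = d₁ * s₁ ^ 2 +
          (d₂ * s₂ ^ 2 - d₁ * s₁ ^ 2 - n * e ^ 2) := by ring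
      rw [this]
      exact dvd_add (Dvd.dvd.mul_right hd1 _) hi1
    by_cases he : (17 : ℤ) ∣ e
    · exfalso
      have hs2 : (17 : ℤ) ∣ s₂ := by
        refine dvd_of_dvd_mul_sq hpZ hd2 ?_
        have : (d₂ * s₂ ^ 2 : ℤ) = n * e ^ 2 + (d₂ * s₂ ^ 2 - n * e ^ 2) := by ring
        rw [this]
        exact dvd_add (Dvd.dvd.mul_left (dvd_pow he two_ne_zero) _) h2n
      have hs1 : (17 : ℤ) ∣ s₁ := by
        refine dvd_of_sq_dvd hpZ h₁ hd1 ?_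
        have : (d₁ * s₁ ^ 2 : ℤ) = d₂ * s₂ ^ 2 - n * e ^ 2 -
            (d₂ * s₂ ^ 2 - d₁ * s₁ ^ 2 - n * e ^ 2) := by ring
        rw [this]
        exact dvd_sub (dvd_sub (Dvd.dvd.mul_left (hsq hs2) _) (Dvd.dvd.mul_left (hsq he) _)) hi
      have hs3 : (17 : ℤ) ∣ s₃ := by
        refine dvd_of_sq_dvd hpZ h₃ hd3 ?_
        have : (d₃ * s₃ ^ 2 : ℤ) = d₁ * s₁ ^ 2 + 17 * n * e ^ 2 +
            (d₃ * s₃ ^ 2 - d₁ * s₁ ^ 2 - 17 * n * e ^ 2) := by ring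
        rw [this]
        exact dvd_add (dvd_add (Dvd.dvd.mul_left (hsq hs1) _) (Dvd.dvd.mul_left (hsq he) _)) hii
      exact hprim ⟨hs1, hs2, hs3, he⟩
    · have hs2 : ¬ (17 : ℤ) ∣ s₂ := by
        intro hs2
        apply he
        refine dvd_of_dvd_mul_sq hpZ hn ?_
        have : (n * e ^ 2 : ℤ) = d₂ * s₂ ^ 2 - (d₂ * s₂ ^ 2 - n * e ^ 2) := by ring
        rw [this]
        exact dvd_sub (Dvd.dvd.mul_left (dvd_pow hs2 two_ne_zero) _) h2n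
      have := legendre_congr (p := 17) h2n
      rwa [legendre_mul_sq hs2, legendre_mul_sq he] at this
  · exact absurd hc h12

/-! ### Primes dividing `n` -/

/-- The conditions at a prime `q ∣ n = q m`. -/
theorem Sol.bad {n d₁ d₂ d₃ w m : ℤ} {q : ℕ} [Fact q.Prime] (hq2 : ¬ (q : ℤ) ∣ 16)
    (hq17 : ¬ (q : ℤ) ∣ 17) (hn : n = q * m) (hm : ¬ (q : ℤ) ∣ m)
    (h₁ : Squarefree d₁) (h₂ : Squarefree d₂) (h₃ : Squarefree d₃) (h : d₁ * d₂ * d₃ = w ^ 2)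
    (hs : Sol n d₁ d₂ d₃ q 2) :
    (¬ (q : ℤ) ∣ d₁ ∧ ¬ (q : ℤ) ∣ d₂ ∧ ¬ (q : ℤ) ∣ d₃ ∧ legendreSym q d₁ = 1 ∧
      legendreSym q d₂ = 1 ∧ legendreSym q d₃ = 1) ∨
    (¬ (q : ℤ) ∣ d₁ ∧ ∃ x₂ x₃, d₂ = q * x₂ ∧ d₃ = q * x₃ ∧ ¬ (q : ℤ) ∣ x₂ ∧ ¬ (q : ℤ) ∣ x₃ ∧
      legendreSym q x₂ = legendreSym q m ∧ legendreSym q x₃ = legendreSym q (17 * m)) ∨
    (¬ (q : ℤ) ∣ d₂ ∧ ∃ x₁ x₃, d₁ = q * x₁ ∧ d₃ = q * x₃ ∧ ¬ (q : ℤ) ∣ x₁ ∧ ¬ (q : ℤ) ∣ x₃ ∧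
      legendreSym q x₁ = legendreSym q (-m) ∧ legendreSym q x₃ = legendreSym q m) ∨
    (¬ (q : ℤ) ∣ d₃ ∧ ∃ x₁ x₂, d₁ = q * x₁ ∧ d₂ = q * x₂ ∧ ¬ (q : ℤ) ∣ x₁ ∧ ¬ (q : ℤ) ∣ x₂ ∧
      legendreSym q x₁ = legendreSym q (-(17 * m)) ∧ legendreSym q x₂ = legendreSym q (-m)) := by
  have hp : Nat.Prime q := Fact.out
  have hpZ : Prime (q : ℤ) := Nat.prime_iff_prime_int.mp hp
  obtain ⟨s₁, s₂, s₃, e, hprim, hi, hii⟩ := hs
  have hpp : (q : ℤ) ∣ (q : ℤ) ^ 2 := dvd_pow_self _ two_ne_zero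
  have hqn : (q : ℤ) ∣ n := ⟨m, hn⟩
  have h21 : (q : ℤ) ∣ d₂ * s₂ ^ 2 - d₁ * s₁ ^ 2 := by
    have : (d₂ * s₂ ^ 2 - d₁ * s₁ ^ 2 : ℤ) = n * e ^ 2 +
        (d₂ * s₂ ^ 2 - d₁ * s₁ ^ 2 - n * e ^ 2) := by ring
    rw [this]
    exact dvd_add (Dvd.dvd.mul_right hqn _) (hpp.trans hi)
  have h31 : (q : ℤ) ∣ d₃ * s₃ ^ 2 - d₁ * s₁ ^ 2 := by
    have : (d₃ * s₃ ^ 2 - d₁ * s₁ ^ 2 : ℤ) = n * (17 * e ^ 2) +
        (d₃ * s₃ ^ 2 - d₁ * s₁ ^ 2 - 17 * n * e ^ 2) := by ring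
    rw [this]
    exact dvd_add (Dvd.dvd.mul_right hqn _) (hpp.trans hii)
  have hsq : ∀ {x : ℤ}, (q : ℤ) ∣ x → (q : ℤ) ^ 2 ∣ x ^ 2 := fun hx => pow_dvd_pow_of_dvd hx 2
  have hcancel : ∀ {x : ℤ}, (q : ℤ) ^ 2 ∣ q * x → (q : ℤ) ∣ x := by
    intro x hx
    rw [sq] at hx
    exact Int.dvd_of_mul_dvd_mul_left hpZ.ne_zero hx
  have h1717 : ∀ {x : ℤ}, (q : ℤ) ∣ 17 * x → (q : ℤ) ∣ x := fun hx =>
    (hpZ.dvd_or_dvd hx).resolve_left hq17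
  rcases parity hpZ h₁ h₂ h₃ h with ⟨hd1, hd2, hd3⟩ | ⟨hd1, hd2, hd3⟩ | ⟨hd1, hd2, hd3⟩ |
    ⟨hd1, hd2, hd3⟩
  · refine Or.inl ⟨hd1, hd2, hd3, ?_⟩
    by_cases hs1 : (q : ℤ) ∣ s₁
    · exfalso
      have hs2 : (q : ℤ) ∣ s₂ := by
        refine dvd_of_dvd_mul_sq hpZ hd2 ?_
        have : (d₂ * s₂ ^ 2 : ℤ) = d₁ * s₁ ^ 2 + (d₂ * s₂ ^ 2 - d₁ * s₁ ^ 2) := by ring
        rw [this]
        exact dvd_add (Dvd.dvd.mul_left (dvd_pow hs1 two_ne_zero) _) h21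
      have hs3 : (q : ℤ) ∣ s₃ := by
        refine dvd_of_dvd_mul_sq hpZ hd3 ?_
        have : (d₃ * s₃ ^ 2 : ℤ) = d₁ * s₁ ^ 2 + (d₃ * s₃ ^ 2 - d₁ * s₁ ^ 2) := by ring
        rw [this]
        exact dvd_add (Dvd.dvd.mul_left (dvd_pow hs1 two_ne_zero) _) h31
      have he : (q : ℤ) ∣ e := by
        refine dvd_of_dvd_mul_sq hpZ hm (hcancel ?_)
        have : (q * (m * e ^ 2) : ℤ) = d₂ * s₂ ^ 2 - d₁ * s₁ ^ 2 -
            (d₂ * s₂ ^ 2 - d₁ * s₁ ^ 2 - n * e ^ 2) := by rw [hn]; ring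
        rw [this]
        exact dvd_sub (dvd_sub (Dvd.dvd.mul_left (hsq hs2) _) (Dvd.dvd.mul_left (hsq hs1) _)) hi
      exact hprim ⟨hs1, hs2, hs3, he⟩
    · have hs2 : ¬ (q : ℤ) ∣ s₂ := by
        intro hs2
        apply hs1
        refine dvd_of_dvd_mul_sq hpZ hd1 ?_
        have : (d₁ * s₁ ^ 2 : ℤ) = d₂ * s₂ ^ 2 - (d₂ * s₂ ^ 2 - d₁ * s₁ ^ 2) := by ring
        rw [this]
        exact dvd_sub (Dvd.dvd.mul_left (dvd_pow hs2 two_ne_zero) _) h21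
      have hs3 : ¬ (q : ℤ) ∣ s₃ := by
        intro hs3
        apply hs1
        refine dvd_of_dvd_mul_sq hpZ hd1 ?_
        have : (d₁ * s₁ ^ 2 : ℤ) = d₃ * s₃ ^ 2 - (d₃ * s₃ ^ 2 - d₁ * s₁ ^ 2) := by ring
        rw [this]
        exact dvd_sub (Dvd.dvd.mul_left (dvd_pow hs3 two_ne_zero) _) h31
      have e1 : legendreSym q d₃ = legendreSym q d₁ := by
        have := legendre_congr (p := q) h31
        rwa [legendre_mul_sq hs3, legendre_mul_sq hs1] at this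
      have e2 : legendreSym q d₂ = legendreSym q d₁ := by
        have := legendre_congr (p := q) h21
        rwa [legendre_mul_sq hs2, legendre_mul_sq hs1] at this
      have hw : ¬ (q : ℤ) ∣ w := by
        intro hw
        have : (q : ℤ) ∣ d₁ * d₂ * d₃ := by rw [h]; exact dvd_pow hw two_ne_zero
        rcases hpZ.dvd_or_dvd this with h6 | h6
        · rcases hpZ.dvd_or_dvd h6 with h7 | h7
          · exact hd1 h7
          · exact hd2 h7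
        · exact hd3 h6
      have e3 : legendreSym q (d₁ * d₂ * d₃) = 1 := by
        rw [h]
        exact legendreSym.sq_one' q (by rwa [Ne, ZMod.intCast_zmod_eq_zero_iff_dvd])
      rw [legendreSym.mul, legendreSym.mul, e1, e2] at e3
      rcases legendre_ne_zero (p := q) hd1 with h8 | h8
      · exact ⟨h8, by rw [e2, h8], by rw [e1, h8]⟩
      · rw [h8] at e3; norm_num at e3
  · refine Or.inr (Or.inl ⟨hd1, ?_⟩)
    obtain ⟨x₂, hx₂⟩ := hd2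
    obtain ⟨x₃, hx₃⟩ := hd3
    have hn2 := not_dvd_of_squarefree hpZ h₂ hx₂
    have hn3 := not_dvd_of_squarefree hpZ h₃ hx₃
    refine ⟨x₂, x₃, hx₂, hx₃, hn2, hn3, ?_⟩
    have hs1 : (q : ℤ) ∣ s₁ := by
      refine dvd_of_dvd_mul_sq hpZ hd1 ?_
      have : (d₁ * s₁ ^ 2 : ℤ) = d₂ * s₂ ^ 2 - (d₂ * s₂ ^ 2 - d₁ * s₁ ^ 2) := by ring
      rw [this]
      exact dvd_sub (Dvd.dvd.mul_right ⟨x₂, hx₂⟩ _) h21
    have h5 : (q : ℤ) ∣ x₂ * s₂ ^ 2 - m * e ^ 2 := by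
      apply hcancel
      have : (q * (x₂ * s₂ ^ 2 - m * e ^ 2) : ℤ) = d₁ * s₁ ^ 2 +
          (d₂ * s₂ ^ 2 - d₁ * s₁ ^ 2 - n * e ^ 2) := by rw [hn, hx₂]; ring
      rw [this]
      exact dvd_add (Dvd.dvd.mul_left (hsq hs1) _) hi
    have h6 : (q : ℤ) ∣ x₃ * s₃ ^ 2 - 17 * m * e ^ 2 := by
      apply hcancel
      have : (q * (x₃ * s₃ ^ 2 - 17 * m * e ^ 2) : ℤ) = d₁ * s₁ ^ 2 +
          (d₃ * s₃ ^ 2 - d₁ * s₁ ^ 2 - 17 * n * e ^ 2) := by rw [hn, hx₃]; ring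
      rw [this]
      exact dvd_add (Dvd.dvd.mul_left (hsq hs1) _) hii
    have he : ¬ (q : ℤ) ∣ e := by
      intro he
      have hs2 : (q : ℤ) ∣ s₂ := by
        refine dvd_of_dvd_mul_sq hpZ hn2 ?_
        have : (x₂ * s₂ ^ 2 : ℤ) = m * e ^ 2 + (x₂ * s₂ ^ 2 - m * e ^ 2) := by ring
        rw [this]
        exact dvd_add (Dvd.dvd.mul_left (dvd_pow he two_ne_zero) _) h5
      have hs3 : (q : ℤ) ∣ s₃ := by
        refine dvd_of_dvd_mul_sq hpZ hn3 ?_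
        have : (x₃ * s₃ ^ 2 : ℤ) = 17 * m * e ^ 2 + (x₃ * s₃ ^ 2 - 17 * m * e ^ 2) := by ring
        rw [this]
        exact dvd_add (Dvd.dvd.mul_left (dvd_pow he two_ne_zero) _) h6
      exact hprim ⟨hs1, hs2, hs3, he⟩
    have hs2 : ¬ (q : ℤ) ∣ s₂ := by
      intro hs2
      apply he
      refine dvd_of_dvd_mul_sq hpZ hm ?_
      have : (m * e ^ 2 : ℤ) = x₂ * s₂ ^ 2 - (x₂ * s₂ ^ 2 - m * e ^ 2) := by ring
      rw [this]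
      exact dvd_sub (Dvd.dvd.mul_left (dvd_pow hs2 two_ne_zero) _) h5
    have hs3 : ¬ (q : ℤ) ∣ s₃ := by
      intro hs3
      apply he
      refine dvd_of_dvd_mul_sq hpZ hm (h1717 ?_)
      have : (17 * (m * e ^ 2) : ℤ) = x₃ * s₃ ^ 2 - (x₃ * s₃ ^ 2 - 17 * m * e ^ 2) := by ring
      rw [this]
      exact dvd_sub (Dvd.dvd.mul_left (dvd_pow hs3 two_ne_zero) _) h6
    have e1 := legendre_congr (p := q) h5
    have e2 := legendre_congr (p := q) h6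
    rw [legendre_mul_sq hs2, legendre_mul_sq he] at e1
    rw [legendre_mul_sq hs3, legendre_mul_sq he] at e2
    exact ⟨e1, e2⟩
  · refine Or.inr (Or.inr (Or.inl ⟨hd2, ?_⟩))
    obtain ⟨x₁, hx₁⟩ := hd1
    obtain ⟨x₃, hx₃⟩ := hd3
    have hn1 := not_dvd_of_squarefree hpZ h₁ hx₁
    have hn3 := not_dvd_of_squarefree hpZ h₃ hx₃
    refine ⟨x₁, x₃, hx₁, hx₃, hn1, hn3, ?_⟩
    have hs2 : (q : ℤ) ∣ s₂ := by
      refine dvd_of_dvd_mul_sq hpZ hd2 ?_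
      have : (d₂ * s₂ ^ 2 : ℤ) = d₁ * s₁ ^ 2 + (d₂ * s₂ ^ 2 - d₁ * s₁ ^ 2) := by ring
      rw [this]
      exact dvd_add (Dvd.dvd.mul_right ⟨x₁, hx₁⟩ _) h21
    have h5 : (q : ℤ) ∣ x₁ * s₁ ^ 2 - -m * e ^ 2 := by
      apply hcancel
      have : (q * (x₁ * s₁ ^ 2 - -m * e ^ 2) : ℤ) = d₂ * s₂ ^ 2 -
          (d₂ * s₂ ^ 2 - d₁ * s₁ ^ 2 - n * e ^ 2) := by rw [hn, hx₁]; ring
      rw [this]
      exact dvd_sub (Dvd.dvd.mul_left (hsq hs2) _) hi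
    have h6' : (q : ℤ) ∣ x₃ * s₃ ^ 2 - x₁ * s₁ ^ 2 - 17 * m * e ^ 2 := by
      apply hcancel
      have : (q * (x₃ * s₃ ^ 2 - x₁ * s₁ ^ 2 - 17 * m * e ^ 2) : ℤ) =
          (d₃ * s₃ ^ 2 - d₁ * s₁ ^ 2 - 17 * n * e ^ 2) := by rw [hn, hx₃, hx₁]; ring
      rw [this]
      exact hii
    have h6 : (q : ℤ) ∣ x₃ * s₃ ^ 2 - m * (4 * e) ^ 2 := by
      have : (x₃ * s₃ ^ 2 - m * (4 * e) ^ 2 : ℤ) = (x₃ * s₃ ^ 2 - x₁ * s₁ ^ 2 - 17 * m * e ^ 2)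
        + (x₁ * s₁ ^ 2 - -m * e ^ 2) := by ring
      rw [this]
      exact dvd_add h6' h5
    have he : ¬ (q : ℤ) ∣ e := by
      intro he
      have hs1 : (q : ℤ) ∣ s₁ := by
        refine dvd_of_dvd_mul_sq hpZ hn1 ?_
        have : (x₁ * s₁ ^ 2 : ℤ) = -m * e ^ 2 + (x₁ * s₁ ^ 2 - -m * e ^ 2) := by ring
        rw [this]
        exact dvd_add (Dvd.dvd.mul_left (dvd_pow he two_ne_zero) _) h5
      have hs3 : (q : ℤ) ∣ s₃ := by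
        refine dvd_of_dvd_mul_sq hpZ hn3 ?_
        have : (x₃ * s₃ ^ 2 : ℤ) = 16 * m * e ^ 2 + (x₃ * s₃ ^ 2 - m * (4 * e) ^ 2) := by ring
        rw [this]
        exact dvd_add (Dvd.dvd.mul_left (dvd_pow he two_ne_zero) _) h6
      exact hprim ⟨hs1, hs2, hs3, he⟩
    have h4e : ¬ (q : ℤ) ∣ 4 * e := by
      intro hc
      rcases hpZ.dvd_or_dvd hc with hc | hc
      · exact hq2 (hc.trans (by norm_num))
      · exact he hc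
    have hs1 : ¬ (q : ℤ) ∣ s₁ := by
      intro hs1
      apply he
      refine dvd_of_dvd_mul_sq hpZ hm ?_
      have : (m * e ^ 2 : ℤ) = (x₁ * s₁ ^ 2 - -m * e ^ 2) - x₁ * s₁ ^ 2 := by ring
      rw [this]
      exact dvd_sub h5 (Dvd.dvd.mul_left (dvd_pow hs1 two_ne_zero) _)
    have hs3 : ¬ (q : ℤ) ∣ s₃ := by
      intro hs3
      apply h4e
      refine dvd_of_dvd_mul_sq hpZ hm ?_
      have : (m * (4 * e) ^ 2 : ℤ) = x₃ * s₃ ^ 2 - (x₃ * s₃ ^ 2 - m * (4 * e) ^ 2) := by ring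
      rw [this]
      exact dvd_sub (Dvd.dvd.mul_left (dvd_pow hs3 two_ne_zero) _) h6
    have e1 := legendre_congr (p := q) h5
    have e2 := legendre_congr (p := q) h6
    rw [legendre_mul_sq hs1, legendre_mul_sq he] at e1
    rw [legendre_mul_sq hs3, legendre_mul_sq h4e] at e2
    exact ⟨e1, e2⟩
  · refine Or.inr (Or.inr (Or.inr ⟨hd3, ?_⟩))
    obtain ⟨x₁, hx₁⟩ := hd1
    obtain ⟨x₂, hx₂⟩ := hd2
    have hn1 := not_dvd_of_squarefree hpZ h₁ hx₁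
    have hn2 := not_dvd_of_squarefree hpZ h₂ hx₂
    refine ⟨x₁, x₂, hx₁, hx₂, hn1, hn2, ?_⟩
    have hs3 : (q : ℤ) ∣ s₃ := by
      refine dvd_of_dvd_mul_sq hpZ hd3 ?_
      have : (d₃ * s₃ ^ 2 : ℤ) = d₁ * s₁ ^ 2 + (d₃ * s₃ ^ 2 - d₁ * s₁ ^ 2) := by ring
      rw [this]
      exact dvd_add (Dvd.dvd.mul_right ⟨x₁, hx₁⟩ _) h31
    have h5 : (q : ℤ) ∣ x₁ * s₁ ^ 2 - -(17 * m) * e ^ 2 := by
      apply hcancel
      have : (q * (x₁ * s₁ ^ 2 - -(17 * m) * e ^ 2) : ℤ) = d₃ * s₃ ^ 2 -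
          (d₃ * s₃ ^ 2 - d₁ * s₁ ^ 2 - 17 * n * e ^ 2) := by rw [hn, hx₁]; ring
      rw [this]
      exact dvd_sub (Dvd.dvd.mul_left (hsq hs3) _) hii
    have h6' : (q : ℤ) ∣ x₂ * s₂ ^ 2 - x₁ * s₁ ^ 2 - m * e ^ 2 := by
      apply hcancel
      have : (q * (x₂ * s₂ ^ 2 - x₁ * s₁ ^ 2 - m * e ^ 2) : ℤ) =
          (d₂ * s₂ ^ 2 - d₁ * s₁ ^ 2 - n * e ^ 2) := by rw [hn, hx₂, hx₁]; ring
      rw [this]
      exact hi
    have h6 : (q : ℤ) ∣ x₂ * s₂ ^ 2 - -m * (4 * e) ^ 2 := by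
      have : (x₂ * s₂ ^ 2 - -m * (4 * e) ^ 2 : ℤ) = (x₂ * s₂ ^ 2 - x₁ * s₁ ^ 2 - m * e ^ 2)
        + (x₁ * s₁ ^ 2 - -(17 * m) * e ^ 2) := by ring
      rw [this]
      exact dvd_add h6' h5
    have he : ¬ (q : ℤ) ∣ e := by
      intro he
      have hs1 : (q : ℤ) ∣ s₁ := by
        refine dvd_of_dvd_mul_sq hpZ hn1 ?_
        have : (x₁ * s₁ ^ 2 : ℤ) = -(17 * m) * e ^ 2 + (x₁ * s₁ ^ 2 - -(17 * m) * e ^ 2) := by ring
        rw [this]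
        exact dvd_add (Dvd.dvd.mul_left (dvd_pow he two_ne_zero) _) h5
      have hs2 : (q : ℤ) ∣ s₂ := by
        refine dvd_of_dvd_mul_sq hpZ hn2 ?_
        have : (x₂ * s₂ ^ 2 : ℤ) = -16 * m * e ^ 2 + (x₂ * s₂ ^ 2 - -m * (4 * e) ^ 2) := by ring
        rw [this]
        exact dvd_add (Dvd.dvd.mul_left (dvd_pow he two_ne_zero) _) h6
      exact hprim ⟨hs1, hs2, hs3, he⟩
    have h4e : ¬ (q : ℤ) ∣ 4 * e := by
      intro hc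
      rcases hpZ.dvd_or_dvd hc with hc | hc
      · exact hq2 (hc.trans (by norm_num))
      · exact he hc
    have hs1 : ¬ (q : ℤ) ∣ s₁ := by
      intro hs1
      apply he
      refine dvd_of_dvd_mul_sq hpZ hm (h1717 ?_)
      have : (17 * (m * e ^ 2) : ℤ) = (x₁ * s₁ ^ 2 - -(17 * m) * e ^ 2) - x₁ * s₁ ^ 2 := by ring
      rw [this]
      exact dvd_sub h5 (Dvd.dvd.mul_left (dvd_pow hs1 two_ne_zero) _)
    have hs2 : ¬ (q : ℤ) ∣ s₂ := by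
      intro hs2
      apply h4e
      refine dvd_of_dvd_mul_sq hpZ hm ?_
      have : (m * (4 * e) ^ 2 : ℤ) = (x₂ * s₂ ^ 2 - -m * (4 * e) ^ 2) - x₂ * s₂ ^ 2 := by ring
      rw [this]
      exact dvd_sub h6 (Dvd.dvd.mul_left (dvd_pow hs2 two_ne_zero) _)
    have e1 := legendre_congr (p := q) h5
    have e2 := legendre_congr (p := q) h6
    rw [legendre_mul_sq hs1, legendre_mul_sq he] at e1
    rw [legendre_mul_sq hs2, legendre_mul_sq h4e] at e2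
    exact ⟨e1, e2⟩

end Vale.Agent.P014.H71
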