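import Vale.Agent.P014.NMat
import Vale.Agent.P014.H71.Sel

/-!
# The additive Legendre symbol and the Laplacian of the symbols
-/

namespace Vale.Agent.P014.H71

open Finset

/-! ### The Laplacian -/

section Laplacian

variable {I : Type*} [DecidableEq I]

theorem lap_mulVec (w : I → I → ZMod 2) (T : Finset I) (X : I → ZMod 2) (p : T) :
    (Lap w T).mulVec (fun q => X q) p = ∑ q ∈ T.erase p, w p q * (X p + X q) := by
  have h1 : (Lap w T).mulVec (fun q => X q) p =
      ∑ q ∈ T, (if (p : I) = q then ∑ r ∈ T.erase p, w p r else w p q) * X q := by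
    rw [← Finset.sum_coe_sort T]
    unfold Matrix.mulVec dotProduct
    refine Finset.sum_congr rfl fun q _ => ?_
    simp only [Lap, Matrix.of_apply, Subtype.ext_iff]
  rw [h1, ← Finset.add_sum_erase T _ p.2, if_pos rfl, Finset.sum_mul, ← Finset.sum_add_distrib]
  refine Finset.sum_congr rfl fun q hq => ?_
  rw [if_neg (Finset.ne_of_mem_erase hq).symm]
  ring

theorem lap_transpose_mulVec (w : I → I → ZMod 2) (T : Finset I) (X : I → ZMod 2) (p : T) :
    (Lap w T).transpose.mulVec (fun q => X q) p =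
      ∑ q ∈ T.erase p, (w p q * X p + w q p * X q) := by
  have h1 : (Lap w T).transpose.mulVec (fun q => X q) p =
      ∑ q ∈ T, (if q = (p : I) then ∑ r ∈ T.erase q, w q r else w q p) * X q := by
    rw [← Finset.sum_coe_sort T]
    unfold Matrix.mulVec dotProduct
    refine Finset.sum_congr rfl fun q _ => ?_
    simp only [Lap, Matrix.of_apply, Matrix.transpose_apply, Subtype.ext_iff]
  rw [h1, ← Finset.add_sum_erase T _ p.2, if_pos rfl, Finset.sum_mul, ← Finset.sum_add_distrib]
  refine Finset.sum_congr rfl fun q hq => ?_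
  rw [if_neg (Finset.ne_of_mem_erase hq)]

end Laplacian

/-! ### The symbols -/

/-- additive Legendre symbol -/
def lg (p : ℕ) (a : ℤ) : ZMod 2 := if jacobiSym a p = -1 then 1 else 0

theorem lg_of_legendre {p : ℕ} [Fact p.Prime] {a : ℤ} :
    lg p a = if legendreSym p a = -1 then 1 else 0 := by
  unfold lg
  rw [jacobiSym.legendreSym.to_jacobiSym]

theorem lg_congr {p : ℕ} [Fact p.Prime] {a b : ℤ} (h : legendreSym p a = legendreSym p b) :
    lg p a = lg p b := by
  rw [lg_of_legendre, lg_of_legendre, h]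

theorem lg_one (p : ℕ) : lg p 1 = 0 := by
  unfold lg
  rw [jacobiSym.one_left]
  norm_num

theorem lg_eq_zero {p : ℕ} [Fact p.Prime] {a : ℤ} (h : legendreSym p a = 1) : lg p a = 0 := by
  rw [lg_of_legendre, h]; norm_num

theorem lg_eq_zero_iff {p : ℕ} [Fact p.Prime] {a : ℤ} (ha : ¬ (p : ℤ) ∣ a) :
    lg p a = 0 ↔ legendreSym p a = 1 := by
  rw [lg_of_legendre]
  rcases legendre_ne_zero ha with h | h <;> rw [h] <;> norm_num

theorem lg_mul {p : ℕ} [Fact p.Prime] {a b : ℤ} (ha : ¬ (p : ℤ) ∣ a) (hb : ¬ (p : ℤ) ∣ b) :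
    lg p (a * b) = lg p a + lg p b := by
  rw [lg_of_legendre, lg_of_legendre, lg_of_legendre, legendreSym.mul]
  rcases legendre_ne_zero ha with h1 | h1 <;> rcases legendre_ne_zero hb with h2 | h2 <;>
    rw [h1, h2] <;> decide

theorem lg_neg_one {p : ℕ} [hp : Fact p.Prime] (h2 : p ≠ 2) : lg p (-1) = eP p := by
  rw [lg_of_legendre, legendreSym.at_neg_one h2, eP]
  have hodd := hp.out.eq_two_or_odd.resolve_left h2
  have h4 : p % 4 = 1 ∨ p % 4 = 3 := by omega
  rcases h4 with h4 | h4
  · rw [ZMod.χ₄_nat_one_mod_four h4]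
    simp [h4]
  · rw [ZMod.χ₄_nat_three_mod_four h4]
    simp [h4]

theorem lg_17 {p : ℕ} [hp : Fact p.Prime] (h2 : p ≠ 2) : lg p 17 = sP p := by
  unfold lg sP
  have hodd := hp.out.eq_two_or_odd.resolve_left h2
  have := jacobiSym.quadratic_reciprocity_one_mod_four (a := 17) (b := p) (by norm_num)
    (Nat.odd_iff.mpr hodd)
  rw [show ((17 : ℕ) : ℤ) = 17 from rfl] at this
  rw [this]

theorem wP_eq (p q : ℕ) : wP p q = lg p (qstar q) := rfl

theorem lg_prod {p : ℕ} [Fact p.Prime] {ι : Type*} (S : Finset ι) (f : ι → ℤ)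
    (h : ∀ i ∈ S, ¬ (p : ℤ) ∣ f i) : lg p (∏ i ∈ S, f i) = ∑ i ∈ S, lg p (f i) := by
  classical
  induction S using Finset.induction_on with
  | empty => simp [lg_one]
  | insert i S hi ih =>
    have hpZ := Nat.prime_iff_prime_int.mp (Fact.out : p.Prime)
    rw [Finset.prod_insert hi, Finset.sum_insert hi, lg_mul (h i (Finset.mem_insert_self _ _)),
      ih fun j hj => h j (Finset.mem_insert_of_mem hj)]
    intro hc
    obtain ⟨j, hj, hpj⟩ := (hpZ.dvd_finsetProd_iff _).mp hc
    exact h j (Finset.mem_insert_of_mem hj) hpj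

/-- the product of all `q*` -/
def astar (a : ℕ) : ℤ := ∏ q ∈ a.primeFactors, qstar q

theorem qstar_natAbs (q : ℕ) : (qstar q).natAbs = q := by
  unfold qstar; split_ifs <;> simp

theorem qstar_mod {q : ℕ} (h : q % 2 = 1) : qstar q % 4 = 1 := by
  unfold qstar; split_ifs <;> omega

theorem astar_natAbs {a : ℕ} (ha : Squarefree a) : (astar a).natAbs = a := by
  unfold astar
  have h1 := map_prod Int.natAbsHom qstar a.primeFactors
  simp only [Int.natAbsHom_apply] at h1
  rw [h1]
  simp only [qstar_natAbs]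
  exact Nat.prod_primeFactors_of_squarefree ha

theorem astar_mod {a : ℕ} (h2 : a % 2 = 1) : astar a % 4 = 1 := by
  unfold astar
  have : ∀ S : Finset ℕ, (∀ q ∈ S, q % 2 = 1) → (∏ q ∈ S, qstar q) % 4 = 1 := by
    intro S hS
    induction S using Finset.induction_on with
    | empty => simp
    | insert i S hi ih =>
      rw [Finset.prod_insert hi, Int.mul_emod, qstar_mod (hS i (Finset.mem_insert_self _ _)),
        ih fun q hq => hS q (Finset.mem_insert_of_mem hq)]
      norm_num
  refine this _ fun q hq => ?_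
  have hqa := Nat.dvd_of_mem_primeFactors hq
  by_contra hc
  have h3 : 2 ∣ q := by omega
  have := h3.trans hqa
  omega

/-- `[a = 3 mod 4]` -/
def ep (a : ℕ) : ZMod 2 := if a % 4 = 3 then 1 else 0

theorem ep_eq (q : ℕ) : eP q = ep q := rfl

theorem astar_eq {a : ℕ} (ha : Squarefree a) (h2 : a % 2 = 1) :
    astar a = if a % 4 = 3 then -(a : ℤ) else a := by
  have h1 := astar_natAbs ha
  have h3 := astar_mod h2
  split_ifs <;> omega

theorem ep_mul {a b : ℕ} (ha : a % 2 = 1) (hb : b % 2 = 1) : ep (a * b) = ep a + ep b := by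
  unfold ep
  have h1 : a % 4 = 1 ∨ a % 4 = 3 := by omega
  have h2 : b % 4 = 1 ∨ b % 4 = 3 := by omega
  rcases h1 with h1 | h1 <;> rcases h2 with h2 | h2 <;> rw [Nat.mul_mod, h1, h2] <;> decide

theorem lg_astar {a p : ℕ} [hp : Fact p.Prime] (h2 : p ≠ 2) (ha : Squarefree a)
    (ha2 : a % 2 = 1) (hpa : ¬ p ∣ a) : lg p (astar a) = lg p a + ep a * eP p := by
  have hpZ := Nat.prime_iff_prime_int.mp hp.out
  have hpa' : ¬ (p : ℤ) ∣ a := by rwa [Int.natCast_dvd_natCast]
  have hp1 : ¬ (p : ℤ) ∣ -1 := by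
    intro hc
    exact hpZ.not_isUnit (isUnit_of_dvd_one ((Int.dvd_neg).mp hc))
  rw [astar_eq ha ha2]
  unfold ep
  split_ifs
  · rw [neg_eq_neg_one_mul, lg_mul hp1 hpa', lg_neg_one h2]; ring
  · ring

theorem lg_astar_sum {a p : ℕ} [hp : Fact p.Prime] (hpa : ¬ p ∣ a) :
    lg p (astar a) = ∑ q ∈ a.primeFactors, wP p q := by
  unfold astar
  rw [lg_prod]
  · rfl
  · intro q hq hc
    have h1 : p ∣ q := by
      have := Int.natAbs_dvd_natAbs.mpr hc
      rwa [Int.natAbs_natCast, qstar_natAbs] at this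
    exact hpa (h1.trans (Nat.dvd_of_mem_primeFactors hq))

/-- indicator of the prime factors of `a` -/
def ind (a : ℕ) (q : ℕ) : ZMod 2 := if q ∣ a then 1 else 0

theorem lap_ind {n a p : ℕ} (hn : Squarefree n) (ha : a ∣ n) [hp : Fact p.Prime]
    (hpn : p ∣ n) (h2 : p ≠ 2) (hn2 : n % 2 = 1) :
    ∑ q ∈ n.primeFactors.erase p, wP p q * (ind a p + ind a q) =
      if p ∣ a then lg p ((n / a : ℕ) : ℤ) + ep (n / a) * eP p else lg p a + ep a * eP p := by
  have hn0 := hn.ne_zero
  have hsa := hn.squarefree_of_dvd ha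
  have hsb : Squarefree (n / a) := hn.squarefree_of_dvd (Nat.div_dvd_of_dvd ha)
  have hab : a * (n / a) = n := Nat.mul_div_cancel' ha
  have hodd : ∀ m, m ∣ n → m % 2 = 1 := by
    intro m hm
    by_contra hc
    have h3 : 2 ∣ m := by omega
    have := h3.trans hm
    omega
  have hexcl : ∀ q : ℕ, q.Prime → q ∣ n → (q ∣ n / a ↔ ¬ q ∣ a) := by
    intro q hq hqn
    constructor
    · intro h1 h3
      have : q * q ∣ n := by rw [← hab]; exact Nat.mul_dvd_mul h3 h1
      exact hq.not_isUnit (hn q this)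
    · intro h1
      rw [← hab] at hqn
      exact (hq.dvd_mul.mp hqn).resolve_left h1
  split_ifs with hpa
  · have hpb : ¬ p ∣ n / a := fun h => (hexcl p hp.out hpn).mp h hpa
    rw [← lg_astar h2 hsb (hodd _ (Nat.div_dvd_of_dvd ha)) hpb, lg_astar_sum hpb]
    have hsub : (n / a).primeFactors ⊆ n.primeFactors.erase p := by
      intro q hq
      rw [Finset.mem_erase]
      refine ⟨?_, Nat.primeFactors_mono (Nat.div_dvd_of_dvd ha) hn0 hq⟩
      rintro rfl
      exact hpb (Nat.dvd_of_mem_primeFactors hq)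
    rw [← Finset.sum_subset hsub]
    · refine Finset.sum_congr rfl fun q hq => ?_
      have hqp := Nat.prime_of_mem_primeFactors hq
      have hqb := Nat.dvd_of_mem_primeFactors hq
      have hqa := (hexcl q hqp (hqb.trans (Nat.div_dvd_of_dvd ha))).mp hqb
      simp [ind, hpa, hqa]
    · intro q hq hqb
      rw [Finset.mem_erase, Nat.mem_primeFactors] at hq
      have hqa : q ∣ a := by
        by_contra hc
        apply hqb
        rw [Nat.mem_primeFactors]
        exact ⟨hq.2.1, (hexcl q hq.2.1 hq.2.2.1).mpr hc, hsb.ne_zero⟩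
      simp only [ind, if_pos hpa, if_pos hqa]
      rw [show (1 + 1 : ZMod 2) = 0 from by decide, mul_zero]
  · rw [← lg_astar h2 hsa (hodd _ ha) hpa, lg_astar_sum hpa]
    have hsub : a.primeFactors ⊆ n.primeFactors.erase p := by
      intro q hq
      rw [Finset.mem_erase]
      refine ⟨?_, Nat.primeFactors_mono ha hn0 hq⟩
      rintro rfl
      exact hpa (Nat.dvd_of_mem_primeFactors hq)
    rw [← Finset.sum_subset hsub]
    · refine Finset.sum_congr rfl fun q hq => ?_
      have hqa := Nat.dvd_of_mem_primeFactors hq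
      simp [ind, hpa, hqa]
    · intro q hq hqb
      rw [Finset.mem_erase, Nat.mem_primeFactors] at hq
      have hqa : ¬ q ∣ a := by
        intro hc
        apply hqb
        rw [Nat.mem_primeFactors]
        exact ⟨hq.2.1, hc, hsa.ne_zero⟩
      simp [ind, hpa, hqa]

end Vale.Agent.P014.H71
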