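import Vale.Agent.P014.H71.Sel
import Vale.Agent.P017.H185.Fam

/-!
# Triviality of the 2-Selmer group
-/

namespace Vale.Agent.P014.H71

open Vale.Agent.P017.H185

/-- The hypotheses on the prime factors of `n`. -/
structure Hyp0 (n q₀ : ℕ) : Prop where
  sqf : Squarefree n
  n4 : n % 4 = 3
  q₀p : q₀.Prime
  q₀n : q₀ ∣ n
  q₀4 : q₀ % 4 = 3
  uniq : ∀ q : ℕ, q.Prime → q ∣ n → q ≠ q₀ → q % 4 = 1

/-- The hypotheses on `n`. -/
structure Hyp (n q₀ : ℕ) : Prop extends Hyp0 n q₀ where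
  not17 : ¬ 17 ∣ n
  res : ∀ [Fact (Nat.Prime 17)], legendreSym 17 n = -1
  red : Redei n

theorem dvd_of_primes {a n : ℕ} (ha : Squarefree a) (hn : n ≠ 0)
    (h : ∀ p : ℕ, p.Prime → p ∣ a → p ∣ n) : a ∣ n := by
  rw [← Nat.prod_primeFactors_of_squarefree ha]
  refine (Finset.prod_dvd_prod_of_subset _ n.primeFactors _ ?_).trans (Nat.prod_primeFactors_dvd n)
  intro p hp
  rw [Nat.mem_primeFactors] at hp ⊢
  exact ⟨hp.1, h p hp.1 hp.2.1, hn⟩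

theorem mod_four_of_primes {a : ℕ} (ha : Squarefree a)
    (h : ∀ p : ℕ, p.Prime → p ∣ a → p % 4 = 1) : a % 4 = 1 := by
  rw [← Nat.prod_primeFactors_of_squarefree ha]
  refine Finset.prod_induction _ (fun x => x % 4 = 1) (fun x y hx hy => ?_) rfl (fun p hp => ?_)
  · rw [Nat.mul_mod, hx, hy]
  · exact h p (Nat.prime_of_mem_primeFactors hp) (Nat.dvd_of_mem_primeFactors hp)

namespace Hyp0

variable {n q₀ : ℕ} (H : Hyp0 n q₀)
include H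

theorem n0 : n ≠ 0 := H.sqf.ne_zero

theorem mod4_of_not_dvd {a : ℕ} (ha : a ∣ n) (h : ¬ q₀ ∣ a) : a % 4 = 1 := by
  refine mod_four_of_primes (H.sqf.squarefree_of_dvd ha) fun p hp hpa => ?_
  exact H.uniq p hp (hpa.trans ha) (fun hc => h (hc ▸ hpa))

theorem mod4_of_dvd {a : ℕ} (ha : a ∣ n) (h : q₀ ∣ a) : a % 4 = 3 := by
  obtain ⟨b, rfl⟩ := h
  have hb : ¬ q₀ ∣ b := by
    intro hc
    have : q₀ * q₀ ∣ n := (Nat.mul_dvd_mul_left q₀ hc).trans ha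
    exact H.q₀p.not_isUnit (H.sqf q₀ this)
  have := H.mod4_of_not_dvd ((Dvd.intro_left q₀ rfl).trans ha) hb
  rw [Nat.mul_mod, H.q₀4, this]

theorem odd_of_dvd {q : ℕ} (hq : q ∣ n) : q % 2 = 1 := by
  by_contra hc
  have h2 : 2 ∣ q := by omega
  have := h2.trans hq
  have := H.n4
  omega

theorem not_dvd_16 {q : ℕ} (hq : q.Prime) (hqn : q ∣ n) : ¬ (q : ℤ) ∣ 16 := by
  intro hc
  have h1 : q ∣ 16 := by exact_mod_cast hc
  have h2 : q ∣ 2 := hq.dvd_of_dvd_pow (show q ∣ 2 ^ 4 by norm_num; exact h1)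
  have h3 := (Nat.prime_dvd_prime_iff_eq hq Nat.prime_two).mp h2
  have := H.odd_of_dvd hqn
  omega

theorem legendre_neg_one {q : ℕ} [Fact q.Prime] (hqn : q ∣ n) (hq0 : q ≠ q₀) :
    legendreSym q (-1) = 1 := by
  have hq2 : q ≠ 2 := by
    have := H.odd_of_dvd hqn
    rintro rfl; omega
  rw [legendreSym.at_neg_one hq2, ZMod.χ₄_nat_one_mod_four (H.uniq q Fact.out hqn hq0)]

/-- the cofactor -/
theorem not_dvd_cofactor {q m : ℕ} (hq : q.Prime) (h : n = q * m) : ¬ (q : ℤ) ∣ m := by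
  intro hc
  have h1 : q ∣ m := by exact_mod_cast hc
  have : q * q ∣ n := by rw [h]; exact Nat.mul_dvd_mul_left q h1
  exact hq.not_isUnit (H.sqf q this)

end Hyp0

theorem Hyp.not_dvd_17 {n q₀ : ℕ} (H : Hyp n q₀) {q : ℕ} (hq : q.Prime) (hqn : q ∣ n) : ¬ (q : ℤ) ∣ 17 := by
  intro hc
  have h1 : q ∣ 17 := by exact_mod_cast hc
  have h3 := (Nat.prime_dvd_prime_iff_eq hq (by norm_num : Nat.Prime 17)).mp h1
  exact H.not17 (h3 ▸ hqn)


/-- a squarefree integer all of whose prime factors divide `17 n`, up to sign and a factor 17 -/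
theorem exists_decomp {n : ℕ} (hn0 : n ≠ 0)  {d : ℤ} (hd : Squarefree d)
    (hp : ∀ p : ℕ, p.Prime → (p : ℤ) ∣ d → p = 17 ∨ p ∣ n) :
    ∃ a : ℕ, a ∣ n ∧ Squarefree a ∧
      (¬ (17 : ℤ) ∣ d → d.natAbs = a) ∧ ((17 : ℤ) ∣ d → d.natAbs = 17 * a) := by
  have hsq : Squarefree d.natAbs := Int.squarefree_natAbs.mpr hd
  by_cases h : (17 : ℤ) ∣ d
  · have h' : 17 ∣ d.natAbs := by
      have := Int.natAbs_dvd_natAbs.mpr h
      simpa using this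
    obtain ⟨a, ha⟩ := h'
    have hsa : Squarefree a := hsq.squarefree_of_dvd ⟨17, by rw [ha]; ring⟩
    refine ⟨a, dvd_of_primes hsa hn0 ?_, hsa, fun hc => absurd h hc, fun _ => ha⟩
    intro p hpp hpa
    have h1 : (p : ℤ) ∣ d := by
      rw [← Int.dvd_natAbs, ha]
      exact_mod_cast hpa.mul_left 17
    rcases hp p hpp h1 with h2 | h2
    · exfalso
      rw [h2] at hpa
      have : 17 * 17 ∣ d.natAbs := by rw [ha]; exact Nat.mul_dvd_mul_left 17 hpa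
      have := hsq 17 this
      rw [Nat.isUnit_iff] at this
      omega
    · exact h2
  · refine ⟨d.natAbs, dvd_of_primes hsq hn0 ?_, hsq, fun _ => rfl, fun hc => absurd hc h⟩
    intro p hpp hpa
    have h1 : (p : ℤ) ∣ d := by
      rw [← Int.dvd_natAbs]
      exact_mod_cast hpa
    rcases hp p hpp h1 with h2 | h2
    · exfalso; rw [h2] at h1; exact h h1
    · exact h2

theorem Sol.mono {n d₁ d₂ d₃ : ℤ} {p k l : ℕ} (hkl : k ≤ l) (hs : Sol n d₁ d₂ d₃ p l) :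
    Sol n d₁ d₂ d₃ p k := by
  obtain ⟨s₁, s₂, s₃, e, hprim, hi, hii⟩ := hs
  have : (p : ℤ) ^ k ∣ (p : ℤ) ^ l := pow_dvd_pow _ hkl
  exact ⟨s₁, s₂, s₃, e, hprim, this.trans hi, this.trans hii⟩

/-- `(a / q)` for `q ∤ a`, and `((n/a) / q)` for `q ∣ a`, are `1` -/
def Loc (n a q : ℕ) [Fact q.Prime] : Prop :=
  (¬ q ∣ a → legendreSym q a = 1) ∧ (q ∣ a → legendreSym q ((n / a : ℕ) : ℤ) = 1)

theorem two_alternatives {n q₀ : ℕ} (H : Hyp n q₀) {a : ℕ} (ha : a ∣ n)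
    (h : ∀ (q : ℕ) [Fact q.Prime], q ∣ n → Loc n a q) : a = 1 ∨ a = n := by
  refine H.red a ha fun p hp hpn => ?_
  have := Fact.mk hp
  obtain ⟨h1, h2⟩ := h p hpn
  have key : ∀ m : ℕ, ¬ p ∣ m → legendreSym p (m : ℤ) = 1 → IsSquare (m : ZMod p) := by
    intro m hm hl
    have := (legendreSym.eq_one_iff p (a := (m : ℤ))
      (by rwa [Ne, ZMod.intCast_zmod_eq_zero_iff_dvd, Int.natCast_dvd_natCast])).mp hl
    simpa using this
  refine ⟨fun hpa => key a hpa (h1 hpa), fun hpa => key _ ?_ (h2 hpa)⟩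
  intro hc
  have hd : a * (n / a) = n := Nat.mul_div_cancel' ha
  have : p * p ∣ n := by rw [← hd]; exact Nat.mul_dvd_mul hpa hc
  exact hp.not_isUnit (H.sqf p this)

theorem legendre_cancel {q : ℕ} [Fact q.Prime] {x m b : ℤ} (hb : ¬ (q : ℤ) ∣ x)
    (h : x * b = m) (hl : legendreSym q x = legendreSym q m) : legendreSym q b = 1 := by
  rw [← h, legendreSym.mul] at hl
  rcases legendre_ne_zero (p := q) hb with h8 | h8 <;> rw [h8] at hl <;> linarith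

theorem pm_of {A : ℤ} (h : A = 1 ∨ A = -1) : A * A = 1 := by
  rcases h with h | h <;> rw [h] <;> norm_num

theorem local_cond {n q₀ : ℕ} (H : Hyp n q₀) {s v w : ℤ} (hs : s = 1 ∨ s = -1)
    (hv : v = 1 ∨ v = 17) {a₁ a₂ a₃ : ℕ} (ha₁ : a₁ ∣ n) (ha₂ : a₂ ∣ n) (ha₃ : a₃ ∣ n)
    (hsg : s = 1 → ¬ q₀ ∣ a₁) (hsg' : s = -1 → q₀ ∣ a₁)
    (h₁ : Squarefree (s * v * a₁)) (h₂ : Squarefree (s * a₂)) (h₃ : Squarefree (v * a₃))
    (h : (s * v * a₁) * (s * a₂) * (v * a₃) = w ^ 2) {q : ℕ} [Fact q.Prime] (hqn : q ∣ n)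
    (hSol : Sol n (s * v * a₁) (s * a₂) (v * a₃) q 2) :
    (¬ q ∣ a₁ ∧ ¬ q ∣ a₂ ∧ ¬ q ∣ a₃ ∧ legendreSym q (v * a₁) = 1 ∧ legendreSym q a₂ = 1 ∧
      legendreSym q (v * a₃) = 1) ∨
    (¬ q ∣ a₁ ∧ q ∣ a₂ ∧ q ∣ a₃ ∧ legendreSym q ((n / a₂ : ℕ) : ℤ) = 1 ∧
      legendreSym q (v * (n / a₃ : ℕ)) = legendreSym q 17) ∨
    (q ∣ a₁ ∧ ¬ q ∣ a₂ ∧ q ∣ a₃ ∧ legendreSym q (v * (n / a₁ : ℕ)) = 1 ∧
      legendreSym q a₂ = 1) ∨
    (q ∣ a₁ ∧ q ∣ a₂ ∧ ¬ q ∣ a₃ ∧ legendreSym q (v * (n / a₁ : ℕ)) = legendreSym q 17 ∧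
      legendreSym q ((n / a₂ : ℕ) : ℤ) = 1) := by
  have hq : q.Prime := Fact.out
  have hqZ : Prime (q : ℤ) := Nat.prime_iff_prime_int.mp hq
  obtain ⟨m, hm⟩ := hqn
  have hqn : q ∣ n := ⟨m, hm⟩
  have hmq := H.not_dvd_cofactor hq hm
  have hmZ : (n : ℤ) = q * m := by exact_mod_cast hm
  have h17 := H.not_dvd_17 hq hqn
  have hns : ¬ (q : ℤ) ∣ s := by
    rcases hs with rfl | rfl
    · intro hc; exact hqZ.not_isUnit (isUnit_of_dvd_one hc)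
    · intro hc; exact hqZ.not_isUnit (isUnit_of_dvd_one ((Int.dvd_neg).mp hc))
  have hnv : ¬ (q : ℤ) ∣ v := by
    rcases hv with rfl | rfl
    · intro hc; exact hqZ.not_isUnit (isUnit_of_dvd_one hc)
    · exact h17
  have Ls0 : ¬ q ∣ a₁ → legendreSym q s = 1 := by
    intro hc
    rcases hs with h4 | h4
    · rw [h4]; exact legendreSym.at_one q
    · rw [h4]; exact H.legendre_neg_one hqn (fun h5 => hc (h5 ▸ hsg' h4))
  have Ls1 : q ∣ a₁ → legendreSym q s = legendreSym q (-1) := by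
    intro hc
    rcases hs with h4 | h4
    · rw [h4, legendreSym.at_one]
      exact (H.legendre_neg_one hqn (fun h5 => hsg h4 (h5 ▸ hc))).symm
    · rw [h4]
  have hcast : ∀ {a : ℕ} {t : ℤ}, ¬ (q : ℤ) ∣ t → ((q : ℤ) ∣ t * a ↔ q ∣ a) := by
    intro a t ht
    rw [← Int.natCast_dvd_natCast]
    exact ⟨fun h6 => (hqZ.dvd_or_dvd h6).resolve_left ht, fun h6 => Dvd.dvd.mul_left h6 _⟩
  have hnsv : ¬ (q : ℤ) ∣ s * v := by
    intro hc
    rcases hqZ.dvd_or_dvd hc with hc | hc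
    · exact hns hc
    · exact hnv hc
  have hcof : ∀ {a : ℕ}, a ∣ n → q ∣ a → ∃ b : ℕ, a = q * b ∧ (m : ℤ) = b * (n / a : ℕ) ∧
      ¬ (q : ℤ) ∣ b ∧ ¬ (q : ℤ) ∣ (n / a : ℕ) := by
    intro a ha ⟨b, hb⟩
    have h6 : a * (n / a) = n := Nat.mul_div_cancel' ha
    have h7 : m = b * (n / a) := by
      apply Nat.eq_of_mul_eq_mul_left hq.pos
      rw [← hm, ← mul_assoc, ← hb, h6]
    have h8 : (m : ℤ) = b * (n / a : ℕ) := by
      conv_lhs => rw [h7]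
      push_cast; ring
    refine ⟨b, hb, h8, fun hc => hmq ?_, fun hc => hmq ?_⟩
    · rw [h8]; exact Dvd.dvd.mul_right hc _
    · rw [h8]; exact Dvd.dvd.mul_left hc _
  have Lpm : ∀ {x : ℤ}, ¬ (q : ℤ) ∣ x → legendreSym q x = 1 ∨ legendreSym q x = -1 :=
    fun hx => legendre_ne_zero hx
  have Lv := Lpm hnv
  have L17 := Lpm h17
  have Lm1 : legendreSym q (-1) = 1 ∨ legendreSym q (-1) = -1 := by
    refine Lpm ?_
    intro hc; exact hqZ.not_isUnit (isUnit_of_dvd_one ((Int.dvd_neg).mp hc))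
  rcases Sol.bad (H.not_dvd_16 hq hqn) h17 hmZ hmq h₁ h₂ h₃ h hSol with
    ⟨g1, g2, g3, L1, L2, L3⟩ | ⟨g1, x₂, x₃, e2, e3, g2, g3, L2, L3⟩ |
    ⟨g2, x₁, x₃, e1, e3, g1, g3, L1, L3⟩ | ⟨g3, x₁, x₂, e1, e2, g1, g2, L1, L2⟩
  · rw [hcast hnsv] at g1
    rw [hcast hns] at g2
    rw [hcast hnv] at g3
    refine Or.inl ⟨g1, g2, g3, ?_, ?_, L3⟩
    · rw [mul_assoc, legendreSym.mul, Ls0 g1, one_mul] at L1; exact L1
    · rw [legendreSym.mul, Ls0 g1, one_mul] at L2; exact L2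
  · rw [hcast hnsv] at g1
    have g2' : q ∣ a₂ := (hcast hns).mp ⟨x₂, e2⟩
    have g3' : q ∣ a₃ := (hcast hnv).mp ⟨x₃, e3⟩
    obtain ⟨b₂, hb₂, hm₂, nb₂, nc₂⟩ := hcof ha₂ g2'
    obtain ⟨b₃, hb₃, hm₃, nb₃, nc₃⟩ := hcof ha₃ g3'
    have hx₂ : x₂ = s * b₂ := by
      apply mul_left_cancel₀ hqZ.ne_zero
      rw [← e2, hb₂]; push_cast; ring
    have hx₃ : x₃ = v * b₃ := by
      apply mul_left_cancel₀ hqZ.ne_zero
      rw [← e3, hb₃]; push_cast; ring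
    refine Or.inr (Or.inl ⟨g1, g2', g3', ?_, ?_⟩)
    · rw [hx₂, hm₂, legendreSym.mul, legendreSym.mul, Ls0 g1] at L2
      rcases Lpm nb₂ with h8 | h8 <;> rw [h8] at L2 <;> linarith
    · rw [hx₃, hm₃, legendreSym.mul, legendreSym.mul, legendreSym.mul] at L3
      rw [legendreSym.mul]
      rcases Lpm nb₃ with h8 | h8 <;> rcases Lpm nc₃ with h9 | h9 <;> rw [h8, h9] at L3 <;>
        rw [h9] <;> linarith
  · rw [hcast hns] at g2
    have g1' : q ∣ a₁ := (hcast hnsv).mp ⟨x₁, e1⟩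
    have g3' : q ∣ a₃ := (hcast hnv).mp ⟨x₃, e3⟩
    obtain ⟨b₁, hb₁, hm₁, nb₁, nc₁⟩ := hcof ha₁ g1'
    obtain ⟨b₃, hb₃, hm₃, nb₃, nc₃⟩ := hcof ha₃ g3'
    have hx₁ : x₁ = s * v * b₁ := by
      apply mul_left_cancel₀ hqZ.ne_zero
      rw [← e1, hb₁]; push_cast; ring
    have hx₃ : x₃ = v * b₃ := by
      apply mul_left_cancel₀ hqZ.ne_zero
      rw [← e3, hb₃]; push_cast; ring
    have K1 : legendreSym q (v * (n / a₁ : ℕ)) = 1 := by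
      rw [hx₁, neg_eq_neg_one_mul, hm₁, legendreSym.mul, legendreSym.mul, legendreSym.mul,
        legendreSym.mul, Ls1 g1'] at L1
      rw [legendreSym.mul]
      rcases Lpm nb₁ with h8 | h8 <;> rcases Lpm nc₁ with h9 | h9 <;> rcases Lm1 with h10 | h10 <;>
        rw [h8, h9, h10] at L1 <;> rw [h9] <;> linarith
    have K3 : legendreSym q (v * (n / a₃ : ℕ)) = 1 := by
      rw [hx₃, hm₃, legendreSym.mul, legendreSym.mul] at L3
      rw [legendreSym.mul]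
      rcases Lpm nb₃ with h8 | h8 <;> rcases Lpm nc₃ with h9 | h9 <;> rw [h8, h9] at L3 <;>
        rw [h9] <;> linarith
    refine Or.inr (Or.inr (Or.inl ⟨g1', g2, g3', K1, ?_⟩))
    have hw : (q : ℤ) ∣ w := by
      apply hqZ.dvd_of_dvd_pow (n := 2)
      rw [← h, hb₁]
      exact ⟨s * v * b₁ * (s * a₂) * (v * a₃), by push_cast; ring⟩
    obtain ⟨w', hw'⟩ := hw
    have h5 : (v * s) ^ 2 * (b₁ * b₃ * a₂) = w' ^ 2 := by
      apply mul_left_cancel₀ (pow_ne_zero 2 hqZ.ne_zero)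
      have : (q : ℤ) ^ 2 * w' ^ 2 = w ^ 2 := by rw [hw']; ring
      rw [this, ← h, hb₁, hb₃]; push_cast; ring
    have hna2 : ¬ (q : ℤ) ∣ a₂ := by rwa [Int.natCast_dvd_natCast]
    have hnw' : ¬ (q : ℤ) ∣ w' := by
      intro hc
      have h6 : (q : ℤ) ∣ (v * s) ^ 2 * (b₁ * b₃ * a₂) := by rw [h5]; exact dvd_pow hc two_ne_zero
      rcases hqZ.dvd_or_dvd h6 with h7 | h7
      · rcases hqZ.dvd_or_dvd (hqZ.dvd_of_dvd_pow h7) with h8 | h8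
        · exact hnv h8
        · exact hns h8
      · rcases hqZ.dvd_or_dvd h7 with h8 | h8
        · rcases hqZ.dvd_or_dvd h8 with h9 | h9
          · exact nb₁ h9
          · exact nb₃ h9
        · exact hna2 h8
    have h6 : legendreSym q ((v * s) ^ 2 * (b₁ * b₃ * a₂)) = 1 := by
      rw [h5]
      exact legendreSym.sq_one' q (by rwa [Ne, ZMod.intCast_zmod_eq_zero_iff_dvd])
    have hnvs : ¬ (q : ℤ) ∣ v * s := by rw [mul_comm]; exact hnsv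
    rw [mul_comm, legendre_mul_sq hnvs, legendreSym.mul, legendreSym.mul] at h6
    have h7 : legendreSym q b₁ * legendreSym q ((n / a₁ : ℕ) : ℤ) =
        legendreSym q b₃ * legendreSym q ((n / a₃ : ℕ) : ℤ) := by
      rw [← legendreSym.mul, ← legendreSym.mul, ← hm₁, ← hm₃]
    rw [legendreSym.mul] at K1 K3
    rcases Lv with hv' | hv' <;> rw [hv'] at K1 K3
    · rw [one_mul] at K1 K3
      rw [K1, K3, mul_one, mul_one] at h7
      rw [h7, pm_of (Lpm nb₃), one_mul] at h6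
      exact h6
    · have K1' : legendreSym q ((n / a₁ : ℕ) : ℤ) = -1 := by linarith
      have K3' : legendreSym q ((n / a₃ : ℕ) : ℤ) = -1 := by linarith
      rw [K1', K3'] at h7
      have h7' : legendreSym q b₁ = legendreSym q b₃ := by linarith
      rw [h7', pm_of (Lpm nb₃), one_mul] at h6
      exact h6
  · rw [hcast hnv] at g3
    have g1' : q ∣ a₁ := (hcast hnsv).mp ⟨x₁, e1⟩
    have g2' : q ∣ a₂ := (hcast hns).mp ⟨x₂, e2⟩
    obtain ⟨b₁, hb₁, hm₁, nb₁, nc₁⟩ := hcof ha₁ g1'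
    obtain ⟨b₂, hb₂, hm₂, nb₂, nc₂⟩ := hcof ha₂ g2'
    have hx₁ : x₁ = s * v * b₁ := by
      apply mul_left_cancel₀ hqZ.ne_zero
      rw [← e1, hb₁]; push_cast; ring
    have hx₂ : x₂ = s * b₂ := by
      apply mul_left_cancel₀ hqZ.ne_zero
      rw [← e2, hb₂]; push_cast; ring
    refine Or.inr (Or.inr (Or.inr ⟨g1', g2', g3, ?_, ?_⟩))
    · rw [hx₁, neg_eq_neg_one_mul, hm₁, legendreSym.mul, legendreSym.mul, legendreSym.mul,
        legendreSym.mul, legendreSym.mul, Ls1 g1'] at L1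
      rw [legendreSym.mul]
      rcases Lpm nb₁ with h8 | h8 <;> rcases Lpm nc₁ with h9 | h9 <;> rcases Lm1 with h10 | h10 <;>
        rw [h8, h9, h10] at L1 <;> rw [h9] <;> linarith
    · rw [hx₂, neg_eq_neg_one_mul, hm₂, legendreSym.mul, legendreSym.mul, legendreSym.mul,
        Ls1 g1'] at L2
      rcases Lpm nb₂ with h8 | h8 <;> rcases Lm1 with h10 | h10 <;>
        rw [h8, h10] at L2 <;> linarith

/-- the local information at a prime `q ∣ n` -/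
def Four (n : ℕ) (v : ℤ) (a₁ a₂ a₃ q : ℕ) [Fact q.Prime] : Prop :=
    (¬ q ∣ a₁ ∧ ¬ q ∣ a₂ ∧ ¬ q ∣ a₃ ∧ legendreSym q (v * a₁) = 1 ∧ legendreSym q a₂ = 1 ∧
      legendreSym q (v * a₃) = 1) ∨
    (¬ q ∣ a₁ ∧ q ∣ a₂ ∧ q ∣ a₃ ∧ legendreSym q ((n / a₂ : ℕ) : ℤ) = 1 ∧
      legendreSym q (v * (n / a₃ : ℕ)) = legendreSym q 17) ∨
    (q ∣ a₁ ∧ ¬ q ∣ a₂ ∧ q ∣ a₃ ∧ legendreSym q (v * (n / a₁ : ℕ)) = 1 ∧
      legendreSym q a₂ = 1) ∨
    (q ∣ a₁ ∧ q ∣ a₂ ∧ ¬ q ∣ a₃ ∧ legendreSym q (v * (n / a₁ : ℕ)) = legendreSym q 17 ∧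
      legendreSym q ((n / a₂ : ℕ) : ℤ) = 1)

theorem exists_data {n q₀ : ℕ} (H : Hyp n q₀) {d₁ d₂ d₃ w : ℤ} (h₁ : Squarefree d₁)
    (h₂ : Squarefree d₂) (h₃ : Squarefree d₃) (h : d₁ * d₂ * d₃ = w ^ 2) (hpos : 0 < d₃)
    (hs : ∀ p : ℕ, p.Prime → Sol n d₁ d₂ d₃ p 6) [h17f : Fact (Nat.Prime 17)] :
    ∃ (s v : ℤ) (a₁ a₂ a₃ : ℕ), (s = 1 ∨ s = -1) ∧
      ((v = 1 ∧ legendreSym 17 a₂ = 1) ∨ (v = 17 ∧ legendreSym 17 a₂ = -1)) ∧
      d₁ = s * v * a₁ ∧ d₂ = s * a₂ ∧ d₃ = v * a₃ ∧ a₁ ∣ n ∧ a₂ ∣ n ∧ a₃ ∣ n ∧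
      (s = 1 → a₁ % 4 = 1) ∧ (s = -1 → a₁ % 4 = 3) ∧
      ∀ (q : ℕ) [Fact q.Prime], q ∣ n → Four n v a₁ a₂ a₃ q := by
  have hs2 : ∀ p : ℕ, p.Prime → Sol n d₁ d₂ d₃ p 2 := fun p hp => (hs p hp).mono (by norm_num)
  obtain ⟨t1, t2, t3⟩ := Sol.two (by have := H.n4; omega) h₁ h₂ h₃ h (hs 2 Nat.prime_two)
  have hn17 : ¬ (17 : ℤ) ∣ n := by
    intro hc; exact H.not17 (by exact_mod_cast hc)
  obtain ⟨u2, u13, ures, unres⟩ := Sol.seventeen hn17 h₁ h₂ h₃ h (hs2 17 h17f.out)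
  have hgood : ∀ p : ℕ, p.Prime → p ≠ 17 → ¬ p ∣ n →
      ¬ (p : ℤ) ∣ d₁ ∧ ¬ (p : ℤ) ∣ d₂ ∧ ¬ (p : ℤ) ∣ d₃ := by
    intro p hp hp17 hpn
    by_cases hp2 : p = 2
    · subst hp2
      refine ⟨?_, ?_, ?_⟩ <;> · push_cast; omega
    · refine Sol.good (n := n) hp ?_ ?_ ?_ h₁ h₂ h₃ h (hs2 p hp)
      · intro hc
        have h1 : p ∣ 16 := by exact_mod_cast hc
        have h2 : p ∣ 2 := hp.dvd_of_dvd_pow (show p ∣ 2 ^ 4 by norm_num; exact h1)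
        exact hp2 ((Nat.prime_dvd_prime_iff_eq hp Nat.prime_two).mp h2)
      · intro hc
        have h1 : p ∣ 17 := by exact_mod_cast hc
        exact hp17 ((Nat.prime_dvd_prime_iff_eq hp h17f.out).mp h1)
      · intro hc; exact hpn (by exact_mod_cast hc)
  have hP : ∀ p : ℕ, p.Prime → (p : ℤ) ∣ d₁ ∨ (p : ℤ) ∣ d₂ ∨ (p : ℤ) ∣ d₃ → p = 17 ∨ p ∣ n := by
    intro p hp hd
    by_contra hc
    push Not at hc
    obtain ⟨g1, g2, g3⟩ := hgood p hp hc.1 hc.2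
    tauto
  obtain ⟨a₁, ha₁, hsa₁, hA1, hA1'⟩ := exists_decomp H.n0 h₁
    (fun p hp hd => hP p hp (Or.inl hd))
  obtain ⟨a₂, ha₂, hsa₂, hA2, -⟩ := exists_decomp H.n0 h₂
    (fun p hp hd => hP p hp (Or.inr (Or.inl hd)))
  obtain ⟨a₃, ha₃, hsa₃, hA3, hA3'⟩ := exists_decomp H.n0 h₃
    (fun p hp hd => hP p hp (Or.inr (Or.inr hd)))
  have hw0 : 0 < w ^ 2 := by
    have : w ^ 2 ≠ 0 := by
      rw [← h]; exact mul_ne_zero (mul_ne_zero h₁.ne_zero h₂.ne_zero) h₃.ne_zero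
    positivity
  have h12 : 0 < d₁ * d₂ := by
    by_contra hc
    push Not at hc
    have : d₁ * d₂ * d₃ ≤ 0 := mul_nonpos_of_nonpos_of_nonneg hc hpos.le
    rw [h] at this; linarith
  obtain ⟨s, hs1, e1, e2⟩ : ∃ s : ℤ, (s = 1 ∨ s = -1) ∧ d₁ = s * d₁.natAbs ∧
      d₂ = s * d₂.natAbs := by
    rcases lt_trichotomy 0 d₁ with h4 | h4 | h4
    · have h5 : 0 < d₂ := (mul_pos_iff_of_pos_left h4).mp h12
      exact ⟨1, Or.inl rfl, by omega, by omega⟩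
    · rw [← h4] at h12; simp at h12
    · have h5 : d₂ < 0 := by
        by_contra hc
        push Not at hc
        have := mul_nonpos_of_nonpos_of_nonneg h4.le hc
        linarith
      exact ⟨-1, Or.inr rfl, by omega, by omega⟩
  obtain ⟨v, hv, hv17, e1', e3'⟩ : ∃ v : ℤ, (v = 1 ∨ v = 17) ∧
      ((v = 1 ∧ legendreSym 17 d₂ = 1) ∨ (v = 17 ∧ legendreSym 17 d₂ = -1)) ∧
      d₁ = s * v * a₁ ∧ d₃ = v * a₃ := by
    by_cases h4 : (17 : ℤ) ∣ d₁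
    · refine ⟨17, Or.inr rfl, Or.inr ⟨rfl, by rw [unres h4]; exact H.res⟩, ?_, ?_⟩
      · rw [e1, hA1' h4]; push_cast; ring
      · have := hA3' (u13.mp h4)
        omega
    · refine ⟨1, Or.inl rfl, Or.inl ⟨rfl, ures h4⟩, ?_, ?_⟩
      · rw [e1, hA1 h4]; push_cast; ring
      · have := hA3 (fun hc => h4 (u13.mpr hc))
        omega
  have e2' : d₂ = s * a₂ := by rw [e2, hA2 u2]
  clear e1 e2
  have hsgA : (s = 1 → a₁ % 4 = 1) ∧ (s = -1 → a₁ % 4 = 3) := by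
    have hd : d₁ % 4 = 1 := t1
    rw [e1'] at hd
    constructor
    · intro hs5
      rcases hv with hv5 | hv5 <;> rw [hs5, hv5] at hd <;> omega
    · intro hs5
      rcases hv with hv5 | hv5 <;> rw [hs5, hv5] at hd <;> omega
  have hsg : s = 1 → ¬ q₀ ∣ a₁ := by
    intro hs5 hc
    have := hsgA.1 hs5
    have := H.mod4_of_dvd ha₁ hc
    omega
  have hsg' : s = -1 → q₀ ∣ a₁ := by
    intro hs5
    by_contra hc
    have := hsgA.2 hs5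
    have := H.mod4_of_not_dvd ha₁ hc
    omega
  have h₁' : Squarefree (s * v * a₁) := e1' ▸ h₁
  have h₂' : Squarefree (s * a₂) := e2' ▸ h₂
  have h₃' : Squarefree (v * a₃) := e3' ▸ h₃
  have h' : (s * v * a₁) * (s * a₂) * (v * a₃) = w ^ 2 := by rw [← e1', ← e2', ← e3']; exact h
  have hloc : ∀ (q : ℕ) [Fact q.Prime], q ∣ n → Four n v a₁ a₂ a₃ q := by
    intro q hqf hqn
    refine local_cond H hs1 hv ha₁ ha₂ ha₃ hsg hsg' h₁' h₂' h₃' h' hqn ?_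
    rw [← e1', ← e2', ← e3']
    exact hs2 q hqf.out
  have hs17 : legendreSym 17 s = 1 := by
    rcases hs1 with h5 | h5
    · rw [h5]; exact legendreSym.at_one 17
    · rw [h5, legendreSym.at_neg_one (by norm_num)]; decide
  have hL2 : legendreSym 17 d₂ = legendreSym 17 a₂ := by
    rw [e2', legendreSym.mul, hs17, one_mul]
  rw [hL2] at hv17
  exact ⟨s, v, a₁, a₂, a₃, hs1, hv17, e1', e2', e3', ha₁, ha₂, ha₃, hsgA.1, hsgA.2, hloc⟩

theorem sel_end {n q₀ : ℕ} (H : Hyp n q₀) {s : ℤ} {a₁ : ℕ} (hs1 : s = 1 ∨ s = -1)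
    (hA1 : s = 1 → a₁ % 4 = 1) (hA2 : s = -1 → a₁ % 4 = 3) (hh : a₁ = 1 ∨ a₁ = n) :
    (s = 1 ∧ a₁ = 1) ∨ (s = -1 ∧ a₁ = n) := by
  have hn4 := H.n4
  rcases hs1 with h5 | h5
  · left
    refine ⟨h5, ?_⟩
    have := hA1 h5
    rcases hh with h6 | h6
    · exact h6
    · omega
  · right
    refine ⟨h5, ?_⟩
    have := hA2 h5
    rcases hh with h6 | h6
    · omega
    · exact h6

theorem sel_case1 {n q₀ : ℕ} (H : Hyp n q₀) {s : ℤ} {a₁ a₃ : ℕ} (hs1 : s = 1 ∨ s = -1)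
    (hA1 : s = 1 → a₁ % 4 = 1) (hA2 : s = -1 → a₁ % 4 = 3) (ha₁ : a₁ ∣ n) (ha₃ : a₃ ∣ n)
    (hloc : ∀ (q : ℕ) [Fact q.Prime], q ∣ n → Four n 1 a₁ 1 a₃ q) :
    a₁ = a₃ ∧ ((s = 1 ∧ a₁ = 1) ∨ (s = -1 ∧ a₁ = n)) := by
  have hsa₁ := H.sqf.squarefree_of_dvd ha₁
  have hsa₃ := H.sqf.squarefree_of_dvd ha₃
  have h13 : a₁ = a₃ := by
    apply Nat.dvd_antisymm
    · refine dvd_of_primes hsa₁ hsa₃.ne_zero fun p hp hpa => ?_
      have := Fact.mk hp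
      have hp1 : ¬ p ∣ 1 := fun hc => hp.not_isUnit (isUnit_of_dvd_one hc)
      rcases hloc p (hpa.trans ha₁) with g | g | g | g
      · exact absurd hpa g.1
      · exact absurd hpa g.1
      · exact g.2.2.1
      · exact absurd g.2.1 hp1
    · refine dvd_of_primes hsa₃ hsa₁.ne_zero fun p hp hpa => ?_
      have := Fact.mk hp
      have hp1 : ¬ p ∣ 1 := fun hc => hp.not_isUnit (isUnit_of_dvd_one hc)
      rcases hloc p (hpa.trans ha₃) with g | g | g | g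
      · exact absurd hpa g.2.2.1
      · exact absurd g.2.1 hp1
      · exact g.1
      · exact g.1
  refine ⟨h13, sel_end H hs1 hA1 hA2 ?_⟩
  refine two_alternatives H ha₁ fun q hqf hqn => ?_
  rcases hloc q hqn with ⟨g1, g2, g3, L1, L2, L3⟩ | ⟨g1, g2, g3, L1, L2⟩ |
    ⟨g1, g2, g3, L1, L2⟩ | ⟨g1, g2, g3, L1, L2⟩
  · rw [one_mul] at L1
    exact ⟨fun _ => L1, fun hc => absurd hc g1⟩
  · rw [h13] at g1; exact absurd g3 g1
  · rw [one_mul] at L1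
    exact ⟨fun hc => absurd g1 hc, fun _ => L1⟩
  · rw [h13] at g1; exact absurd g1 g3

theorem sel_case2 {n q₀ : ℕ} (H : Hyp n q₀) {s : ℤ} {a₁ a₃ : ℕ} (hs1 : s = 1 ∨ s = -1)
    (hA1 : s = 1 → a₁ % 4 = 1) (hA2 : s = -1 → a₁ % 4 = 3) (ha₁ : a₁ ∣ n) (ha₃ : a₃ ∣ n)
    (hloc : ∀ (q : ℕ) [Fact q.Prime], q ∣ n → Four n 17 a₁ n a₃ q) :
    a₁ * a₃ = n ∧ ((s = 1 ∧ a₁ = 1) ∨ (s = -1 ∧ a₁ = n)) := by
  have h13 : a₁ * a₃ = n := by
    apply Nat.dvd_antisymm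
    · apply Nat.Coprime.mul_dvd_of_dvd_of_dvd _ ha₁ ha₃
      rw [Nat.coprime_iff_gcd_eq_one]
      by_contra hc
      obtain ⟨p, hp, hpg⟩ := Nat.exists_prime_and_dvd hc
      have hp1 := hpg.trans (Nat.gcd_dvd_left _ _)
      have hp3 := hpg.trans (Nat.gcd_dvd_right _ _)
      have := Fact.mk hp
      rcases hloc p (hp1.trans ha₁) with g | g | g | g
      · exact g.1 hp1
      · exact g.1 hp1
      · exact g.2.1 (hp1.trans ha₁)
      · exact g.2.2.1 hp3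
    · have h1 : a₁ * a₃ ≠ 0 := mul_ne_zero (H.sqf.squarefree_of_dvd ha₁).ne_zero
        (H.sqf.squarefree_of_dvd ha₃).ne_zero
      refine dvd_of_primes H.sqf h1 fun p hp hpn => ?_
      have := Fact.mk hp
      rcases hloc p hpn with g | g | g | g
      · exact absurd hpn g.2.1
      · exact Dvd.dvd.mul_left g.2.2.1 _
      · exact absurd hpn g.2.1
      · exact Dvd.dvd.mul_right g.1 _
  refine ⟨h13, sel_end H hs1 hA1 hA2 ?_⟩
  refine two_alternatives H ha₁ fun q hqf hqn => ?_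
  have hq : q.Prime := hqf.out
  have L17 := legendre_ne_zero (p := q) (H.not_dvd_17 hq hqn)
  rcases hloc q hqn with ⟨g1, g2, g3, L1, L2, L3⟩ | ⟨g1, g2, g3, L1, L2⟩ |
    ⟨g1, g2, g3, L1, L2⟩ | ⟨g1, g2, g3, L1, L2⟩
  · exact absurd hqn g2
  · refine ⟨fun _ => ?_, fun hc => absurd hc g1⟩
    have h5 : n / a₃ = a₁ := by
      rw [← h13]
      exact Nat.mul_div_cancel _ (Nat.pos_of_ne_zero (H.sqf.squarefree_of_dvd ha₃).ne_zero)
    rw [h5, legendreSym.mul] at L2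
    rcases L17 with h8 | h8 <;> rw [h8] at L2 <;> linarith
  · exact absurd hqn g2
  · refine ⟨fun hc => absurd g1 hc, fun _ => ?_⟩
    rw [legendreSym.mul] at L1
    rcases L17 with h8 | h8 <;> rw [h8] at L1 <;> linarith

/-- **Triviality of the 2-Selmer group.** -/
theorem selmer_trivial {n q₀ : ℕ} (H : Hyp n q₀) {d₁ d₂ d₃ w : ℤ} (h₁ : Squarefree d₁)
    (h₂ : Squarefree d₂) (h₃ : Squarefree d₃) (h : d₁ * d₂ * d₃ = w ^ 2) (hpos : 0 < d₃)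
    (hs : ∀ p : ℕ, p.Prime → Sol n d₁ d₂ d₃ p 6) :
    (d₁ = 1 ∧ d₂ = 1 ∧ d₃ = 1) ∨ (d₁ = 17 ∧ d₂ = n ∧ d₃ = 17 * n) ∨
      (d₁ = -n ∧ d₂ = -1 ∧ d₃ = n) ∨ (d₁ = -17 * n ∧ d₂ = -n ∧ d₃ = 17) := by
  have h17f : Fact (Nat.Prime 17) := ⟨by norm_num⟩
  obtain ⟨s, v, a₁, a₂, a₃, hs1, hv17, e1, e2, e3, ha₁, ha₂, ha₃, hA1, hA2, hloc⟩ :=
    exists_data H h₁ h₂ h₃ h hpos hs
  have hA : a₂ = 1 ∨ a₂ = n := by
    refine two_alternatives H ha₂ fun q hqf hqn => ?_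
    rcases hloc q hqn with ⟨g1, g2, g3, L1, L2, L3⟩ | ⟨g1, g2, g3, L1, L2⟩ |
      ⟨g1, g2, g3, L1, L2⟩ | ⟨g1, g2, g3, L1, L2⟩
    · exact ⟨fun _ => L2, fun hc => absurd hc g2⟩
    · exact ⟨fun hc => absurd g2 hc, fun _ => L1⟩
    · exact ⟨fun _ => L2, fun hc => absurd hc g2⟩
    · exact ⟨fun hc => absurd g2 hc, fun _ => L2⟩
  rcases hA with hA | hA
  · have hv1 : v = 1 := by
      rcases hv17 with ⟨h5, -⟩ | ⟨-, h5⟩
      · exact h5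
      · rw [hA, Nat.cast_one, legendreSym.at_one] at h5
        norm_num at h5
    subst hv1 hA
    obtain ⟨h13, hB⟩ := sel_case1 H hs1 hA1 hA2 ha₁ ha₃ hloc
    rcases hB with ⟨h5, h6⟩ | ⟨h5, h6⟩
    · left
      refine ⟨?_, ?_, ?_⟩
      · rw [e1, h5, h6]; norm_num
      · rw [e2, h5]; norm_num
      · rw [e3, ← h13, h6]; norm_num
    · right; right; left
      refine ⟨?_, ?_, ?_⟩
      · rw [e1, h5, h6]; ring
      · rw [e2, h5]; norm_num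
      · rw [e3, ← h13, h6]; norm_num
  · have hv1 : v = 17 := by
      rcases hv17 with ⟨-, h5⟩ | ⟨h5, -⟩
      · rw [hA, H.res] at h5
        norm_num at h5
      · exact h5
    subst hv1
    rw [hA] at hloc
    obtain ⟨h13, hB⟩ := sel_case2 H hs1 hA1 hA2 ha₁ ha₃ hloc
    rcases hB with ⟨h5, h6⟩ | ⟨h5, h6⟩
    · right; left
      have h7 : a₃ = n := by rw [h6, one_mul] at h13; exact h13
      refine ⟨?_, ?_, ?_⟩
      · rw [e1, h5, h6]; norm_num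
      · rw [e2, h5, hA]; norm_num
      · rw [e3, h7]
    · right; right; right
      have h7 : a₃ = 1 := by
        rw [h6] at h13
        exact Nat.eq_of_mul_eq_mul_left (Nat.pos_of_ne_zero H.n0) (by rw [h13, mul_one])
      refine ⟨?_, ?_, ?_⟩
      · rw [e1, h5, h6]; ring
      · rw [e2, h5, hA]; ring
      · rw [e3, h7]; norm_num

end Vale.Agent.P014.H71
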