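import Vale.Agent.P014.H71.Sha2
import Vale.Agent.P014.H71.Sel2

/-!
# The Selmer condition for the twists of 17a2
-/

namespace Vale.Agent.P014.H71

open WeierstrassCurve

/-- the homogeneous form of the local condition -/
theorem exists_hom {K : Type} [Field K] [Algebra ℚ K] {n d₁ d₂ d₃ : ℤ} (h₁ : d₁ ≠ 0) (h₂ : d₂ ≠ 0)
    (h₃ : d₃ ≠ 0) (h : LocCond (5 * n / 4) n (-3 * n) d₁ d₂ d₃ K) :
    ∃ S₁ S₂ S₃ E : K, ¬ (S₁ = 0 ∧ S₂ = 0 ∧ S₃ = 0 ∧ E = 0) ∧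
      d₂ * S₂ ^ 2 - d₁ * S₁ ^ 2 = n * E ^ 2 ∧ d₃ * S₃ ^ 2 - d₁ * S₁ ^ 2 = 17 * n * E ^ 2 := by
  have := algebraRat.charZero K
  rcases h with ⟨t₁, t₂, t₃, ht₁, ht₂, ht₃⟩ | ⟨x, s₁, s₂, s₃, hs₁, hs₂, hs₃⟩
  · have k1 : (d₁ : K) ≠ 0 := Int.cast_ne_zero.mpr h₁
    have k2 : (d₂ : K) ≠ 0 := Int.cast_ne_zero.mpr h₂
    have k3 : (d₃ : K) ≠ 0 := Int.cast_ne_zero.mpr h₃
    have l1 : (d₁ : K) * (1 / t₁) ^ 2 = 1 := by rw [div_pow, ht₁]; field_simp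
    have l2 : (d₂ : K) * (1 / t₂) ^ 2 = 1 := by rw [div_pow, ht₂]; field_simp
    have l3 : (d₃ : K) * (1 / t₃) ^ 2 = 1 := by rw [div_pow, ht₃]; field_simp
    refine ⟨1 / t₁, 1 / t₂, 1 / t₃, 0, ?_, ?_, ?_⟩
    · rintro ⟨g1, -⟩
      rw [g1] at l1
      simp at l1
    · rw [l1, l2]; ring
    · rw [l1, l3]; ring
  · have e1 : algebraMap ℚ K (5 * n / 4) = 5 * n / 4 := by simp
    have e2 : algebraMap ℚ K (n : ℚ) = n := by simp
    have e3 : algebraMap ℚ K (-3 * n : ℚ) = -3 * n := by simp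
    rw [e1] at hs₁
    rw [e2] at hs₂
    rw [e3] at hs₃
    have h4 : (4 : K) ≠ 0 := by norm_num
    refine ⟨2 * s₁, 2 * s₂, 2 * s₃, 1, ?_, ?_, ?_⟩
    · rintro ⟨-, -, -, g⟩
      exact one_ne_zero g
    · have : (4 : K) * (5 * n / 4) = 5 * n := by field_simp
      linear_combination 4 * hs₁ - 4 * hs₂ - this
    · have : (4 : K) * (5 * n / 4) = 5 * n := by field_simp
      linear_combination 4 * hs₁ - 4 * hs₃ - this

theorem Sol.of_padic {n d₁ d₂ d₃ : ℤ} {p : ℕ} [Fact p.Prime] {k : ℕ} (hk : k ≠ 0)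
    {S₁ S₂ S₃ E : ℚ_[p]} (hne : ¬ (S₁ = 0 ∧ S₂ = 0 ∧ S₃ = 0 ∧ E = 0))
    (h1 : d₂ * S₂ ^ 2 - d₁ * S₁ ^ 2 = n * E ^ 2)
    (h2 : d₃ * S₃ ^ 2 - d₁ * S₁ ^ 2 = 17 * n * E ^ 2) : Sol n d₁ d₂ d₃ p k := by
  obtain ⟨i, -, hi⟩ := Finset.exists_max_image (Finset.univ : Finset (Fin 4))
    (fun i => ‖(![S₁, S₂, S₃, E] : Fin 4 → ℚ_[p]) i‖) Finset.univ_nonempty
  set f : Fin 4 → ℚ_[p] := ![S₁, S₂, S₃, E] with hf
  have hfi : f i ≠ 0 := by
    intro hc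
    apply hne
    have h3 : ∀ j, f j = 0 := by
      intro j
      have := hi j (Finset.mem_univ j)
      rw [hc, norm_zero] at this
      exact norm_le_zero_iff.mp this
    exact ⟨h3 0, h3 1, h3 2, h3 3⟩
  have hint : ∀ j, ‖f j / f i‖ ≤ 1 := by
    intro j
    rw [norm_div]
    exact div_le_one_of_le₀ (hi j (Finset.mem_univ j)) (norm_nonneg _)
  set g : Fin 4 → ℤ_[p] := fun j => ⟨f j / f i, hint j⟩ with hg
  have hgi : g i = 1 := by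
    apply Subtype.ext
    change f i / f i = 1
    exact div_self hfi
  have hgq : ∀ j, ((g j : ℤ_[p]) : ℚ_[p]) = f j / f i := fun j => rfl
  have e1 : (d₂ : ℤ_[p]) * g 1 ^ 2 - d₁ * g 0 ^ 2 - n * g 3 ^ 2 = 0 := by
    apply Subtype.ext
    push_cast
    rw [hgq, hgq, hgq]
    change (d₂ : ℚ_[p]) * (S₂ / f i) ^ 2 - d₁ * (S₁ / f i) ^ 2 - n * (E / f i) ^ 2 = 0
    field_simp
    linear_combination h1
  have e2 : (d₃ : ℤ_[p]) * g 2 ^ 2 - d₁ * g 0 ^ 2 - 17 * n * g 3 ^ 2 = 0 := by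
    apply Subtype.ext
    push_cast
    rw [hgq, hgq, hgq]
    change (d₃ : ℚ_[p]) * (S₃ / f i) ^ 2 - d₁ * (S₁ / f i) ^ 2 - 17 * n * (E / f i) ^ 2 = 0
    field_simp
    linear_combination h2
  have : NeZero (p ^ k) := ⟨pow_ne_zero _ (Fact.out : p.Prime).ne_zero⟩
  set φ : ℤ_[p] →+* ZMod (p ^ k) := PadicInt.toZModPow k with hφ
  set s : Fin 4 → ℤ := fun j => ((φ (g j)).val : ℤ) with hs
  have hsφ : ∀ j, ((s j : ℤ) : ZMod (p ^ k)) = φ (g j) := by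
    intro j
    rw [hs]
    simp
  have hdvd : ∀ {z : ℤ}, (z : ZMod (p ^ k)) = 0 → (p : ℤ) ^ k ∣ z := by
    intro z hz
    have := (ZMod.intCast_zmod_eq_zero_iff_dvd z (p ^ k)).mp hz
    exact_mod_cast this
  refine ⟨s 0, s 1, s 2, s 3, ?_, ?_, ?_⟩
  · rintro ⟨g0, g1, g2, g3⟩
    have h5 : (p : ℤ) ∣ s i := by
      fin_cases i
      · exact g0
      · exact g1
      · exact g2
      · exact g3
    have h6 : (p : ℤ) ^ k ∣ s i - 1 := by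
      apply hdvd
      push_cast
      rw [hsφ, hgi, map_one, sub_self]
    have h7 : (p : ℤ) ∣ s i - 1 := (dvd_pow_self _ hk).trans h6
    have h8 : (p : ℤ) ∣ 1 := by
      have := dvd_sub h5 h7
      simpa using this
    exact (Nat.prime_iff_prime_int.mp (Fact.out : p.Prime)).not_isUnit (isUnit_of_dvd_one h8)
  · apply hdvd
    push_cast
    rw [hsφ, hsφ, hsφ]
    have := congrArg φ e1
    simpa using this
  · apply hdvd
    push_cast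
    rw [hsφ, hsφ, hsφ]
    have := congrArg φ e2
    simp only [map_sub, map_mul, map_pow, map_intCast, map_zero, map_ofNat] at this
    exact this

theorem pos_of_real {n d₁ d₂ d₃ w : ℤ} (hn : 0 < n) (h₁ : d₁ ≠ 0) (h₂ : d₂ ≠ 0)
    (h₃ : d₃ ≠ 0) (hw : d₁ * d₂ * d₃ = w ^ 2) {S₁ S₂ S₃ E : ℝ}
    (hne : ¬ (S₁ = 0 ∧ S₂ = 0 ∧ S₃ = 0 ∧ E = 0))
    (h1 : d₂ * S₂ ^ 2 - d₁ * S₁ ^ 2 = n * E ^ 2)
    (h2 : d₃ * S₃ ^ 2 - d₁ * S₁ ^ 2 = 17 * n * E ^ 2) : 0 < d₃ := by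
  by_contra hc
  push Not at hc
  have hd3 : d₃ < 0 := lt_of_le_of_ne hc h₃
  have hnR : (0 : ℝ) < n := by exact_mod_cast hn
  have hd3R : (d₃ : ℝ) < 0 := by exact_mod_cast hd3
  have hw0 : 0 < w ^ 2 := by
    have : w ^ 2 ≠ 0 := by
      rw [← hw]; exact mul_ne_zero (mul_ne_zero h₁ h₂) h₃
    positivity
  have h12 : d₁ * d₂ < 0 := by
    by_contra hc2
    push Not at hc2
    have : d₁ * d₂ * d₃ ≤ 0 := mul_nonpos_of_nonneg_of_nonpos hc2 hd3.le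
    rw [hw] at this; linarith
  have hz : ∀ {a x : ℝ}, a ≠ 0 → a * x ^ 2 = 0 → x = 0 := by
    intro a x ha hx
    rcases mul_eq_zero.mp hx with h5 | h5
    · exact absurd h5 ha
    · exact pow_eq_zero_iff two_ne_zero |>.mp h5
  rcases lt_or_gt_of_ne h₁ with h5 | h5
  · -- d₁ < 0 < d₂
    have h6 : 0 < d₂ := by
      by_contra hc3
      push Not at hc3
      have := mul_nonneg_of_nonpos_of_nonpos h5.le hc3
      linarith
    have h1R : (d₁ : ℝ) < 0 := by exact_mod_cast h5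
    have h2R : (0 : ℝ) < d₂ := by exact_mod_cast h6
    have e3 : d₃ * S₃ ^ 2 - d₂ * S₂ ^ 2 = 16 * n * E ^ 2 := by linear_combination h2 - h1
    have p1 : d₃ * S₃ ^ 2 ≤ 0 := mul_nonpos_of_nonpos_of_nonneg hd3R.le (sq_nonneg _)
    have p2 : 0 ≤ d₂ * S₂ ^ 2 := mul_nonneg h2R.le (sq_nonneg _)
    have p3 : 0 ≤ 16 * n * E ^ 2 := by positivity
    have q1 : d₃ * S₃ ^ 2 = 0 := by linarith
    have q2 : d₂ * S₂ ^ 2 = 0 := by linarith
    have q3 : 16 * n * E ^ 2 = 0 := by linarith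
    have r3 := hz hd3R.ne q1
    have r2 := hz h2R.ne' q2
    have rE : E = 0 := hz (by positivity) q3
    rw [r2, rE] at h1
    have r1 : S₁ = 0 := hz h1R.ne (by linear_combination -h1)
    exact hne ⟨r1, r2, r3, rE⟩
  · have h1R : (0 : ℝ) < d₁ := by exact_mod_cast h5
    have h6 : d₂ < 0 := by
      by_contra hc3
      push Not at hc3
      have := mul_nonneg h5.le hc3
      linarith
    have h2R : (d₂ : ℝ) < 0 := by exact_mod_cast h6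
    have p1 : d₃ * S₃ ^ 2 ≤ 0 := mul_nonpos_of_nonpos_of_nonneg hd3R.le (sq_nonneg _)
    have p2 : 0 ≤ d₁ * S₁ ^ 2 := mul_nonneg h1R.le (sq_nonneg _)
    have p3 : 0 ≤ 17 * n * E ^ 2 := by positivity
    have q1 : d₃ * S₃ ^ 2 = 0 := by linarith
    have q2 : d₁ * S₁ ^ 2 = 0 := by linarith
    have q3 : 17 * n * E ^ 2 = 0 := by linarith
    have r3 := hz hd3R.ne q1
    have r1 := hz h1R.ne' q2
    have rE : E = 0 := hz (by positivity) q3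
    rw [r1, rE] at h1
    have r2 : S₂ = 0 := hz h2R.ne (by linear_combination h1)
    exact hne ⟨r1, r2, r3, rE⟩

theorem selTriv_tw {n q₀ : ℕ} (H : Hyp n q₀) : SelTriv (5 * (n : ℤ) / 4) (n : ℤ) (-3 * (n : ℤ)) := by
  intro d₁ d₂ d₃ h₁ h₂ h₃ ⟨w, hw⟩ hR hp
  have hn : (0 : ℤ) < n := by exact_mod_cast Nat.pos_of_ne_zero H.n0
  have hpos : 0 < d₃ := by
    obtain ⟨S₁, S₂, S₃, E, hne, e1, e2⟩ := exists_hom h₁.ne_zero h₂.ne_zero h₃.ne_zero hR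
    exact pos_of_real hn h₁.ne_zero h₂.ne_zero h₃.ne_zero hw hne e1 e2
  have hsol : ∀ p : ℕ, p.Prime → Sol n d₁ d₂ d₃ p 6 := by
    intro p hpp
    have := Fact.mk hpp
    obtain ⟨S₁, S₂, S₃, E, hne, e1, e2⟩ := exists_hom h₁.ne_zero h₂.ne_zero h₃.ne_zero (hp p)
    exact Sol.of_padic (by norm_num) hne e1 e2
  rcases selmer_trivial H h₁ h₂ h₃ hw hpos hsol with ⟨r1, r2, r3⟩ | ⟨r1, r2, r3⟩ |
    ⟨r1, r2, r3⟩ | ⟨r1, r2, r3⟩
  · exact Or.inl ⟨r1, r2, r3⟩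
  · refine Or.inr (Or.inl ⟨1 / 2, 1 / 2, ?_, ?_⟩)
    · rw [r2]; push_cast; ring
    · rw [r3]; push_cast; ring
  · refine Or.inr (Or.inr (Or.inl ⟨2, 1 / 2, ?_, ?_⟩))
    · rw [r3]; push_cast; ring
    · rw [r1]; push_cast; ring
  · refine Or.inr (Or.inr (Or.inr ⟨1 / 2, 2, ?_, ?_⟩))
    · rw [r1]; push_cast; ring
    · rw [r2]; push_cast; ring

/-- the 2-torsion of `tw k` -/
theorem tw_T3 {k : ℤ} {n : ℕ} (hn : n ≠ 0) (hk : 4 * k + 1 = -(n : ℤ)) :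
    T3 (tw k) (5 * (n : ℤ) / 4) (n : ℤ) (-3 * (n : ℤ)) := by
  have hkQ : (k : ℚ) = (-(n : ℚ) - 1) / 4 := by
    have : (4 * k + 1 : ℚ) = -(n : ℚ) := by exact_mod_cast hk
    linarith
  have hn' : (n : ℚ) ≠ 0 := by exact_mod_cast hn
  refine ⟨two_ne_zero, ?_, ?_, ?_, ?_, ?_, ?_⟩
  · simp only [tw, WeierstrassCurve.b₂, hkQ]; push_cast; ring
  · simp only [tw, WeierstrassCurve.b₄, hkQ]; push_cast; ring
  · simp only [tw, WeierstrassCurve.b₆, hkQ]; push_cast; ring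
  · intro hc; apply hn'; push_cast at hc; linarith
  · intro hc; apply hn'; push_cast at hc; linarith
  · intro hc; apply hn'; push_cast at hc; linarith

/-- `n` is squarefree, `3` modulo `4`, a non-residue modulo `17`, and the 2-Selmer group of
`y² = x (x + n) (x + 17 n)` is as small as possible -/
structure HypN (n : ℕ) : Prop where
  sqf : Squarefree n
  n4 : n % 4 = 3
  not17 : ¬ 17 ∣ n
  res : ∀ [Fact (Nat.Prime 17)], legendreSym 17 n = -1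
  sel : SelTriv (5 * (n : ℤ) / 4) (n : ℤ) (-3 * (n : ℤ))

theorem Hyp.toN {n q₀ : ℕ} (H : Hyp n q₀) : HypN n :=
  ⟨H.sqf, H.n4, H.not17, H.res, selTriv_tw H⟩

namespace HypN

variable {n : ℕ} (H : HypN n)

include H

theorem n0 : n ≠ 0 := H.sqf.ne_zero

theorem odd_of_dvd {q : ℕ} (hq : q ∣ n) : q % 2 = 1 := by
  by_contra hc
  have h2 : 2 ∣ q := by omega
  have := h2.trans hq
  have := H.n4
  omega

theorem not_dvd_16 {q : ℕ} (hq : q.Prime) (hqn : q ∣ n) : ¬ (q : ℤ) ∣ 16 := by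
  intro hc
  have h1 : q ∣ 16 := by exact_mod_cast hc
  have h2 : q ∣ 2 := hq.dvd_of_dvd_pow (show q ∣ 2 ^ 4 by norm_num; exact h1)
  have h3 := (Nat.prime_dvd_prime_iff_eq hq Nat.prime_two).mp h2
  have := H.odd_of_dvd hqn
  omega

/-- the cofactor -/
theorem not_dvd_cofactor {q m : ℕ} (hq : q.Prime) (h : n = q * m) : ¬ (q : ℤ) ∣ m := by
  intro hc
  have h1 : q ∣ m := by exact_mod_cast hc
  have : q * q ∣ n := by rw [h]; exact Nat.mul_dvd_mul_left q h1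
  exact hq.not_isUnit (H.sqf q this)

theorem not_dvd_17 {q : ℕ} (hq : q.Prime) (hqn : q ∣ n) : ¬ (q : ℤ) ∣ 17 := by
  intro hc
  have h1 : q ∣ 17 := by exact_mod_cast hc
  have h3 := (Nat.prime_dvd_prime_iff_eq hq (by norm_num : Nat.Prime 17)).mp h1
  exact H.not17 (h3 ▸ hqn)

end HypN

theorem sha_tw {n : ℕ} (H : HypN n) {k : ℤ} (hk : 4 * k + 1 = -(n : ℤ)) :
    Nat.card (shaPrimary (tw k) 2) = 1 :=
  sha_primary_trivial (tw_T3 H.n0 hk) H.sel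

end Vale.Agent.P014.H71
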