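import Vale.Agent.P014.H71.PSel2

/-!
# The 2-Selmer group of the twists by positive numbers, part 3: the converse
-/

namespace Vale.Agent.P014.H71

section odd

variable {p : ℕ} [hp : Fact p.Prime]

/-- primes dividing `V` -/
theorem locCond_badP {V : ℕ} (H : HypP V) {a₁ a₂ : ℕ} {d₃ w : ℤ} (ha₁ : a₁ ∣ V) (ha₂ : a₂ ∣ V)
    (hep : ep a₁ = 0) (h₃ : d₃ ≠ 0) (hw : (a₁ : ℤ) * a₂ * d₃ = w ^ 2) (hpn : p ∣ V)
    (h : LP V 0 0 a₁ a₂ p) :
    LocCond (5 * ((-(V : ℤ) : ℤ) : ℚ) / 4) ((-(V : ℤ) : ℤ) : ℚ) (-3 * ((-(V : ℤ) : ℤ) : ℚ))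
      a₁ a₂ d₃ ℚ_[p] := by
  have hpZ := Nat.prime_iff_prime_int.mp hp.out
  have hp2 := H.ne_two hpn
  have hn1 : (a₁ : ℤ) ≠ 0 := by exact_mod_cast (H.sqf.squarefree_of_dvd ha₁).ne_zero
  have hn2 : (a₂ : ℤ) ≠ 0 := by exact_mod_cast (H.sqf.squarefree_of_dvd ha₂).ne_zero
  have hu1 : ¬ (p : ℤ) ∣ 1 := fun hc => hpZ.not_isUnit (isUnit_of_dvd_one hc)
  have hum1 : ¬ (p : ℤ) ∣ -1 := fun hc => hu1 ((Int.dvd_neg).mp hc)
  have h17 := H.not_dvd_17 hp.out hpn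
  have hab : ∀ {a : ℕ}, a ∣ V → a * (V / a) = V := fun h => Nat.mul_div_cancel' h
  have habZ : ∀ {a : ℕ}, a ∣ V → (V : ℤ) = a * ((V / a : ℕ) : ℤ) := by
    intro a ha
    conv_lhs => rw [← hab ha]
    push_cast; ring
  have hcof : ∀ {a : ℕ}, a ∣ V → p ∣ a → ¬ (p : ℤ) ∣ ((V / a : ℕ) : ℤ) := by
    intro a ha hpa hc
    have h1 : p ∣ V / a := by exact_mod_cast hc
    have : p * p ∣ V := by rw [← hab ha]; exact Nat.mul_dvd_mul hpa h1
    exact hp.out.not_isUnit (H.sqf p this)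
  have hZ : ∀ {a : ℕ}, ¬ p ∣ a → ¬ (p : ℤ) ∣ (a : ℤ) := by
    intro a ha; rwa [Int.natCast_dvd_natCast]
  have two : ∀ z : ZMod 2, z + z = 0 := CharTwo.add_self_eq_zero
  obtain ⟨L1, L2⟩ := h
  rw [hep] at L1
  rw [H.ep_div ha₁, hep] at L1
  rw [H.ep_div ha₂] at L2
  have lm : lg p (-1) = eP p := lg_neg_one hp2
  have l17 : lg p 17 = sP p := lg_17 hp2
  have mulu : ∀ {x y : ℤ}, ¬ (p : ℤ) ∣ x → ¬ (p : ℤ) ∣ y → ¬ (p : ℤ) ∣ x * y :=
    fun hx hy hc => (hpZ.dvd_or_dvd hc).elim hx hy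
  by_cases c1 : p ∣ a₁ <;> by_cases c2 : p ∣ a₂
  · have i1 : ind a₁ p = 1 := if_pos c1
    have i2 : ind a₂ p = 1 := if_pos c2
    rw [if_pos c1, i2] at L1
    rw [if_pos c2, i1, i2] at L2
    have u1 := hcof ha₁ c1
    have u2 := hcof ha₂ c2
    refine locCond_odd hp2 hn1 hn2 h₃ hw (17 * V) a₁ (4 * a₂) 0
      (z₁ := 17 * (V / a₁ : ℕ)) (z₂ := (V / a₂ : ℕ)) (z₃ := 0) ?_ ?_ (by ring)
      (Or.inr ⟨?_, mulu h17 u1⟩) (Or.inr ⟨?_, u2⟩) (Or.inl rfl)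
    · rw [habZ ha₁]; ring
    · rw [habZ ha₂]; ring
    · rw [lg_mul h17 u1, l17]
      linear_combination L1 + two (sP p)
    · linear_combination L2 + two (eP p)
  · have i1 : ind a₁ p = 1 := if_pos c1
    have i2 : ind a₂ p = 0 := if_neg c2
    rw [if_pos c1, i2] at L1
    rw [if_neg c2, i1, i2] at L2
    have u1 := hcof ha₁ c1
    refine locCond_odd hp2 hn1 hn2 h₃ hw V a₁ 0 (4 * a₁)
      (z₁ := (V / a₁ : ℕ)) (z₂ := 0) (z₃ := (-1) * ((V / a₁ : ℕ) * a₂)) ?_ (by ring) ?_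
      (Or.inr ⟨?_, u1⟩) (Or.inl rfl) (Or.inr ⟨?_, mulu hum1 (mulu u1 (hZ c2))⟩)
    · rw [habZ ha₁]; ring
    · rw [habZ ha₁]; ring
    · linear_combination L1
    · rw [lg_mul hum1 (mulu u1 (hZ c2)), lg_mul u1 (hZ c2), lm]
      linear_combination L1 + L2 + two (eP p)
  · have i1 : ind a₁ p = 0 := if_neg c1
    have i2 : ind a₂ p = 1 := if_pos c2
    rw [if_neg c1, i2] at L1
    rw [if_pos c2, i1, i2] at L2
    have u2 := hcof ha₂ c2
    refine locCond_odd hp2 hn1 hn2 h₃ hw 0 0 a₂ a₂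
      (z₁ := 0) (z₂ := (-1) * (V / a₂ : ℕ)) (z₃ := (-1) * (17 * (a₁ * (V / a₂ : ℕ)))) (by ring)
      ?_ ?_ (Or.inl rfl) (Or.inr ⟨?_, mulu hum1 u2⟩)
      (Or.inr ⟨?_, mulu hum1 (mulu h17 (mulu (hZ c1) u2))⟩)
    · rw [habZ ha₂]; ring
    · rw [habZ ha₂]; ring
    · rw [lg_mul hum1 u2, lm]
      linear_combination L2 + two (eP p)
    · rw [lg_mul hum1 (mulu h17 (mulu (hZ c1) u2)), lg_mul h17 (mulu (hZ c1) u2),
        lg_mul (hZ c1) u2, l17, lm]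
      linear_combination L1 + L2 + two (sP p) + two (eP p)
  · have i1 : ind a₁ p = 0 := if_neg c1
    have i2 : ind a₂ p = 0 := if_neg c2
    rw [if_neg c1, i2] at L1
    rw [if_neg c2, i1, i2] at L2
    have k1 : lg p a₁ = 0 := by linear_combination L1
    have k2 : lg p a₂ = 0 := by linear_combination L2
    obtain ⟨t₁, f1⟩ := int_sq_of_legendre hp2 ((lg_eq_zero_iff (hZ c1)).mp k1)
    obtain ⟨t₂, f2⟩ := int_sq_of_legendre hp2 ((lg_eq_zero_iff (hZ c2)).mp k2)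
    exact locCond_of_sq hn1 hn2 hw f1 f2

/-- the prime 17 -/
theorem locCond_seventeenP {V : ℕ} [h17f : Fact (Nat.Prime 17)] (H : HypP V) {a₁ a₂ : ℕ}
    {d₃ w : ℤ} (ha₁ : a₁ ∣ V) (ha₂ : a₂ ∣ V)
    (h₃ : d₃ ≠ 0) (hw : (a₁ : ℤ) * a₂ * d₃ = w ^ 2) (h2 : legendreSym 17 a₂ = 1) :
    LocCond (5 * ((-(V : ℤ) : ℤ) : ℚ) / 4) ((-(V : ℤ) : ℤ) : ℚ) (-3 * ((-(V : ℤ) : ℤ) : ℚ))
      a₁ a₂ d₃ ℚ_[17] := by
  have hpZ := Nat.prime_iff_prime_int.mp h17f.out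
  have h172 : (17 : ℕ) ≠ 2 := by norm_num
  have hn1 : (a₁ : ℤ) ≠ 0 := by exact_mod_cast (H.sqf.squarefree_of_dvd ha₁).ne_zero
  have hn2 : (a₂ : ℤ) ≠ 0 := by exact_mod_cast (H.sqf.squarefree_of_dvd ha₂).ne_zero
  have hu : ∀ {a : ℕ}, a ∣ V → ¬ ((17 : ℕ) : ℤ) ∣ a := by
    intro a ha hc
    rw [Int.natCast_dvd_natCast] at hc
    exact H.not17 (hc.trans ha)
  rcases legendre_ne_zero (hu ha₁) with h1 | h1
  · obtain ⟨t₁, f1⟩ := int_sq_of_legendre h172 h1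
    obtain ⟨t₂, f2⟩ := int_sq_of_legendre h172 h2
    exact locCond_of_sq hn1 hn2 hw f1 f2
  · have hm3 : legendreSym 17 3 = -1 := by
      rw [jacobiSym.legendreSym.to_jacobiSym]; norm_num
    have hm2 : legendreSym 17 2 = 1 := by
      rw [jacobiSym.legendreSym.to_jacobiSym]; norm_num
    have hm14 : legendreSym 17 (-14) = -1 := by
      rw [jacobiSym.legendreSym.to_jacobiSym]; norm_num
    have un := hu (dvd_refl V)
    have u1 := hu ha₁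
    have u2 := hu ha₂
    have um : ¬ ((17 : ℕ) : ℤ) ∣ 3 := by norm_num
    have um2 : ¬ ((17 : ℕ) : ℤ) ∣ 2 := by norm_num
    have um14 : ¬ ((17 : ℕ) : ℤ) ∣ -14 := by norm_num
    have mulu : ∀ {x y : ℤ}, ¬ ((17 : ℕ) : ℤ) ∣ x → ¬ ((17 : ℕ) : ℤ) ∣ y →
      ¬ ((17 : ℕ) : ℤ) ∣ x * y := fun hx hy hc => (hpZ.dvd_or_dvd hc).elim hx hy
    refine locCond_odd h172 hn1 hn2 h₃ hw (3 * V) 1 1 1
      (z₁ := 3 * (V * a₁)) (z₂ := 2 * (V * a₂)) (z₃ := (-14) * (V * (a₁ * a₂))) (by ring)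
      (by ring) (by ring)
      (Or.inr ⟨lg_eq_zero ?_, mulu um (mulu un u1)⟩)
      (Or.inr ⟨lg_eq_zero ?_, mulu um2 (mulu un u2)⟩)
      (Or.inr ⟨lg_eq_zero ?_, mulu um14 (mulu un (mulu u1 u2))⟩)
    · rw [legendreSym.mul, legendreSym.mul, hm3, H.res, h1]; norm_num
    · rw [legendreSym.mul, legendreSym.mul, hm2, H.res, h2]; norm_num
    · rw [legendreSym.mul, legendreSym.mul, legendreSym.mul, h1, h2, H.res, hm14]; norm_num

end odd

theorem sum_eP_eraseP {V : ℕ} (hn : Squarefree V) (hn4 : V % 4 = 1) {p : ℕ}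
    (hp : p ∈ V.primeFactors) : ∑ q ∈ V.primeFactors.erase p, eP q = eP p := by
  have h1 := sum_eP_ind hn (by omega) (dvd_refl V)
  have h2 : ∑ q ∈ V.primeFactors, eP q * ind V q = ∑ q ∈ V.primeFactors, eP q := by
    refine Finset.sum_congr rfl fun q hq => ?_
    rw [ind, if_pos (Nat.dvd_of_mem_primeFactors hq), mul_one]
  rw [h2, ← Finset.add_sum_erase _ _ hp] at h1
  have h3 : ep V = 0 := by simp [ep, hn4]
  rw [h3] at h1
  exact (CharTwo.add_eq_zero.mp h1).symm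

/-- kernel vectors satisfy the local conditions -/
theorem LP_of_kernel {V : ℕ} (H : HypP V) {a₁ a₂ : ℕ} (ha₁ : a₁ ∣ V) (ha₂ : a₂ ∣ V)
    (h : (NP V).mulVec (Sum.elim (fun q => ind a₂ q) (fun q => ind a₁ q)) = 0) :
    ep a₁ = 0 ∧ (∑ q ∈ V.primeFactors, sP q * ind a₂ q = 0) ∧
      ∀ (p : ℕ) [Fact p.Prime], p ∣ V → LP V 0 0 a₁ a₂ p := by
  have two : ∀ z : ZMod 2, z + z = 0 := CharTwo.add_self_eq_zero
  have hn2 : V % 2 = 1 := by have := H.n4; omega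
  rw [NP_mulVec (fun q => ind a₁ q) (fun q => ind a₂ q)] at h
  have h1 : ∀ p ∈ V.primeFactors, sP p * ind a₂ p +
      ∑ q ∈ V.primeFactors.erase p, wP p q * (ind a₁ p + ind a₁ q) = 0 := by
    intro p hp
    exact congrFun h (Sum.inl ⟨p, hp⟩)
  have h2 : ∀ p ∈ V.primeFactors,
      ∑ q ∈ V.primeFactors.erase p, (wP p q * ind a₂ p + wP q p * ind a₂ q) +
        eP p * ind a₁ p = 0 := by
    intro p hp
    exact congrFun h (Sum.inr ⟨p, hp⟩)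
  have hep : ep a₁ = 0 := by
    rw [← sum_eP_ind H.sqf hn2 ha₁]
    have h3 : ∑ p ∈ V.primeFactors, eP p * ind a₁ p =
        ∑ p ∈ V.primeFactors, ∑ q ∈ V.primeFactors.erase p,
          (wP p q * ind a₂ p + wP q p * ind a₂ q) := by
      refine Finset.sum_congr rfl fun p hp => ?_
      exact (CharTwo.add_eq_zero.mp (h2 p hp)).symm
    rw [h3]
    simp only [Finset.sum_add_distrib]
    rw [sum_erase_swap V.primeFactors (fun p q => wP q p * ind a₂ q)]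
    exact two _
  refine ⟨hep, ?_, ?_⟩
  · have h3 : ∑ p ∈ V.primeFactors, sP p * ind a₂ p =
        ∑ p ∈ V.primeFactors, ∑ q ∈ V.primeFactors.erase p,
          (wP p q * ind a₁ p + wP p q * ind a₁ q) := by
      refine Finset.sum_congr rfl fun p hp => ?_
      rw [CharTwo.add_eq_zero.mp (h1 p hp)]
      refine Finset.sum_congr rfl fun q _ => ?_
      ring
    rw [h3]
    have h4 : ∑ p ∈ V.primeFactors, ∑ q ∈ V.primeFactors.erase p,
          (wP p q * ind a₁ p + wP p q * ind a₁ q) =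
        ∑ p ∈ V.primeFactors, ∑ q ∈ V.primeFactors.erase p,
          (wP p q * ind a₁ p + wP q p * ind a₁ p) := by
      simp only [Finset.sum_add_distrib]
      rw [sum_erase_swap V.primeFactors (fun p q => wP p q * ind a₁ q)]
    rw [h4, ← hep, ← sum_eP_ind H.sqf hn2 ha₁]
    refine Finset.sum_congr rfl fun p hp => ?_
    have h5 : ∑ q ∈ V.primeFactors.erase p, (wP p q * ind a₁ p + wP q p * ind a₁ p) =
        eP p * ind a₁ p * ∑ q ∈ V.primeFactors.erase p, eP q := by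
      rw [Finset.mul_sum]
      refine Finset.sum_congr rfl fun q hq => ?_
      rw [Finset.mem_erase] at hq
      rw [wP_recip hn2 hp hq.2 (Ne.symm hq.1)]
      linear_combination two (wP p q * ind a₁ p)
    rw [h5, sum_eP_eraseP H.sqf H.n4 hp]
    have h6 : eP p * eP p = eP p := by
      unfold eP; split_ifs <;> decide
    linear_combination ind a₁ p * h6
  · intro p hpf hpn
    have hp : p ∈ V.primeFactors := Nat.mem_primeFactors.mpr ⟨hpf.out, hpn, H.n0⟩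
    refine ⟨?_, ?_⟩
    · rw [← lap_ind H.sqf ha₁ hpn (H.ne_two hpn) hn2]
      rw [add_zero]
      exact (CharTwo.add_eq_zero.mp (h1 p hp)).symm
    · rw [← lap_ind H.sqf ha₂ hpn (H.ne_two hpn) hn2]
      have h3 := sum_erase_transposeP H.sqf H.n4 hp ha₂ 0
      simp only [add_zero] at h3
      have h4 := h2 p hp
      rw [h3] at h4
      linear_combination h4 - two (eP p * (ep a₂ + ind a₂ p)) - two (eP p * ind a₁ p)

theorem legendre_17_of_sumP {V a : ℕ} [Fact (Nat.Prime 17)] (H : HypP V) (ha : a ∣ V)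
    (h : ∑ q ∈ V.primeFactors, sP q * ind a q = 0) : legendreSym 17 a = 1 := by
  have hsa := H.sqf.squarefree_of_dvd ha
  have h17 : ¬ ((17 : ℕ) : ℤ) ∣ a := by
    intro hc
    rw [Int.natCast_dvd_natCast] at hc
    exact H.not17 (hc.trans ha)
  have h1 : ∑ q ∈ V.primeFactors, sP q * ind a q = ∑ q ∈ a.primeFactors, lg 17 q := by
    rw [← Finset.sum_subset (Nat.primeFactors_mono ha H.n0)]
    · refine Finset.sum_congr rfl fun q hq => ?_
      rw [ind, if_pos (Nat.dvd_of_mem_primeFactors hq), mul_one]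
      rfl
    · intro q hq hqa
      have : ¬ q ∣ a := by
        intro hc
        exact hqa (Nat.mem_primeFactors.mpr ⟨Nat.prime_of_mem_primeFactors hq, hc, hsa.ne_zero⟩)
      rw [ind, if_neg this, mul_zero]
  rw [h1, ← lg_prod] at h
  · have h2 : (∏ q ∈ a.primeFactors, (q : ℤ)) = a := by
      rw [← Nat.cast_prod, Nat.prod_primeFactors_of_squarefree hsa]
    rw [h2] at h
    exact (lg_eq_zero_iff h17).mp h
  · intro q hq hc
    rw [Int.natCast_dvd_natCast] at hc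
    exact H.not17 ((hc.trans (Nat.dvd_of_mem_primeFactors hq)).trans ha)

/-- all local conditions hold -/
theorem locCond_allP {V : ℕ} (H : HypP V) {a₁ a₂ a₃ w : ℕ} (ha₁ : a₁ ∣ V) (ha₂ : a₂ ∣ V)
    (ha₃ : a₃ ∣ V) (hw : a₁ * a₂ * a₃ = w ^ 2) (hep : ep a₁ = 0)
    (h17 : ∑ q ∈ V.primeFactors, sP q * ind a₂ q = 0)
    (hLP : ∀ (p : ℕ) [Fact p.Prime], p ∣ V → LP V 0 0 a₁ a₂ p) (p : ℕ) [hp : Fact p.Prime] :
    LocCond (5 * ((-(V : ℤ) : ℤ) : ℚ) / 4) ((-(V : ℤ) : ℤ) : ℚ) (-3 * ((-(V : ℤ) : ℤ) : ℚ))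
      a₁ a₂ a₃ ℚ_[p] := by
  have hwZ : (a₁ : ℤ) * a₂ * a₃ = (w : ℤ) ^ 2 := by exact_mod_cast hw
  have h3 : (a₃ : ℤ) ≠ 0 := by exact_mod_cast (H.sqf.squarefree_of_dvd ha₃).ne_zero
  by_cases hpn : p ∣ V
  · exact locCond_badP H ha₁ ha₂ hep h3 hwZ hpn (hLP p hpn)
  · by_cases h2 : p = 2
    · subst h2
      have o1 := H.odd_of_dvd ha₁
      have o2 := H.odd_of_dvd ha₂
      have h4 : ¬ a₁ % 4 = 3 := by
        intro hc
        rw [ep, if_pos hc] at hep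
        exact one_ne_zero hep
      have := H.n4
      exact locCond_two (by omega) (by omega) (by omega) h3 hwZ
    · by_cases h17p : p = 17
      · subst h17p
        exact locCond_seventeenP H ha₁ ha₂ h3 hwZ (legendre_17_of_sumP H ha₂ h17)
      · have hu : ∀ {a : ℕ}, a ∣ V → ¬ (p : ℤ) ∣ a := by
          intro a ha hc
          rw [Int.natCast_dvd_natCast] at hc
          exact hpn (hc.trans ha)
        refine locCond_good h2 hwZ (fun hc => hu dvd_rfl ((Int.dvd_neg).mp hc)) ?_ (hu ha₁)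
          (hu ha₂) (hu ha₃)
        intro hc
        have h1 : p ∣ 17 := by exact_mod_cast hc
        exact h17p ((Nat.prime_dvd_prime_iff_eq hp.out (by norm_num)).mp h1)

/-- **If the 2-Selmer group is minimal then `det N(V) = 1`.** -/
theorem det_of_selTrivP {V : ℕ} (HB : HypP V)
    (hsel : SelTriv (-5 * (V : ℤ) / 4) (-(V : ℤ)) (3 * (V : ℤ))) : (NP V).det ≠ 0 := by
  intro hdet
  have E1 : (-5 * ((V : ℤ) : ℚ) / 4) = 5 * ((-(V : ℤ) : ℤ) : ℚ) / 4 := by push_cast; ring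
  have E2 : (-((V : ℤ) : ℚ)) = ((-(V : ℤ) : ℤ) : ℚ) := by push_cast; ring
  have E3 : (3 * ((V : ℤ) : ℚ)) = -3 * ((-(V : ℤ) : ℤ) : ℚ) := by push_cast; ring
  obtain ⟨v, hv0, hv⟩ := Matrix.exists_mulVec_eq_zero_iff.mpr hdet
  obtain ⟨a₂, ha₂, hY⟩ := exists_ind (fun q => v (Sum.inl q))
  obtain ⟨a₁, ha₁, hX⟩ := exists_ind (fun q => v (Sum.inr q))
  have hv' : v = Sum.elim (fun q : V.primeFactors => ind a₂ q)
      (fun q : V.primeFactors => ind a₁ q) := by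
    funext i
    rcases i with q | q
    · exact (hY q).symm
    · exact (hX q).symm
  rw [hv'] at hv
  obtain ⟨hep, h17, hLP⟩ := LP_of_kernel HB ha₁ ha₂ hv
  have hs1 := HB.sqf.squarefree_of_dvd ha₁
  have hs2 := HB.sqf.squarefree_of_dvd ha₂
  -- the third number
  obtain ⟨g, b₁, b₂, hg, hb1, hb2, hco⟩ : ∃ g b₁ b₂ : ℕ, 0 < g ∧ a₁ = g * b₁ ∧ a₂ = g * b₂ ∧
      Nat.Coprime b₁ b₂ := by
    have hg : 0 < Nat.gcd a₁ a₂ := Nat.gcd_pos_of_pos_left _ (Nat.pos_of_ne_zero hs1.ne_zero)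
    refine ⟨Nat.gcd a₁ a₂, a₁ / Nat.gcd a₁ a₂, a₂ / Nat.gcd a₁ a₂, hg,
      (Nat.mul_div_cancel' (Nat.gcd_dvd_left _ _)).symm,
      (Nat.mul_div_cancel' (Nat.gcd_dvd_right _ _)).symm, Nat.coprime_div_gcd_div_gcd hg⟩
  have hd1 : b₁ ∣ V := (Dvd.intro_left g hb1.symm).trans ha₁
  have hd2 : b₂ ∣ V := (Dvd.intro_left g hb2.symm).trans ha₂
  have ha₃ : b₁ * b₂ ∣ V := Nat.Coprime.mul_dvd_of_dvd_of_dvd hco hd1 hd2
  have hw : a₁ * a₂ * (b₁ * b₂) = (g * b₁ * b₂) ^ 2 := by rw [hb1, hb2]; ring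
  have hs3 := HB.sqf.squarefree_of_dvd ha₃
  have hloc := fun (p : ℕ) (hp : Fact p.Prime) =>
    locCond_allP HB ha₁ ha₂ ha₃ hw hep h17 hLP p (hp := hp)
  have hwZ : (a₁ : ℤ) * a₂ * ((b₁ * b₂ : ℕ) : ℤ) = ((g * b₁ * b₂ : ℕ) : ℤ) ^ 2 := by
    exact_mod_cast hw
  have p1 : (0 : ℤ) < a₁ := by exact_mod_cast Nat.pos_of_ne_zero hs1.ne_zero
  have p2 : (0 : ℤ) < a₂ := by exact_mod_cast Nat.pos_of_ne_zero hs2.ne_zero
  have hn0 : (0 : ℚ) < V := by exact_mod_cast Nat.pos_of_ne_zero HB.n0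
  have p1Q : (0 : ℚ) < a₁ := by exact_mod_cast p1
  have p2Q : (0 : ℚ) < a₂ := by exact_mod_cast p2
  have p3Q : (0 : ℚ) < ((b₁ * b₂ : ℕ) : ℚ) := by exact_mod_cast Nat.pos_of_ne_zero hs3.ne_zero
  rcases hsel a₁ a₂ ((b₁ * b₂ : ℕ) : ℤ) (Int.squarefree_natCast.mpr hs1)
    (Int.squarefree_natCast.mpr hs2) (Int.squarefree_natCast.mpr hs3) ⟨_, hwZ⟩
    (locCond_real p1 p2 hwZ) (fun p hp => by rw [E1, E2, E3]; exact hloc p hp) with
    ⟨g1, g2, -⟩ | ⟨r₂, r₃, g2, -⟩ | ⟨r₃, r₁, g3, -⟩ | ⟨r₁, r₂, g1, -⟩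
  · -- trivial vector
    apply hv0
    have e1 : a₁ = 1 := by exact_mod_cast g1
    have e2 : a₂ = 1 := by exact_mod_cast g2
    rw [hv', e1, e2]
    have h1 : ∀ q : V.primeFactors, ind 1 q = 0 := by
      intro q
      rw [ind, if_neg]
      intro hc
      have := Nat.prime_of_mem_primeFactors q.2
      exact this.one_lt.ne' (Nat.dvd_one.mp hc)
    funext i
    rcases i with q | q
    · exact h1 q
    · exact h1 q
  · have h5 : (0 : ℚ) ≤ (a₂ : ℤ) * r₂ ^ 2 := by push_cast; positivity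
    rw [← g2] at h5
    push_cast at h5
    linarith
  · have h5 : (0 : ℚ) ≤ ((b₁ * b₂ : ℕ) : ℤ) * r₃ ^ 2 := by
      rw [Int.cast_natCast]; positivity
    rw [← g3] at h5
    push_cast at h5
    linarith
  · -- `17 V = 4 a₁ r₁²`
    have h5 : (2 * r₁ * (a₁ : ℚ)) ^ 2 = ((17 * V * a₁ : ℕ) : ℤ) := by
      push_cast at g1 ⊢
      linear_combination (-4 : ℚ) * a₁ * g1
    obtain ⟨m, hm⟩ := int_of_sq_int h5
    have h17p : Prime (17 : ℤ) := by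
      have := Nat.prime_iff_prime_int.mp (by norm_num : Nat.Prime 17)
      exact_mod_cast this
    have h6 : (17 : ℤ) ∣ m := by
      apply h17p.dvd_of_dvd_pow (n := 2)
      rw [← hm]
      exact ⟨((V * a₁ : ℕ) : ℤ), by push_cast; ring⟩
    obtain ⟨m', rfl⟩ := h6
    have h7 : ((V * a₁ : ℕ) : ℤ) = 17 * m' ^ 2 := by
      have : (17 : ℤ) * ((V * a₁ : ℕ) : ℤ) = 17 * (17 * m' ^ 2) := by
        push_cast at hm ⊢
        linear_combination hm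
      exact mul_left_cancel₀ (by norm_num) this
    have h8 : (17 : ℕ) ∣ V * a₁ := by
      have : (17 : ℤ) ∣ ((V * a₁ : ℕ) : ℤ) := ⟨m' ^ 2, h7⟩
      exact_mod_cast this
    rcases (by norm_num : Nat.Prime 17).dvd_mul.mp h8 with h9 | h9
    · exact HB.not17 h9
    · exact HB.not17 (h9.trans ha₁)

/-- **The 2-Selmer group is minimal if and only if `det N(V) = 1`.** -/
theorem selTrivP_iff {V : ℕ} (H : HypP V) :
    SelTriv (-5 * (V : ℤ) / 4) (-(V : ℤ)) (3 * (V : ℤ)) ↔ (NP V).det ≠ 0 :=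
  ⟨det_of_selTrivP H, selTrivP_of_det H⟩

end Vale.Agent.P014.H71
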