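import Vale.Agent.P014.H71.FinQ

/-!
# Minimality of the equation `tw k`
-/

namespace Vale.Agent.P014.H71

open WeierstrassCurve

theorem tw_Δ (k : ℤ) : (tw k).Δ = 17 ^ 2 * (4 * k + 1) ^ 6 := by
  simp only [tw, WeierstrassCurve.Δ, WeierstrassCurve.b₂, WeierstrassCurve.b₄,
    WeierstrassCurve.b₆, WeierstrassCurve.b₈]
  ring

theorem isIntegral_tw (k : ℤ) : (tw k).IsIntegral ℤ := by
  refine ⟨⟨1, -3 * k - 1, 1, -88 * k ^ 2 - 44 * k - 6, -240 * k ^ 3 - 180 * k ^ 2 - 45 * k - 4⟩, ?_⟩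
  ext <;> simp [tw, WeierstrassCurve.baseChange]

theorem not_pow_dvd {n : ℕ} (hn : Squarefree n) {p : ℕ} (hp : p.Prime) :
    ¬ p ^ 12 ∣ 17 ^ 2 * n ^ 6 := by
  intro hc
  have hn0 : n ≠ 0 := hn.ne_zero
  have h0 : 17 ^ 2 * n ^ 6 ≠ 0 := mul_ne_zero (by norm_num) (pow_ne_zero 6 hn0)
  have h1 := (hp.pow_dvd_iff_le_factorization h0).mp hc
  rw [Nat.factorization_mul (by norm_num) (pow_ne_zero 6 hn0), Nat.factorization_pow,
    Nat.factorization_pow] at h1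
  simp only [Finsupp.add_apply, Finsupp.smul_apply, smul_eq_mul] at h1
  have h2 := hn.natFactorization_le_one p
  have h3 : Squarefree 17 := (by norm_num : Nat.Prime 17).squarefree
  have h4 := h3.natFactorization_le_one p
  omega

theorem globalMinimal_tw {n : ℕ} (hn : Squarefree n) {k : ℤ} (hk : 4 * k + 1 = -(n : ℤ)) :
    GlobalMinimal (tw k) := by
  refine ⟨isIntegral_tw k, fun C hC => ?_⟩
  obtain ⟨m, hm⟩ := Δ_integral_of_isIntegral ℤ (C • tw k)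
  have hkQ : (4 * k + 1 : ℚ) = -(n : ℚ) := by exact_mod_cast hk
  have hΔ : (tw k).Δ = ((17 ^ 2 * n ^ 6 : ℕ) : ℚ) := by
    rw [tw_Δ, hkQ]; push_cast; ring
  have hN0 : 17 ^ 2 * n ^ 6 ≠ 0 := mul_ne_zero (by norm_num) (pow_ne_zero 6 hn.ne_zero)
  rw [variableChange_Δ] at hm ⊢
  set v : ℚ := ((C.u⁻¹ : ℚˣ) : ℚ) with hv
  have hv0 : v ≠ 0 := Units.ne_zero _
  rw [hΔ] at hm ⊢
  have hden : v.den = 1 := by
    by_contra hd
    obtain ⟨p, hp, hpd⟩ := Nat.exists_prime_and_dvd hd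
    apply not_pow_dvd hn hp
    have h1 : v.num ^ 12 * ((17 ^ 2 * n ^ 6 : ℕ) : ℤ) = v.den ^ 12 * m := by
      have h2 : (v.num : ℚ) ^ 12 * ((17 ^ 2 * n ^ 6 : ℕ) : ℚ) = v.den ^ 12 * m := by
        have h3 : (m : ℚ) = v ^ 12 * ((17 ^ 2 * n ^ 6 : ℕ) : ℚ) := by
          rw [← hm]; simp
        rw [h3]
        have h4 : (v.den : ℚ) * v = v.num := by rw [mul_comm]; exact Rat.mul_den_eq_num v
        rw [← h4]; ring
      exact_mod_cast h2
    have h5 : (v.den : ℤ) ^ 12 ∣ v.num ^ 12 * ((17 ^ 2 * n ^ 6 : ℕ) : ℤ) := ⟨m, h1⟩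
    have h6 : v.den ^ 12 ∣ v.num.natAbs ^ 12 * (17 ^ 2 * n ^ 6) := by
      have h7 := Int.natAbs_dvd_natAbs.mpr h5
      rw [Int.natAbs_mul, Int.natAbs_pow, Int.natAbs_pow, Int.natAbs_natCast,
        Int.natAbs_natCast] at h7
      exact h7
    have h8 : Nat.Coprime (v.den ^ 12) (v.num.natAbs ^ 12) :=
      Nat.Coprime.pow _ _ (Nat.Coprime.symm v.reduced)
    exact (pow_dvd_pow_of_dvd hpd 12).trans (h8.dvd_of_dvd_mul_left h6)
  have hv1 : 1 ≤ |v| := by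
    have h1 : v = v.num := by
      conv_lhs => rw [← Rat.num_div_den v, hden]
      simp
    have h2 : v.num ≠ 0 := by
      intro hc; exact hv0 (Rat.num_eq_zero.mp hc)
    have h3 : 1 ≤ |v.num| := Int.one_le_abs h2
    rw [h1]
    exact_mod_cast h3
  rw [abs_mul, abs_pow]
  exact le_mul_of_one_le_left (abs_nonneg _) (one_le_pow₀ hv1)

/-- `tw k` is an equation of `y² = x (x + n) (x + 17 n)` -/
theorem tw_iso_short {n : ℕ} {k : ℤ} (hk : 4 * k + 1 = -(n : ℤ)) :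
    ∃ C : VariableChange ℚ, C • tw k = short n := by
  have hkQ : (k : ℚ) = (-(n : ℚ) - 1) / 4 := by
    have : (4 * k + 1 : ℚ) = -(n : ℚ) := by exact_mod_cast hk
    linarith
  refine ⟨⟨Units.mk0 (1 / 2) (by norm_num), 5 * n / 4, -1 / 2, -(1 + 5 * n / 4) / 2⟩, ?_⟩
  ext
  · simp [variableChange_def, tw, short]; ring
  · simp [variableChange_def, tw, short, hkQ]; ring
  · simp [variableChange_def, tw, short]; ring
  · simp [variableChange_def, tw, short, hkQ]; ring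
  · simp [variableChange_def, tw, short, hkQ]; ring

end Vale.Agent.P014.H71
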