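import Vale.Agent.P014.H71.FinQ

/-!
# The order of the torsion subgroup
-/

namespace Vale.Agent.P014.H71

open WeierstrassCurve

theorem card_of_two {G : Type*} [AddCommGroup G] [Finite G] (S : Finset G)
    (hS : ∀ x, x ∈ S ↔ x + x = 0) (hS2 : ∀ x ∈ S, (∃ y, y + y = x) → x = 0) :
    ∃ m : ℕ, Odd m ∧ Nat.card G = S.card * m := by
  let f : G →+ G := nsmulAddMonoidHom 2
  have hf : ∀ x, f x = x + x := fun x => two_nsmul x
  refine ⟨Nat.card f.range, ?_, ?_⟩
  · rw [← Nat.not_even_iff_odd, even_iff_two_dvd]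
    intro hdvd
    have : Fact (Nat.Prime 2) := ⟨Nat.prime_two⟩
    obtain ⟨x, hx⟩ := exists_prime_addOrderOf_dvd_card' (G := f.range) 2 hdvd
    have h1 : 2 • x = 0 := by rw [← hx]; exact addOrderOf_nsmul_eq_zero x
    obtain ⟨⟨y, hy⟩⟩ : Nonempty {y : G // f y = x} := by
      obtain ⟨y, hy⟩ := x.2
      exact ⟨⟨y, hy⟩⟩
    have h2 : (x : G) + x = 0 := by
      have := congrArg Subtype.val h1
      rw [two_nsmul] at this
      exact this
    have h3 : (x : G) = 0 := hS2 x ((hS x).mpr h2) ⟨y, by rw [← hf, hy]⟩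
    have h4 : x = 0 := Subtype.ext h3
    rw [h4, addOrderOf_zero] at hx
    norm_num at hx
  · have h1 : Nat.card G = Nat.card f.ker * Nat.card f.range := by
      have h2 := AddSubgroup.card_eq_card_quotient_mul_card_addSubgroup f.ker
      rw [h2, mul_comm]
      congr 1
      exact Nat.card_congr (QuotientAddGroup.quotientKerEquivRange f).toEquiv
    rw [h1]
    congr 1
    have h3 : (f.ker : Set G) = (S : Set G) := by
      ext x
      rw [Finset.mem_coe, hS, SetLike.mem_coe, AddMonoidHom.mem_ker, hf]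
    have h4 : Nat.card f.ker = Nat.card (S : Set G) := by
      rw [← h3]; rfl
    rw [h4]
    simp

theorem not_sq_of_three_mod_four {n : ℕ} (h4 : n % 4 = 3) {r : ℚ} (h : r ^ 2 = n) : False := by
  obtain ⟨w, hw⟩ := int_of_sq_int (m := (n : ℤ)) (r := r) (by rw [h]; simp)
  rcases Int.emod_two_eq_zero_or_one w with h1 | h1
  · obtain ⟨t, ht, ht2⟩ := sq_even h1
    omega
  · obtain ⟨t, ht⟩ := sq_odd h1
    omega

theorem torsionOrder_tw {n : ℕ} (H : HypN n) {k : ℤ} (hk : 4 * k + 1 = -(n : ℤ)) :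
    ∃ m : ℕ, Odd m ∧ torsionOrder (tw k) = 4 * m := by
  have hfin := finite_tw H hk
  have hT := tw_T3 H.n0 hk
  have hn : (0 : ℚ) < n := by exact_mod_cast Nat.pos_of_ne_zero H.n0
  have hn' : (((n : ℕ) : ℤ) : ℚ) = n := by push_cast; rfl
  have htor : torsionOrder (tw k) = Nat.card (tw k).toAffine.Point := by
    unfold torsionOrder
    have : AddCommGroup.torsion (tw k).toAffine.Point = ⊤ := by
      ext x
      simp only [AddSubgroup.mem_top, iff_true]
      exact isOfFinAddOrder_of_finite x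
    rw [this]
    exact Nat.card_congr AddSubgroup.topEquiv.toEquiv
  classical
  let S : Finset (tw k).toAffine.Point := {0, hT.T, hT.rot.T, hT.rot.rot.T}
  have hcard : S.card = 4 := by
    have a1 := hT.T_ne_zero.symm
    have a2 := hT.rot.T_ne_zero.symm
    have a3 := hT.rot.rot.T_ne_zero.symm
    have b1 := hT.T1_ne_T2
    have b2 := hT.T1_ne_T3
    have b3 := hT.T2_ne_T3
    simp only [S]
    rw [Finset.card_insert_of_notMem, Finset.card_insert_of_notMem, Finset.card_insert_of_notMem,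
      Finset.card_singleton]
    · simpa using b3
    · simp only [Finset.mem_insert, Finset.mem_singleton, not_or]; exact ⟨b1, b2⟩
    · simp only [Finset.mem_insert, Finset.mem_singleton, not_or]; exact ⟨a1, a2, a3⟩
  have n1 : ¬ ∃ y, y + y = hT.T := by
    rintro ⟨y, hy⟩
    obtain ⟨r, hr⟩ := sq_of_isTwo hT.rot (x := 5 * ((n : ℕ) : ℤ) / 4) (η := 0)
      (by ring) hy
    rw [hn'] at hr
    exact not_sq_of_three_mod_four H.n4 (r := 2 * r) (by linear_combination 4 * hr)
  have n2 : ¬ ∃ y, y + y = hT.rot.T := by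
    rintro ⟨y, hy⟩
    obtain ⟨r, hr⟩ := sq_of_isTwo hT (x := ((n : ℕ) : ℤ)) (η := 0)
      (by ring) hy
    rw [hn'] at hr
    nlinarith [sq_nonneg r]
  have n3 : ¬ ∃ y, y + y = hT.rot.rot.T := by
    rintro ⟨y, hy⟩
    obtain ⟨r, hr⟩ := sq_of_isTwo hT (x := -3 * ((n : ℕ) : ℤ)) (η := 0)
      (by ring) hy
    rw [hn'] at hr
    nlinarith [sq_nonneg r]
  have h1 : ∀ x, x ∈ S ↔ x + x = 0 := by
    intro x
    simp only [S, Finset.mem_insert, Finset.mem_singleton]
    constructor
    · rintro (rfl | rfl | rfl | rfl)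
      · exact add_zero 0
      · exact hT.two_T
      · exact hT.rot.two_T
      · exact hT.rot.rot.two_T
    · exact hT.two_torsion
  obtain ⟨m, hm, hc⟩ := card_of_two S h1 (by
    intro x hx hy
    simp only [S, Finset.mem_insert, Finset.mem_singleton] at hx
    rcases hx with rfl | rfl | rfl | rfl
    · rfl
    · exact absurd hy n1
    · exact absurd hy n2
    · exact absurd hy n3)
  exact ⟨m, hm, by rw [htor, hc, hcard]⟩

end Vale.Agent.P014.H71
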