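import Vale.Agent.P014.H71.FinalB
import Vale.Agent.P014.H71.InpB2
import Vale.Agent.P014.H71.PSel3
import Vale.Agent.P014.H74.MainE2

/-!
# The two signs together
-/

namespace Vale.Agent.P014.H71

open Vale.Agent.P014.H74 (Dm Dp Inp)
open Vale.Agent.P014.H70 (Kn)
open scoped Classical

theorem hypP_of_Dp {V : ℕ} (hV : Dp V) : HypP V := by
  refine ⟨hV.2.1, hV.1, fun hc => H74.not17_of_Dp hV (by exact_mod_cast hc), ?_⟩
  intro _
  rw [jacobiSym.legendreSym.to_jacobiSym]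
  exact hV.2.2

/-- `D = 4 k + 1` is squarefree, different from `1`, and `(D / 17)` is the sign of `D` -/
def Fam (k : ℤ) : Prop :=
  Squarefree (4 * k + 1) ∧ k ≠ 0 ∧ jacobiSym (4 * k + 1) 17 = Int.sign (4 * k + 1)

/-- the two cases -/
theorem Fam.cases {k : ℤ} (h : Fam k) :
    (∃ n : ℕ, Dm n ∧ 4 * k + 1 = -(n : ℤ) ∧ (4 * k + 1).natAbs = n) ∨
      (∃ n : ℕ, Dp n ∧ n ≠ 1 ∧ 4 * k + 1 = (n : ℤ) ∧ (4 * k + 1).natAbs = n) := by
  obtain ⟨hsq, h0, hJ⟩ := h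
  have hn : Squarefree (4 * k + 1).natAbs := Int.squarefree_natAbs.mpr hsq
  rcases lt_trichotomy (4 * k + 1) 0 with h1 | h1 | h1
  · left
    refine ⟨(4 * k + 1).natAbs, ⟨by omega, hn, ?_⟩, by omega, rfl⟩
    rw [Int.sign_eq_neg_one_of_neg h1] at hJ
    have e : (((4 * k + 1).natAbs : ℕ) : ℤ) = -1 * (4 * k + 1) := by omega
    rw [e, jacobiSym.mul_left, hJ]
    norm_num
  · omega
  · right
    refine ⟨(4 * k + 1).natAbs, ⟨by omega, hn, ?_⟩, by omega, by omega, rfl⟩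
    rw [Int.sign_eq_one_of_pos h1] at hJ
    have e : (((4 * k + 1).natAbs : ℕ) : ℤ) = 4 * k + 1 := by omega
    rw [e, hJ]

theorem Fam.det_iff {k : ℤ} (h : Fam k) : (NP (4 * k + 1).natAbs).det ≠ 0 ↔
    (Finite (tw k).toAffine.Point ∧ ∀ s : Sha (tw k), s + s = 0 → s = 0) := by
  rcases h.cases with ⟨n, hn, hk, e⟩ | ⟨n, hn, hn1, hk, e⟩
  · rw [e]
    exact H71.det_iff (hypB_of_Dm hn) hk
  · rw [e, ← selTrivP_iff (hypP_of_Dp hn)]
    exact selTriv_iff (by exact_mod_cast hn.2.1.ne_zero) hk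

/-- **the main theorem for one curve** -/
theorem Fam.main {k : ℤ} (h : Fam k) :
    (∃ C : WeierstrassCurve.VariableChange ℚ,
      C • tw k = ⟨0, -18 * (4 * k + 1), 0, 17 * (4 * k + 1) ^ 2, 0⟩) ∧
    GlobalMinimal (tw k) ∧
    ∃ L : ℂ → ℂ, IsHasseWeil (tw k) L ∧
      (∃ p q : ℤ, Odd q ∧ ‖L 1‖ =
          ((p : ℝ) / q) ^ 2 * (realPeriod (tw k) * (tamagawaProduct (tw k) : ℝ) / 4 ^ 2) ∧
        (Odd p ↔ Finite (tw k).toAffine.Point ∧ ∀ s : Sha (tw k), s + s = 0 → s = 0)) ∧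
      (Finite (tw k).toAffine.Point → (∀ s : Sha (tw k), s + s = 0 → s = 0) →
        L 1 ≠ 0 ∧ Nat.card (shaPrimary (tw k) 2) = 1 ∧ PPartRankZero (tw k) L 2) := by
  refine ⟨?_, globalMinimal_tw' h.1 rfl, ?_⟩
  · obtain ⟨C, hC⟩ := tw_iso_short' (k := k) (m := 4 * k + 1) rfl
    refine ⟨C, ?_⟩
    rw [hC]
    push_cast
    rfl
  · rcases h.cases with ⟨n, hn, hk, e⟩ | ⟨n, hn, hn1, hk, e⟩
    · obtain ⟨L, hL, ⟨p, hp, hodd⟩, h⟩ := mainB inp hn hk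
      refine ⟨L, hL, ⟨p, 1, odd_one, ?_, hodd⟩, h⟩
      rw [hp]; push_cast; ring
    · exact mainE inp hn hn1 hk (selTrivP_iff (hypP_of_Dp hn)).symm

theorem Fam_infinite {t : ℕ} (ht : 1 ≤ t) :
    {k : ℤ | Fam k ∧ (4 * k + 1).natAbs.primeFactors.card = t ∧
      (Finite (tw k).toAffine.Point ∧ ∀ s : Sha (tw k), s + s = 0 → s = 0)}.Infinite := by
  have h := H582.families ht
  refine (h.image (f := fun n : ℕ => (-(n : ℤ) - 1) / 4) ?_).mono ?_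
  · rintro n ⟨-, hn, -⟩ m ⟨-, hm, -⟩ hnm
    simp only at hnm
    omega
  · rintro k ⟨n, ⟨a1, a2, a3, a4, a5, a6⟩, rfl⟩
    have hk : 4 * ((-(n : ℤ) - 1) / 4) + 1 = -(n : ℤ) := by omega
    have hJ : jacobiSym n 17 = -1 := by
      have hfact : Fact (Nat.Prime 17) := ⟨by norm_num⟩
      have h1 := ZMod.nonsquare_iff_jacobiSym_eq_neg_one (p := 17) (a := (n : ℤ))
      have h2 := h1.mpr (by simpa using a4)
      exact_mod_cast h2
    obtain ⟨q₀, H⟩ := H71.hyp_of (H70.qf n a1) a2 a3 a4 a6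
    refine ⟨⟨?_, ?_, ?_⟩, ?_, finite_tw H.toN hk, fun s hs => ?_⟩
    · rw [hk, ← Int.squarefree_natAbs, Int.natAbs_neg, Int.natAbs_natCast]
      exact a1
    · intro hc
      simp only at hc
      omega
    · simp only [hk]
      rw [neg_eq_neg_one_mul, jacobiSym.mul_left, hJ, Int.sign_mul, Int.sign_natCast_of_ne_zero
        a1.ne_zero]
      norm_num
    · simp only [hk]
      rw [Int.natAbs_neg, Int.natAbs_natCast]
      exact a5
    · exact sha_eq_zero (tw_T3 H.toN.n0 hk) H.toN.sel hs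


end Vale.Agent.P014.H71
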