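import Vale.Agent.P014.H71.Lg
import Vale.Agent.P014.H71.Sel2

/-!
# The Selmer conditions for a general `n`, in matrix form
-/

namespace Vale.Agent.P014.H71

/-- the basic hypotheses -/
structure HypB (n : ℕ) : Prop where
  sqf : Squarefree n
  n4 : n % 4 = 3
  not17 : ¬ 17 ∣ n
  res : ∀ [Fact (Nat.Prime 17)], legendreSym 17 n = -1

namespace HypB

variable {n : ℕ} (H : HypB n)

include H

theorem n0 : n ≠ 0 := H.sqf.ne_zero

theorem odd_of_dvd {q : ℕ} (hq : q ∣ n) : q % 2 = 1 := by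
  by_contra hc
  have h2 : 2 ∣ q := by omega
  have := h2.trans hq
  have := H.n4
  omega

theorem ne_two {q : ℕ} (hq : q ∣ n) : q ≠ 2 := by
  have := H.odd_of_dvd hq
  rintro rfl; omega

theorem not_dvd_16 {q : ℕ} (hq : q.Prime) (hqn : q ∣ n) : ¬ (q : ℤ) ∣ 16 := by
  intro hc
  have h1 : q ∣ 16 := by exact_mod_cast hc
  have h2 : q ∣ 2 := hq.dvd_of_dvd_pow (show q ∣ 2 ^ 4 by norm_num; exact h1)
  have h3 := (Nat.prime_dvd_prime_iff_eq hq Nat.prime_two).mp h2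
  have := H.odd_of_dvd hqn
  omega

/-- the cofactor -/
theorem not_dvd_cofactor {q m : ℕ} (hq : q.Prime) (h : n = q * m) : ¬ (q : ℤ) ∣ m := by
  intro hc
  have h1 : q ∣ m := by exact_mod_cast hc
  have : q * q ∣ n := by rw [h]; exact Nat.mul_dvd_mul_left q h1
  exact hq.not_isUnit (H.sqf q this)

theorem not_dvd_17 {q : ℕ} (hq : q.Prime) (hqn : q ∣ n) : ¬ (q : ℤ) ∣ 17 := by
  intro hc
  have h1 : q ∣ 17 := by exact_mod_cast hc
  have h3 := (Nat.prime_dvd_prime_iff_eq hq (by norm_num : Nat.Prime 17)).mp h1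
  exact H.not17 (h3 ▸ hqn)

theorem ep_n : ep n = 1 := by simp [ep, H.n4]

theorem ep_div {a : ℕ} (ha : a ∣ n) : ep (n / a) = 1 + ep a := by
  have h1 : a * (n / a) = n := Nat.mul_div_cancel' ha
  have h2 := ep_mul (H.odd_of_dvd ha) (H.odd_of_dvd (Nat.div_dvd_of_dvd ha))
  rw [h1, H.ep_n] at h2
  rw [h2, add_comm (ep a), add_assoc, CharTwo.add_self_eq_zero, add_zero]

end HypB

theorem lg_sq_rel {q : ℕ} [Fact q.Prime] {d x y w : ℤ} (h : d * (q * x) * (q * y) = w ^ 2)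
    (hd : ¬ (q : ℤ) ∣ d) (hx : ¬ (q : ℤ) ∣ x) (hy : ¬ (q : ℤ) ∣ y) :
    lg q d = lg q x + lg q y := by
  have hqZ := Nat.prime_iff_prime_int.mp (Fact.out : q.Prime)
  have hw : (q : ℤ) ∣ w := by
    apply hqZ.dvd_of_dvd_pow (n := 2)
    rw [← h]
    exact ⟨d * x * (q * y), by ring⟩
  obtain ⟨w', hw'⟩ := hw
  have h5 : d * (x * y) = w' ^ 2 := by
    apply mul_left_cancel₀ (pow_ne_zero 2 hqZ.ne_zero)
    have : (q : ℤ) ^ 2 * w' ^ 2 = w ^ 2 := by rw [hw']; ring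
    rw [this, ← h]; ring
  have hxy : ¬ (q : ℤ) ∣ x * y := fun hc => (hqZ.dvd_or_dvd hc).elim hx hy
  have hnw' : ¬ (q : ℤ) ∣ w' := by
    intro hc
    have h6 : (q : ℤ) ∣ d * (x * y) := by rw [h5]; exact dvd_pow hc two_ne_zero
    exact (hqZ.dvd_or_dvd h6).elim hd hxy
  have h6 : lg q (d * (x * y)) = 0 := by
    rw [h5]
    exact lg_eq_zero (legendreSym.sq_one' q (by rwa [Ne, ZMod.intCast_zmod_eq_zero_iff_dvd]))
  rw [lg_mul hd hxy, lg_mul hx hy] at h6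
  have h7 := CharTwo.add_eq_zero.mp h6
  exact h7

/-- the conditions at a prime `q ∣ n` -/
def LL (n : ℕ) (η : ZMod 2) (a₁ a₂ q : ℕ) : Prop :=
  (if q ∣ a₁ then lg q ((n / a₁ : ℕ) : ℤ) + ep (n / a₁) * eP q else lg q a₁ + ep a₁ * eP q) =
      sP q * (ind a₂ q + η) ∧
    (if q ∣ a₂ then lg q ((n / a₂ : ℕ) : ℤ) + ep (n / a₂) * eP q else lg q a₂ + ep a₂ * eP q) =
      eP q * (ind a₁ q + ind a₂ q + ep a₁ + ep a₂)

theorem local_LL {n : ℕ} (H : HypB n) {s v w : ℤ} {η : ZMod 2}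
    {a₁ a₂ a₃ : ℕ} (hs : (s = 1 ∧ ep a₁ = 0) ∨ (s = -1 ∧ ep a₁ = 1))
    (hv : (v = 1 ∧ η = 0) ∨ (v = 17 ∧ η = 1)) (ha₁ : a₁ ∣ n) (ha₂ : a₂ ∣ n)
    (h₁ : Squarefree (s * v * a₁)) (h₂ : Squarefree (s * a₂)) (h₃ : Squarefree (v * a₃))
    (h : (s * v * a₁) * (s * a₂) * (v * a₃) = w ^ 2) {q : ℕ} [Fact q.Prime] (hqn : q ∣ n)
    (hSol : Sol n (s * v * a₁) (s * a₂) (v * a₃) q 2) : LL n η a₁ a₂ q := by
  have hq : q.Prime := Fact.out
  have hqZ : Prime (q : ℤ) := Nat.prime_iff_prime_int.mp hq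
  obtain ⟨m, hm⟩ := hqn
  have hqn : q ∣ n := ⟨m, hm⟩
  have hq2 := H.ne_two hqn
  have hmq := H.not_dvd_cofactor hq hm
  have hmZ : (n : ℤ) = q * m := by exact_mod_cast hm
  have h17 := H.not_dvd_17 hq hqn
  have hu1 : ¬ (q : ℤ) ∣ 1 := fun hc => hqZ.not_isUnit (isUnit_of_dvd_one hc)
  have hum1 : ¬ (q : ℤ) ∣ -1 := fun hc => hu1 ((Int.dvd_neg).mp hc)
  have hns : ¬ (q : ℤ) ∣ s := by
    rcases hs with ⟨rfl, -⟩ | ⟨rfl, -⟩
    · exact hu1
    · exact hum1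
  have hnv : ¬ (q : ℤ) ∣ v := by
    rcases hv with ⟨rfl, -⟩ | ⟨rfl, -⟩
    · exact hu1
    · exact h17
  have hnsv : ¬ (q : ℤ) ∣ s * v := fun hc => (hqZ.dvd_or_dvd hc).elim hns hnv
  have Ls : lg q s = ep a₁ * eP q := by
    rcases hs with ⟨rfl, h4⟩ | ⟨rfl, h4⟩
    · rw [h4, lg_one, zero_mul]
    · rw [h4, lg_neg_one hq2, one_mul]
  have Lv : lg q v = η * sP q := by
    rcases hv with ⟨rfl, h4⟩ | ⟨rfl, h4⟩
    · rw [h4, lg_one, zero_mul]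
    · rw [h4, lg_17 hq2, one_mul]
  have Lsv : lg q (s * v) = ep a₁ * eP q + η * sP q := by rw [lg_mul hns hnv, Ls, Lv]
  have L17 := lg_17 hq2
  have hcast : ∀ {a : ℕ} {t : ℤ}, ¬ (q : ℤ) ∣ t → ((q : ℤ) ∣ t * a ↔ q ∣ a) := by
    intro a t ht
    rw [← Int.natCast_dvd_natCast]
    exact ⟨fun h6 => (hqZ.dvd_or_dvd h6).resolve_left ht, fun h6 => Dvd.dvd.mul_left h6 _⟩
  have hcof : ∀ {a : ℕ}, a ∣ n → q ∣ a → ∃ b : ℕ, a = q * b ∧ (m : ℤ) = b * (n / a : ℕ) ∧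
      ¬ (q : ℤ) ∣ b ∧ ¬ (q : ℤ) ∣ (n / a : ℕ) := by
    intro a ha ⟨b, hb⟩
    have h6 : a * (n / a) = n := Nat.mul_div_cancel' ha
    have h7 : m = b * (n / a) := by
      apply Nat.eq_of_mul_eq_mul_left hq.pos
      rw [← hm, ← mul_assoc, ← hb, h6]
    have h8 : (m : ℤ) = b * (n / a : ℕ) := by
      conv_lhs => rw [h7]
      push_cast; ring
    refine ⟨b, hb, h8, fun hc => hmq ?_, fun hc => hmq ?_⟩
    · rw [h8]; exact Dvd.dvd.mul_right hc _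
    · rw [h8]; exact Dvd.dvd.mul_left hc _
  have hnm : ¬ (q : ℤ) ∣ (-1) * m := fun hc => (hqZ.dvd_or_dvd hc).elim hum1 hmq
  have h17m : ¬ (q : ℤ) ∣ 17 * m := fun hc => (hqZ.dvd_or_dvd hc).elim h17 hmq
  have Lneg : lg q (-(m : ℤ)) = eP q + lg q m := by
    rw [neg_eq_neg_one_mul, lg_mul hum1 hmq, lg_neg_one hq2]
  have L17m : lg q (17 * (m : ℤ)) = sP q + lg q m := by rw [lg_mul h17 hmq, L17]
  have Lneg17 : lg q (-(17 * (m : ℤ))) = eP q + (sP q + lg q m) := by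
    rw [neg_eq_neg_one_mul, lg_mul hum1 h17m, lg_neg_one hq2, L17m]
  have two : ∀ z : ZMod 2, z + z = 0 := CharTwo.add_self_eq_zero
  rcases Sol.bad (H.not_dvd_16 hq hqn) h17 hmZ hmq h₁ h₂ h₃ h hSol with
    ⟨g1, g2, g3, L1, L2, L3⟩ | ⟨g1, x₂, x₃, e2, e3, g2, g3, L2, L3⟩ |
    ⟨g2, x₁, x₃, e1, e3, g1, g3, L1, L3⟩ | ⟨g3, x₁, x₂, e1, e2, g1, g2, L1, L2⟩
  · have g1' : ¬ q ∣ a₁ := by rwa [hcast hnsv] at g1
    have g2' : ¬ q ∣ a₂ := by rwa [hcast hns] at g2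
    have i1 : ind a₁ q = 0 := if_neg g1'
    have i2 : ind a₂ q = 0 := if_neg g2'
    have k1 := lg_eq_zero L1
    rw [lg_mul hnsv (by rwa [Int.natCast_dvd_natCast]), Lsv] at k1
    have k2 := lg_eq_zero L2
    rw [lg_mul hns (by rwa [Int.natCast_dvd_natCast]), Ls] at k2
    refine ⟨?_, ?_⟩
    · rw [if_neg g1', i2]
      linear_combination k1 - two (η * sP q)
    · rw [if_neg g2', i1, i2]
      linear_combination k2 - two (ep a₁ * eP q)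
  · have g1' : ¬ q ∣ a₁ := by rwa [hcast hnsv] at g1
    have g2' : q ∣ a₂ := (hcast hns).mp ⟨x₂, e2⟩
    obtain ⟨b₂, hb₂, hm₂, nb₂, nc₂⟩ := hcof ha₂ g2'
    have hx₂ : x₂ = s * b₂ := by
      apply mul_left_cancel₀ hqZ.ne_zero
      rw [← e2, hb₂]; push_cast; ring
    have i1 : ind a₁ q = 0 := if_neg g1'
    have i2 : ind a₂ q = 1 := if_pos g2'
    rw [e2, e3] at h
    have k1 := lg_sq_rel h g1 g2 g3
    rw [lg_congr L2, lg_congr L3, L17m, lg_mul hnsv (by rwa [Int.natCast_dvd_natCast]), Lsv] at k1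
    have k2 := lg_congr L2
    rw [hx₂, hm₂, lg_mul hns nb₂, lg_mul nb₂ nc₂, Ls] at k2
    refine ⟨?_, ?_⟩
    · rw [if_neg g1', i2]
      linear_combination k1 - two (η * sP q) + two (lg q m)
    · rw [if_pos g2', i1, i2, H.ep_div ha₂]
      linear_combination -k2
  · have g2' : ¬ q ∣ a₂ := by rwa [hcast hns] at g2
    have g1' : q ∣ a₁ := (hcast hnsv).mp ⟨x₁, e1⟩
    obtain ⟨b₁, hb₁, hm₁, nb₁, nc₁⟩ := hcof ha₁ g1'
    have hx₁ : x₁ = s * v * b₁ := by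
      apply mul_left_cancel₀ hqZ.ne_zero
      rw [← e1, hb₁]; push_cast; ring
    have i1 : ind a₁ q = 1 := if_pos g1'
    have i2 : ind a₂ q = 0 := if_neg g2'
    have h' : (s * a₂) * (q * x₁) * (q * x₃) = w ^ 2 := by rw [← h, ← e1, ← e3]; ring
    have k2 := lg_sq_rel h' g2 g1 g3
    rw [lg_congr L1, lg_congr L3, Lneg, lg_mul hns (by rwa [Int.natCast_dvd_natCast]), Ls] at k2
    have k1 := lg_congr L1
    rw [hx₁, Lneg, hm₁, lg_mul hnsv nb₁, lg_mul nb₁ nc₁, Lsv] at k1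
    refine ⟨?_, ?_⟩
    · rw [if_pos g1', i2, H.ep_div ha₁]
      linear_combination -k1 + two (ep a₁ * eP q)
    · rw [if_neg g2', i1, i2]
      linear_combination k2 - two (ep a₁ * eP q) + two (lg q m)
  · have g1' : q ∣ a₁ := (hcast hnsv).mp ⟨x₁, e1⟩
    have g2' : q ∣ a₂ := (hcast hns).mp ⟨x₂, e2⟩
    obtain ⟨b₁, hb₁, hm₁, nb₁, nc₁⟩ := hcof ha₁ g1'
    obtain ⟨b₂, hb₂, hm₂, nb₂, nc₂⟩ := hcof ha₂ g2'
    have hx₁ : x₁ = s * v * b₁ := by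
      apply mul_left_cancel₀ hqZ.ne_zero
      rw [← e1, hb₁]; push_cast; ring
    have hx₂ : x₂ = s * b₂ := by
      apply mul_left_cancel₀ hqZ.ne_zero
      rw [← e2, hb₂]; push_cast; ring
    have i1 : ind a₁ q = 1 := if_pos g1'
    have i2 : ind a₂ q = 1 := if_pos g2'
    have k1 := lg_congr L1
    rw [hx₁, Lneg17, hm₁, lg_mul hnsv nb₁, lg_mul nb₁ nc₁, Lsv] at k1
    have k2 := lg_congr L2
    rw [hx₂, Lneg, hm₂, lg_mul hns nb₂, lg_mul nb₂ nc₂, Ls] at k2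
    refine ⟨?_, ?_⟩
    · rw [if_pos g1', i2, H.ep_div ha₁]
      linear_combination -k1 + two (ep a₁ * eP q) - two (sP q)
    · rw [if_pos g2', i1, i2, H.ep_div ha₂]
      linear_combination -k2 - two (eP q)

theorem exists_LL {n : ℕ} (H : HypB n) {d₁ d₂ d₃ w : ℤ} (h₁ : Squarefree d₁)
    (h₂ : Squarefree d₂) (h₃ : Squarefree d₃) (h : d₁ * d₂ * d₃ = w ^ 2) (hpos : 0 < d₃)
    (hs : ∀ p : ℕ, p.Prime → Sol n d₁ d₂ d₃ p 6) :
    ∃ (s v : ℤ) (η : ZMod 2) (a₁ a₂ a₃ : ℕ), ((s = 1 ∧ ep a₁ = 0) ∨ (s = -1 ∧ ep a₁ = 1)) ∧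
      ((v = 1 ∧ η = 0) ∨ (v = 17 ∧ η = 1)) ∧
      d₁ = s * v * a₁ ∧ d₂ = s * a₂ ∧ d₃ = v * a₃ ∧ a₁ ∣ n ∧ a₂ ∣ n ∧ a₃ ∣ n ∧
      ∀ (q : ℕ) [Fact q.Prime], q ∣ n → LL n η a₁ a₂ q := by
  have h17f : Fact (Nat.Prime 17) := ⟨by norm_num⟩
  have hs2 : ∀ p : ℕ, p.Prime → Sol n d₁ d₂ d₃ p 2 := fun p hp => (hs p hp).mono (by norm_num)
  obtain ⟨t1, t2, t3⟩ := Sol.two (by have := H.n4; omega) h₁ h₂ h₃ h (hs 2 Nat.prime_two)
  have hn17 : ¬ (17 : ℤ) ∣ n := by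
    intro hc; exact H.not17 (by exact_mod_cast hc)
  obtain ⟨u2, u13, ures, unres⟩ := Sol.seventeen hn17 h₁ h₂ h₃ h (hs2 17 h17f.out)
  have hgood : ∀ p : ℕ, p.Prime → p ≠ 17 → ¬ p ∣ n →
      ¬ (p : ℤ) ∣ d₁ ∧ ¬ (p : ℤ) ∣ d₂ ∧ ¬ (p : ℤ) ∣ d₃ := by
    intro p hp hp17 hpn
    by_cases hp2 : p = 2
    · subst hp2
      refine ⟨?_, ?_, ?_⟩ <;> · push_cast; omega
    · refine Sol.good (n := n) hp ?_ ?_ ?_ h₁ h₂ h₃ h (hs2 p hp)
      · intro hc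
        have h1 : p ∣ 16 := by exact_mod_cast hc
        have h2 : p ∣ 2 := hp.dvd_of_dvd_pow (show p ∣ 2 ^ 4 by norm_num; exact h1)
        exact hp2 ((Nat.prime_dvd_prime_iff_eq hp Nat.prime_two).mp h2)
      · intro hc
        have h1 : p ∣ 17 := by exact_mod_cast hc
        exact hp17 ((Nat.prime_dvd_prime_iff_eq hp h17f.out).mp h1)
      · intro hc; exact hpn (by exact_mod_cast hc)
  have hP : ∀ p : ℕ, p.Prime → (p : ℤ) ∣ d₁ ∨ (p : ℤ) ∣ d₂ ∨ (p : ℤ) ∣ d₃ → p = 17 ∨ p ∣ n := by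
    intro p hp hd
    by_contra hc
    push Not at hc
    obtain ⟨g1, g2, g3⟩ := hgood p hp hc.1 hc.2
    tauto
  obtain ⟨a₁, ha₁, hsa₁, hA1, hA1'⟩ := exists_decomp H.n0 h₁
    (fun p hp hd => hP p hp (Or.inl hd))
  obtain ⟨a₂, ha₂, hsa₂, hA2, -⟩ := exists_decomp H.n0 h₂
    (fun p hp hd => hP p hp (Or.inr (Or.inl hd)))
  obtain ⟨a₃, ha₃, hsa₃, hA3, hA3'⟩ := exists_decomp H.n0 h₃
    (fun p hp hd => hP p hp (Or.inr (Or.inr hd)))
  have hw0 : 0 < w ^ 2 := by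
    have : w ^ 2 ≠ 0 := by
      rw [← h]; exact mul_ne_zero (mul_ne_zero h₁.ne_zero h₂.ne_zero) h₃.ne_zero
    positivity
  have h12 : 0 < d₁ * d₂ := by
    by_contra hc
    push Not at hc
    have : d₁ * d₂ * d₃ ≤ 0 := mul_nonpos_of_nonpos_of_nonneg hc hpos.le
    rw [h] at this; linarith
  obtain ⟨s, hs1, e1, e2⟩ : ∃ s : ℤ, (s = 1 ∨ s = -1) ∧ d₁ = s * d₁.natAbs ∧
      d₂ = s * d₂.natAbs := by
    rcases lt_trichotomy 0 d₁ with h4 | h4 | h4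
    · have h5 : 0 < d₂ := (mul_pos_iff_of_pos_left h4).mp h12
      exact ⟨1, Or.inl rfl, by omega, by omega⟩
    · rw [← h4] at h12; simp at h12
    · have h5 : d₂ < 0 := by
        by_contra hc
        push Not at hc
        have := mul_nonpos_of_nonpos_of_nonneg h4.le hc
        linarith
      exact ⟨-1, Or.inr rfl, by omega, by omega⟩
  obtain ⟨v, η, hv, e1', e3'⟩ : ∃ (v : ℤ) (η : ZMod 2), ((v = 1 ∧ η = 0) ∨ (v = 17 ∧ η = 1)) ∧
      d₁ = s * v * a₁ ∧ d₃ = v * a₃ := by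
    by_cases h4 : (17 : ℤ) ∣ d₁
    · refine ⟨17, 1, Or.inr ⟨rfl, rfl⟩, ?_, ?_⟩
      · rw [e1, hA1' h4]; push_cast; ring
      · have := hA3' (u13.mp h4)
        omega
    · refine ⟨1, 0, Or.inl ⟨rfl, rfl⟩, ?_, ?_⟩
      · rw [e1, hA1 h4]; ring
      · have := hA3 (fun hc => h4 (u13.mpr hc))
        omega
  have e2' : d₂ = s * a₂ := by rw [e2, hA2 u2]
  clear e1 e2
  have hsgA : (s = 1 ∧ ep a₁ = 0) ∨ (s = -1 ∧ ep a₁ = 1) := by
    have hd : d₁ % 4 = 1 := t1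
    rw [e1'] at hd
    rcases hs1 with hs5 | hs5
    · left
      refine ⟨hs5, ?_⟩
      have h6 : ¬ a₁ % 4 = 3 := by
        rcases hv with ⟨hv5, -⟩ | ⟨hv5, -⟩ <;> rw [hs5, hv5] at hd <;> omega
      simp [ep, h6]
    · right
      refine ⟨hs5, ?_⟩
      have h6 : a₁ % 4 = 3 := by
        rcases hv with ⟨hv5, -⟩ | ⟨hv5, -⟩ <;> rw [hs5, hv5] at hd <;> omega
      simp [ep, h6]
  have h₁' : Squarefree (s * v * a₁) := e1' ▸ h₁
  have h₂' : Squarefree (s * a₂) := e2' ▸ h₂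
  have h₃' : Squarefree (v * a₃) := e3' ▸ h₃
  have h' : (s * v * a₁) * (s * a₂) * (v * a₃) = w ^ 2 := by rw [← e1', ← e2', ← e3']; exact h
  refine ⟨s, v, η, a₁, a₂, a₃, hsgA, hv, e1', e2', e3', ha₁, ha₂, ha₃, ?_⟩
  intro q hqf hqn
  refine local_LL H hsgA hv ha₁ ha₂ h₁' h₂' h₃' h' hqn ?_
  rw [← e1', ← e2', ← e3']
  exact hs2 q hqf.out

/-! ### The kernel -/

theorem sum_eP_ind {n a : ℕ} (hn : Squarefree n) (hn2 : n % 2 = 1) (ha : a ∣ n) :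
    ∑ q ∈ n.primeFactors, eP q * ind a q = ep a := by
  have hsa := hn.squarefree_of_dvd ha
  have h1 : ∑ q ∈ n.primeFactors, eP q * ind a q = ∑ q ∈ a.primeFactors, eP q := by
    rw [← Finset.sum_subset (Nat.primeFactors_mono ha hn.ne_zero)]
    · refine Finset.sum_congr rfl fun q hq => ?_
      rw [ind, if_pos (Nat.dvd_of_mem_primeFactors hq), mul_one]
    · intro q hq hqa
      have : ¬ q ∣ a := by
        intro hc
        exact hqa (Nat.mem_primeFactors.mpr ⟨Nat.prime_of_mem_primeFactors hq, hc, hsa.ne_zero⟩)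
      rw [ind, if_neg this, mul_zero]
  rw [h1]
  have h2 : ∀ S : Finset ℕ, (∀ q ∈ S, q % 2 = 1) →
      (∏ q ∈ S, q) % 2 = 1 ∧ ∑ q ∈ S, eP q = ep (∏ q ∈ S, q) := by
    intro S hS
    induction S using Finset.induction_on with
    | empty => simp [ep]
    | insert i S hi ih =>
      obtain ⟨h3, h4⟩ := ih fun q hq => hS q (Finset.mem_insert_of_mem hq)
      have h5 := hS i (Finset.mem_insert_self _ _)
      rw [Finset.prod_insert hi, Finset.sum_insert hi, h4]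
      refine ⟨by rw [Nat.mul_mod, h5, h3], ?_⟩
      rw [ep_mul h5 h3, ep_eq]
  have h3 := (h2 a.primeFactors ?_).2
  · rw [h3, Nat.prod_primeFactors_of_squarefree hsa]
  · intro q hq
    by_contra hc
    have h4 : 2 ∣ q := by omega
    have := (h4.trans (Nat.dvd_of_mem_primeFactors hq)).trans ha
    omega

theorem wP_recip {n p q : ℕ} (hn2 : n % 2 = 1) (hp : p ∈ n.primeFactors)
    (hq : q ∈ n.primeFactors) (hne : p ≠ q) : wP q p = wP p q + eP p * eP q := by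
  have hpp := Nat.prime_of_mem_primeFactors hp
  have hqp := Nat.prime_of_mem_primeFactors hq
  have hpf : Fact p.Prime := ⟨hpp⟩
  have hqf : Fact q.Prime := ⟨hqp⟩
  have hodd : ∀ r ∈ n.primeFactors, r % 2 = 1 := by
    intro r hr
    by_contra hc
    have h4 : 2 ∣ r := by omega
    have := h4.trans (Nat.dvd_of_mem_primeFactors hr)
    omega
  have hp2 : p ≠ 2 := by have := hodd p hp; rintro rfl; omega
  have hq2 : q ≠ 2 := by have := hodd q hq; rintro rfl; omega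
  have hpq : ¬ (p : ℤ) ∣ q := by
    rw [Int.natCast_dvd_natCast]
    intro hc; exact hne ((Nat.prime_dvd_prime_iff_eq hpp hqp).mp hc)
  have hqp' : ¬ (q : ℤ) ∣ p := by
    rw [Int.natCast_dvd_natCast]
    intro hc; exact hne ((Nat.prime_dvd_prime_iff_eq hqp hpp).mp hc).symm
  have hw : ∀ {a b : ℕ} [Fact a.Prime] [Fact b.Prime], a ≠ 2 → ¬ (a : ℤ) ∣ b →
      wP a b = lg a b + eP b * eP a := by
    intro a b _ _ ha2 hab
    have haZ := Nat.prime_iff_prime_int.mp (Fact.out : a.Prime)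
    have hu : ¬ (a : ℤ) ∣ -1 := by
      intro hc
      exact haZ.not_isUnit (isUnit_of_dvd_one ((Int.dvd_neg).mp hc))
    by_cases h1 : b % 4 = 3
    · have h5 : eP b = 1 := by simp [eP, h1]
      rw [wP_eq, qstar, if_pos h1, neg_eq_neg_one_mul, lg_mul hu hab, lg_neg_one ha2, h5]
      ring
    · have h5 : eP b = 0 := by simp [eP, h1]
      rw [wP_eq, qstar, if_neg h1, h5]
      ring
  have hrec : lg q p = lg p q + eP p * eP q := by
    unfold lg eP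
    have h1 := jacobiSym.quadratic_reciprocity' (a := p) (b := q) (Nat.odd_iff.mpr (hodd p hp))
      (Nat.odd_iff.mpr (hodd q hq))
    have h2 := legendre_ne_zero hpq
    have h3 := legendre_ne_zero hqp'
    rw [jacobiSym.legendreSym.to_jacobiSym] at h2 h3
    have a1 := hodd p hp
    have a2 := hodd q hq
    have b1 : p % 4 = 1 ∨ p % 4 = 3 := by omega
    have b2 : q % 4 = 1 ∨ q % 4 = 3 := by omega
    rcases b1 with b1 | b1 <;> rcases b2 with b2 | b2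
    · rw [jacobiSym.quadratic_reciprocity_one_mod_four b1 (Nat.odd_iff.mpr a2)]
      simp [b1]
    · rw [jacobiSym.quadratic_reciprocity_one_mod_four b1 (Nat.odd_iff.mpr a2)]
      simp [b1]
    · rw [← jacobiSym.quadratic_reciprocity_one_mod_four b2 (Nat.odd_iff.mpr a1)]
      simp [b2]
    · rw [jacobiSym.quadratic_reciprocity_three_mod_four b1 b2]
      rcases h2 with h2 | h2 <;> rw [h2] <;> simp [b1, b2] <;> decide
  rw [hw hq2 hqp', hw hp2 hpq, hrec]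
  ring

end Vale.Agent.P014.H71
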