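import Vale.Agent.P014.H71.Tam17
import Vale.Agent.P014.H71.Sel3

/-!
# Tamagawa numbers of `tw k`
-/

namespace Vale.Agent.P014.H71

open WeierstrassCurve
open scoped Classical

theorem toZMod_eq_zero_iff {p : ℕ} [Fact p.Prime] (z : ℤ_[p]) :
    PadicInt.toZMod z = 0 ↔ ‖z‖ < 1 := by
  rw [← RingHom.mem_ker, PadicInt.ker_toZMod, PadicInt.maximalIdeal_eq_span_p,
    Ideal.mem_span_singleton, ← PadicInt.norm_lt_one_iff_dvd]

theorem tamagawa_good {k : ℤ} {p : ℕ} [hp : Fact p.Prime] (h : ¬ (p : ℤ) ∣ 17 * (4 * k + 1)) :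
    tamagawa (tw k) p = 1 := by
  unfold tamagawa
  rw [AddSubgroup.index_eq_one]
  have hall : {P : ((tw k)⁄ℚ_[p]).toAffine.Point | NonsingularReduction (tw k) p P} = Set.univ := by
    ext P
    simp only [Set.mem_univ, iff_true]
    rcases P with _ | ⟨x, y, hxy⟩
    · exact (nonsing_zero : NonsingularReduction (tw k) p 0)
    · have hP : NonsingularReduction (tw k) p (Affine.Point.some x y hxy) ↔ (1 < ‖x‖ ∨
          1 ≤ ‖((tw k).a₁ : ℚ_[p]) * y - (3 * x ^ 2 + 2 * ((tw k).a₂ : ℚ_[p]) * x +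
            ((tw k).a₄ : ℚ_[p]))‖ ∨
          1 ≤ ‖2 * y + ((tw k).a₁ : ℚ_[p]) * x + ((tw k).a₃ : ℚ_[p])‖) := Iff.rfl
      change NonsingularReduction (tw k) p (Affine.Point.some x y hxy)
      rw [hP]
      by_cases hx : 1 < ‖x‖
      · exact Or.inl hx
      right
      push Not at hx
      have heq := hxy.1
      rw [Affine.equation_iff] at heq
      have a1 : ((tw k)⁄ℚ_[p]).a₁ = 1 := by simp [WeierstrassCurve.baseChange, tw]
      have a2 : ((tw k)⁄ℚ_[p]).a₂ = ((-3 * k - 1 : ℤ) : ℚ_[p]) := by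
        simp [WeierstrassCurve.baseChange, tw]
      have a3 : ((tw k)⁄ℚ_[p]).a₃ = 1 := by simp [WeierstrassCurve.baseChange, tw]
      have a4 : ((tw k)⁄ℚ_[p]).a₄ = ((-88 * k ^ 2 - 44 * k - 6 : ℤ) : ℚ_[p]) := by
        simp [WeierstrassCurve.baseChange, tw]
      have a6 : ((tw k)⁄ℚ_[p]).a₆ = ((-240 * k ^ 3 - 180 * k ^ 2 - 45 * k - 4 : ℤ) : ℚ_[p]) := by
        simp [WeierstrassCurve.baseChange, tw]
      rw [a1, a2, a3, a4, a6] at heq
      have b1 : ((tw k).a₁ : ℚ_[p]) = 1 := by simp [tw]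
      have b2 : ((tw k).a₂ : ℚ_[p]) = ((-3 * k - 1 : ℤ) : ℚ_[p]) := by simp [tw]
      have b3 : ((tw k).a₃ : ℚ_[p]) = 1 := by simp [tw]
      have b4 : ((tw k).a₄ : ℚ_[p]) = ((-88 * k ^ 2 - 44 * k - 6 : ℤ) : ℚ_[p]) := by simp [tw]
      rw [b1, b2, b3, b4]
      have hy : ‖y‖ ≤ 1 := by
        by_contra hc
        push Not at hc
        have h1 : ‖x * y + y‖ ≤ ‖y‖ := by
          refine (Padic.nonarchimedean _ _).trans (max_le ?_ le_rfl)
          rw [norm_mul]
          exact mul_le_of_le_one_left (norm_nonneg _) hx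
        have h2 : ‖y ^ 2‖ ≤ ‖y‖ := by
          have e1 : y ^ 2 = (x ^ 3 + ((-3 * k - 1 : ℤ) : ℚ_[p]) * x ^ 2 +
            ((-88 * k ^ 2 - 44 * k - 6 : ℤ) : ℚ_[p]) * x +
            ((-240 * k ^ 3 - 180 * k ^ 2 - 45 * k - 4 : ℤ) : ℚ_[p])) + -(x * y + y) := by
            linear_combination heq
          rw [e1]
          refine (Padic.nonarchimedean _ _).trans (max_le ?_ (by rw [norm_neg]; exact h1))
          refine le_trans ?_ hc.le
          have hxp : ∀ m : ℕ, ‖x ^ m‖ ≤ 1 := fun m => by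
            rw [norm_pow]; exact pow_le_one₀ (norm_nonneg _) hx
          have hz : ∀ (z : ℤ) (m : ℕ), ‖(z : ℚ_[p]) * x ^ m‖ ≤ 1 := fun z m => by
            rw [norm_mul]
            exact mul_le_one₀ (Padic.norm_int_le_one z) (norm_nonneg _) (hxp m)
          refine (Padic.nonarchimedean _ _).trans (max_le ?_ (Padic.norm_int_le_one _))
          refine (Padic.nonarchimedean _ _).trans (max_le ?_ ?_)
          · exact (Padic.nonarchimedean _ _).trans (max_le (hxp 3) (hz _ 2))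
          · have := hz (-88 * k ^ 2 - 44 * k - 6) 1
            rwa [pow_one] at this
        rw [norm_pow] at h2
        nlinarith
      set X : ℤ_[p] := ⟨x, hx⟩ with hX
      set Y : ℤ_[p] := ⟨y, hy⟩ with hY
      have heqZ : Y ^ 2 + X * Y + Y = X ^ 3 + ((-3 * k - 1 : ℤ) : ℤ_[p]) * X ^ 2 +
          ((-88 * k ^ 2 - 44 * k - 6 : ℤ) : ℤ_[p]) * X +
          ((-240 * k ^ 3 - 180 * k ^ 2 - 45 * k - 4 : ℤ) : ℤ_[p]) := by
        apply Subtype.ext
        simp only [PadicInt.coe_add, PadicInt.coe_mul, PadicInt.coe_pow, PadicInt.coe_intCast]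
        linear_combination heq
      let Wb : WeierstrassCurve (ZMod p) := ⟨1, ((-3 * k - 1 : ℤ) : ZMod p), 1,
        ((-88 * k ^ 2 - 44 * k - 6 : ℤ) : ZMod p),
        ((-240 * k ^ 3 - 180 * k ^ 2 - 45 * k - 4 : ℤ) : ZMod p)⟩
      have hΔ : Wb.Δ ≠ 0 := by
        have e1 : Wb.Δ = ((17 ^ 2 * (4 * k + 1) ^ 6 : ℤ) : ZMod p) := by
          simp only [Wb, WeierstrassCurve.Δ, WeierstrassCurve.b₂, WeierstrassCurve.b₄,
            WeierstrassCurve.b₆, WeierstrassCurve.b₈]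
          push_cast
          ring
        rw [e1, Ne, ZMod.intCast_zmod_eq_zero_iff_dvd]
        intro hc
        have hpZ := Nat.prime_iff_prime_int.mp hp.out
        apply h
        rcases hpZ.dvd_or_dvd hc with h1 | h1
        · exact Dvd.dvd.mul_right (hpZ.dvd_of_dvd_pow h1) _
        · exact Dvd.dvd.mul_left (hpZ.dvd_of_dvd_pow h1) _
      have hEq : Wb.toAffine.Equation (PadicInt.toZMod X) (PadicInt.toZMod Y) := by
        rw [Affine.equation_iff]
        have := congrArg PadicInt.toZMod heqZ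
        simp only [map_add, map_mul, map_pow, map_intCast] at this
        simp only [Wb]
        linear_combination this
      have hns' := ((Affine.nonsingular_iff' _ _).mp
        ((Affine.equation_iff_nonsingular_of_Δ_ne_zero hΔ).mp hEq)).2
      rcases hns' with h1 | h1
      · left
        have h2 : PadicInt.toZMod (1 * Y - (3 * X ^ 2 + 2 * ((-3 * k - 1 : ℤ) : ℤ_[p]) * X +
          ((-88 * k ^ 2 - 44 * k - 6 : ℤ) : ℤ_[p]))) ≠ 0 := by
          simp only [map_add, map_sub, map_mul, map_pow, map_intCast, map_ofNat, map_one]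
          exact h1
        rw [Ne, toZMod_eq_zero_iff, not_lt, PadicInt.norm_def] at h2
        have h3 : (((2 : ℤ_[p])) : ℚ_[p]) = 2 := rfl
        have h4 : (((3 : ℤ_[p])) : ℚ_[p]) = 3 := rfl
        simp only [PadicInt.coe_add, PadicInt.coe_sub, PadicInt.coe_mul, PadicInt.coe_pow,
          PadicInt.coe_intCast, PadicInt.coe_one, h3, h4] at h2
        exact h2
      · right
        have h2 : PadicInt.toZMod (2 * Y + 1 * X + 1) ≠ 0 := by
          simp only [map_add, map_mul, map_ofNat, map_one]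
          exact h1
        rw [Ne, toZMod_eq_zero_iff, not_lt, PadicInt.norm_def] at h2
        have h3 : (((2 : ℤ_[p])) : ℚ_[p]) = 2 := rfl
        simp only [PadicInt.coe_add, PadicInt.coe_mul, PadicInt.coe_one, h3] at h2
        exact h2
  rw [hall]
  exact AddSubgroup.closure_univ

theorem norm_int_eq_inv {p : ℕ} [hp : Fact p.Prime] {m : ℤ} (hm : ¬ (p : ℤ) ∣ m) :
    ‖((p * m : ℤ) : ℚ_[p])‖ = (p : ℝ)⁻¹ := by
  push_cast
  rw [norm_mul, norm_int_unit hm, mul_one, Padic.norm_p]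

theorem algMap_eq {p : ℕ} [Fact p.Prime] (r : ℚ) : algebraMap ℚ ℚ_[p] r = (r : ℚ_[p]) :=
  eq_ratCast _ r

theorem addHyp_tw {n : ℕ} (H : HypB n) {q : ℕ} [hq : Fact q.Prime] (hqn : q ∣ n) :
    AddHyp (algebraMap ℚ ℚ_[q] (5 * (n : ℤ) / 4)) (algebraMap ℚ ℚ_[q] (n : ℤ))
      (algebraMap ℚ ℚ_[q] (-3 * (n : ℤ))) := by
  have hq2 : q ≠ 2 := by
    have := H.odd_of_dvd hqn
    rintro rfl; omega
  have h2 := padic_norm_two (p := q) hq2
  have h4 : ‖(4 : ℚ_[q])‖ = 1 := by
    have : (4 : ℚ_[q]) = 2 * 2 := by norm_num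
    rw [this, norm_mul, h2, mul_one]
  obtain ⟨m, hm⟩ := hqn
  have hqn : q ∣ n := ⟨m, hm⟩
  have hmq := H.not_dvd_cofactor hq.out hm
  have hn : ‖(n : ℚ_[q])‖ = (q : ℝ)⁻¹ := by
    have := norm_int_eq_inv hmq
    rw [hm]; push_cast at this ⊢; exact this
  have h17 : ‖(17 : ℚ_[q])‖ = 1 := by
    have := norm_int_unit (H.not_dvd_17 hq.out hqn)
    simpa using this
  have hlt : (q : ℝ)⁻¹ < 1 := by
    apply inv_lt_one_of_one_lt₀
    exact_mod_cast hq.out.one_lt
  have hint : ∀ z : ℤ, ‖(z : ℚ_[q])‖ ≤ 1 := fun z => Padic.norm_int_le_one z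
  have hinv : 0 ≤ (q : ℝ)⁻¹ := by positivity
  refine ⟨hq2, ?_, ?_, ?_, ?_, ?_, ?_⟩
  · rw [algMap_eq]; push_cast
    rw [norm_div, norm_mul, h4, hn, div_one]
    have := hint 5
    push_cast at this
    nlinarith
  · rw [algMap_eq]; push_cast
    rw [hn]; exact hlt
  · rw [algMap_eq]; push_cast
    rw [norm_mul, hn]
    have := hint (-3)
    push_cast at this
    nlinarith
  · rw [← map_sub, algMap_eq]
    have : ((5 * (n : ℤ) / 4 - (n : ℤ) : ℚ) : ℚ_[q]) = n / 4 := by push_cast; ring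
    rw [this, norm_div, h4, hn, div_one]
  · rw [← map_sub, algMap_eq]
    have : ((5 * (n : ℤ) / 4 - -3 * (n : ℤ) : ℚ) : ℚ_[q]) = 17 * n / 4 := by push_cast; ring
    rw [this, norm_div, norm_mul, h4, hn, h17, div_one, one_mul]
  · rw [← map_sub, algMap_eq]
    have : (((n : ℤ) - -3 * (n : ℤ) : ℚ) : ℚ_[q]) = 4 * n := by push_cast; ring
    rw [this, norm_mul, h4, hn, one_mul]

theorem mulHyp_tw {n : ℕ} (H : HypB n) [h17f : Fact (Nat.Prime 17)] :
    MulHyp (algebraMap ℚ ℚ_[17] (5 * (n : ℤ) / 4)) (algebraMap ℚ ℚ_[17] (n : ℤ))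
      (algebraMap ℚ ℚ_[17] (-3 * (n : ℤ))) := by
  have h2 := padic_norm_two (p := 17) (by norm_num)
  have h4 : ‖(4 : ℚ_[17])‖ = 1 := by
    have : (4 : ℚ_[17]) = 2 * 2 := by norm_num
    rw [this, norm_mul, h2, mul_one]
  have hnd : ¬ ((17 : ℕ) : ℤ) ∣ n := by
    intro hc; exact H.not17 (by exact_mod_cast hc)
  have hn : ‖(n : ℚ_[17])‖ = 1 := by
    have := norm_int_unit hnd
    simpa using this
  have h17 : ‖(17 : ℚ_[17])‖ = (17 : ℝ)⁻¹ := by
    have := Padic.norm_p (p := 17)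
    simpa using this
  have hint : ∀ z : ℤ, ‖(z : ℚ_[17])‖ ≤ 1 := fun z => Padic.norm_int_le_one z
  have hnsn : ∀ r : ℚ_[17], r ^ 2 ≠ n := by
    intro r hr
    have := legendre_of_sq hnd (x := r) (by rw [hr]; simp)
    rw [H.res] at this
    norm_num at this
  have hnsn' : ∀ r : ℚ_[17], r ^ 2 ≠ -n := by
    intro r hr
    have hnd' : ¬ ((17 : ℕ) : ℤ) ∣ -(n : ℤ) := by rwa [Int.dvd_neg]
    have := legendre_of_sq hnd' (x := r) (by rw [hr]; simp)
    rw [neg_eq_neg_one_mul, legendreSym.mul, H.res, legendreSym.at_neg_one (by norm_num)] at this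
    revert this
    decide
  have e12 : algebraMap ℚ ℚ_[17] (5 * (n : ℤ) / 4) - algebraMap ℚ ℚ_[17] (n : ℤ) = n / 4 := by
    rw [← map_sub, algMap_eq]; push_cast; ring
  have e13 : algebraMap ℚ ℚ_[17] (5 * (n : ℤ) / 4) - algebraMap ℚ ℚ_[17] (-3 * (n : ℤ)) =
      17 * n / 4 := by
    rw [← map_sub, algMap_eq]; push_cast; ring
  have e23 : algebraMap ℚ ℚ_[17] (n : ℤ) - algebraMap ℚ ℚ_[17] (-3 * (n : ℤ)) = 4 * n := by
    rw [← map_sub, algMap_eq]; push_cast; ring
  refine ⟨by norm_num, ?_, ?_, ?_, ?_, ?_, ?_, ?_, ?_, ?_, ?_⟩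
  · rw [algMap_eq]; push_cast
    rw [norm_div, norm_mul, h4, hn, div_one, mul_one]
    have := hint 5
    push_cast at this
    exact this
  · rw [algMap_eq]; push_cast
    exact hn.le
  · rw [algMap_eq]; push_cast
    rw [norm_mul, hn, mul_one]
    have := hint (-3)
    push_cast at this
    exact this
  · rw [e12, norm_div, h4, hn, div_one]
  · rw [e13, norm_div, norm_mul, h4, hn, h17]; norm_num
  · rw [e13, norm_div, norm_mul, h4, hn, h17]; norm_num
  · rw [e23, norm_mul, h4, hn, one_mul]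
  · rintro ⟨r, hr⟩
    rw [e12] at hr
    exact hnsn (2 * r) (by rw [mul_pow, hr]; ring)
  · rintro ⟨r, hr⟩
    have : algebraMap ℚ ℚ_[17] (n : ℤ) - algebraMap ℚ ℚ_[17] (5 * (n : ℤ) / 4) = -(n / 4) := by
      rw [← e12]; ring
    rw [this] at hr
    exact hnsn' (2 * r) (by rw [mul_pow, hr]; ring)
  · rintro ⟨r, hr⟩
    rw [e23] at hr
    exact hnsn (r / 2) (by rw [div_pow, hr]; ring)

theorem norm_a1 {p : ℕ} [Fact p.Prime] (k : ℤ) : ‖((tw k).a₁ : ℚ_[p])‖ ≤ 1 := by
  simp [tw]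

theorem tamagawaProduct_tw {n : ℕ} (H : HypB n) {k : ℤ} (hk : 4 * k + 1 = -(n : ℤ)) :
    tamagawaProduct (tw k) = 2 * 4 ^ n.primeFactors.card := by
  have hT := tw_T3 H.n0 hk
  let g : ℕ → ℕ := fun p => if p ∣ n then 4 else if p = 17 then 2 else 1
  have hg : ∀ p : Nat.Primes, (haveI : Fact (p : ℕ).Prime := ⟨p.2⟩; tamagawa (tw k) p) = g p := by
    intro p
    have hpf : Fact (p : ℕ).Prime := ⟨p.2⟩
    simp only [g]
    split_ifs with h1 h2
    · exact tamagawa_additive hT (addHyp_tw H h1) (norm_a1 k)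
    · obtain ⟨p, hp⟩ := p
      subst h2
      exact tamagawa_mul hT (mulHyp_tw H) (norm_a1 k)
    · apply tamagawa_good
      rw [hk]
      intro hc
      have hpZ := Nat.prime_iff_prime_int.mp p.2
      rcases hpZ.dvd_or_dvd hc with h3 | h3
      · have h4 : (p : ℕ) ∣ 17 := by exact_mod_cast h3
        exact h2 ((Nat.prime_dvd_prime_iff_eq p.2 (by norm_num)).mp h4)
      · rw [Int.dvd_neg] at h3
        exact h1 (by exact_mod_cast h3)
  unfold tamagawaProduct
  rw [finprod_congr hg]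
  let S : Finset Nat.Primes := Finset.subtype Nat.Prime (17 * n).primeFactors
  have hsub : Function.mulSupport (fun p : Nat.Primes => g p) ⊆ (S : Set Nat.Primes) := by
    intro p hp
    rw [Function.mem_mulSupport] at hp
    rw [Finset.mem_coe]
    apply Finset.mem_subtype.mpr
    rw [Nat.mem_primeFactors]
    refine ⟨p.2, ?_, mul_ne_zero (by norm_num) H.n0⟩
    simp only [g] at hp
    split_ifs at hp with h1 h2
    · exact Dvd.dvd.mul_left h1 17
    · exact Dvd.dvd.mul_right (by rw [h2]) n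
    · exact absurd rfl hp
  rw [finprod_eq_prod_of_mulSupport_subset _ hsub]
  have hS : ∏ p ∈ S, g p = ∏ p ∈ (17 * n).primeFactors, g p :=
    Finset.prod_subtype_of_mem (fun p => g p) (fun p hp => Nat.prime_of_mem_primeFactors hp)
  rw [hS]
  have hcop : Nat.Coprime 17 n := (Nat.Prime.coprime_iff_not_dvd (by norm_num)).mpr H.not17
  rw [Nat.Coprime.primeFactors_mul hcop, Finset.prod_union hcop.disjoint_primeFactors,
    Nat.Prime.primeFactors (by norm_num), Finset.prod_singleton]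
  have h1 : g 17 = 2 := by simp [g, H.not17]
  rw [h1]
  congr 1
  rw [Finset.prod_congr rfl (g := fun _ => 4) (fun p hp => by
    simp [g, Nat.dvd_of_mem_primeFactors hp])]
  rw [Finset.prod_const]

end Vale.Agent.P014.H71
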