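import Vale.Agent.P014.H71.LocSel
import Vale.Agent.P014.H71.TorsOrd
import Vale.Agent.P014.H71.TamTw
import Vale.Agent.P014.H71.Min
import Vale.Agent.P014.H71.Per

/-!
# From the value of the `L`-function to the 2-part of the formula
-/

namespace Vale.Agent.P014.H71

theorem exists_odd {t : ℕ} (ht : 1 ≤ t) {P : ℤ} {s : ℕ} (hs : Odd s)
    (hd : (2 : ℤ) ^ t ∣ P - 2 ^ (t - 1) * s) : ∃ w : ℤ, Odd w ∧ P = 2 ^ (t - 1) * w := by
  obtain ⟨c, hc⟩ := hd
  obtain ⟨r, rfl⟩ : ∃ r, t = r + 1 := ⟨t - 1, by omega⟩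
  rw [Nat.add_sub_cancel] at hc ⊢
  refine ⟨s + 2 * c, ?_, by rw [pow_succ] at hc; linear_combination hc⟩
  obtain ⟨j, hj⟩ := hs
  exact ⟨j + c, by rw [hj]; push_cast; ring⟩

theorem padicValRat_odd_sq {w : ℤ} (hw : Odd w) : padicValRat 2 ((w : ℚ) ^ 2) = 0 := by
  have h0 : (w : ℚ) ≠ 0 := by
    intro h
    have : w = 0 := by exact_mod_cast h
    rw [this] at hw
    simp at hw
  rw [padicValRat.pow, padicValRat.of_int]
  have : padicValInt 2 w = 0 := by
    apply padicValInt.eq_zero_of_not_dvd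
    intro h
    have : Even w := even_iff_two_dvd.mpr (by exact_mod_cast h)
    exact (Int.not_even_iff_odd.mpr hw) this
  rw [this]; simp

theorem ppart_of {n : ℕ} (H : HypN n) {k : ℤ} (hk : 4 * k + 1 = -(n : ℤ)) {L : ℂ → ℂ}
    {ε : ℝ} (hε : ε = 1 ∨ ε = -1) {P : ℤ}
    (hP : L 1 = ((ε * (omegaStar / 2 * (P : ℝ) ^ 2 / Real.sqrt n) : ℝ) : ℂ)) {s : ℕ}
    (hs : Odd s) (hd : (2 : ℤ) ^ n.primeFactors.card ∣ P - 2 ^ (n.primeFactors.card - 1) * s) :
    PPartRankZero (tw k) L 2 := by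
  have hn1 : 1 < n := by have := H.n4; omega
  have ht : 1 ≤ n.primeFactors.card := by
    have : 0 < n.primeFactors.card := by
      rw [Finset.card_pos, Nat.nonempty_primeFactors]; exact hn1
    exact this
  obtain ⟨w, hw, hPw⟩ := exists_odd ht hs hd
  obtain ⟨m, hm, htors⟩ := torsionOrder_tw H hk
  obtain ⟨e, he, heε⟩ : ∃ e : ℤ, e ^ 2 = 1 ∧ (e : ℝ) = ε := by
    rcases hε with h | h
    · exact ⟨1, by norm_num, by rw [h]; norm_num⟩
    · exact ⟨-1, by norm_num, by rw [h]; norm_num⟩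
  have hwm : Odd (w * m) := hw.mul (by exact_mod_cast hm)
  have hwm0 : ((w * m : ℤ) : ℚ) ≠ 0 := by
    intro h
    have : (w * m : ℤ) = 0 := by exact_mod_cast h
    rw [this] at hwm
    simp at hwm
  have he0 : (e : ℚ) ≠ 0 := by
    intro h
    have : e = 0 := by exact_mod_cast h
    rw [this] at he; norm_num at he
  refine ⟨e * ((w * m : ℤ) : ℚ) ^ 2, mul_ne_zero he0 (pow_ne_zero _ hwm0), ?_, ?_⟩
  · rw [padicValRat.mul he0 (pow_ne_zero _ hwm0), padicValRat_odd_sq hwm, add_zero]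
    have h1 : e = 1 ∨ e = -1 := by
      have h2 : (e - 1) * (e + 1) = 0 := by linear_combination he
      rcases mul_eq_zero.mp h2 with h3 | h3
      · left; omega
      · right; omega
    rcases h1 with h1 | h1
    · rw [h1]; simp
    · rw [h1]; simp [padicValRat.neg]
  · rw [hP, sha_tw H hk, tamagawaProduct_tw ⟨H.sqf, H.n4, H.not17, H.res⟩ hk, htors, realPeriod_tw H.n0 hk]
    have hsq : Real.sqrt (n : ℝ) ≠ 0 := by
      have : (0 : ℝ) < n := by exact_mod_cast (by omega : 0 < n)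
      exact (Real.sqrt_pos.mpr this).ne'
    have hm0 : (m : ℝ) ≠ 0 := by
      have : m ≠ 0 := by rintro rfl; simp at hm
      exact_mod_cast this
    rw [hPw, ← heε]
    obtain ⟨r, hr⟩ : ∃ r, n.primeFactors.card = r + 1 := ⟨n.primeFactors.card - 1, by omega⟩
    rw [hr, Nat.add_sub_cancel]
    have key : (e : ℝ) * (omegaStar / 2 * ((2 ^ r * w : ℤ) : ℝ) ^ 2 / Real.sqrt n) =
        ((e : ℝ) * ((w * m : ℤ) : ℝ) ^ 2) * (omegaStar / Real.sqrt n * ((1 : ℕ) : ℝ) *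
          ((2 * 4 ^ (r + 1) : ℕ) : ℝ) / ((4 * m : ℕ) : ℝ) ^ 2) := by
      have h4 : (4 : ℝ) ^ r = 2 ^ r * 2 ^ r := by
        rw [← mul_pow]; norm_num
      push_cast
      rw [pow_succ (4 : ℝ) r, h4]
      field_simp
      ring
    rw [key]
    push_cast
    ring

end Vale.Agent.P014.H71
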