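import Vale.Agent.P014.H71.Sel8

/-!
# The 2-Selmer group of the twists by positive numbers, part 1

`V` is squarefree, `1` modulo `4`, and a quadratic residue modulo `17`; the curve is
`y² = x (x - V) (x - 17 V)`.
-/

namespace Vale.Agent.P014.H71

/-- the basic hypotheses -/
structure HypP (V : ℕ) : Prop where
  sqf : Squarefree V
  n4 : V % 4 = 1
  not17 : ¬ 17 ∣ V
  res : ∀ [Fact (Nat.Prime 17)], legendreSym 17 V = 1

namespace HypP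

variable {V : ℕ} (H : HypP V)

include H

theorem n0 : V ≠ 0 := H.sqf.ne_zero

theorem odd_of_dvd {q : ℕ} (hq : q ∣ V) : q % 2 = 1 := by
  by_contra hc
  have h2 : 2 ∣ q := by omega
  have := h2.trans hq
  have := H.n4
  omega

theorem ne_two {q : ℕ} (hq : q ∣ V) : q ≠ 2 := by
  have := H.odd_of_dvd hq
  rintro rfl; omega

theorem not_dvd_16 {q : ℕ} (hq : q.Prime) (hqn : q ∣ V) : ¬ (q : ℤ) ∣ 16 := by
  intro hc
  have h1 : q ∣ 16 := by exact_mod_cast hc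
  have h2 : q ∣ 2 := hq.dvd_of_dvd_pow (show q ∣ 2 ^ 4 by norm_num; exact h1)
  have h3 := (Nat.prime_dvd_prime_iff_eq hq Nat.prime_two).mp h2
  have := H.odd_of_dvd hqn
  omega

theorem not_dvd_cofactor {q m : ℕ} (hq : q.Prime) (h : V = q * m) : ¬ (q : ℤ) ∣ m := by
  intro hc
  have h1 : q ∣ m := by exact_mod_cast hc
  have : q * q ∣ V := by rw [h]; exact Nat.mul_dvd_mul_left q h1
  exact hq.not_isUnit (H.sqf q this)

theorem not_dvd_17 {q : ℕ} (hq : q.Prime) (hqn : q ∣ V) : ¬ (q : ℤ) ∣ 17 := by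
  intro hc
  have h1 : q ∣ 17 := by exact_mod_cast hc
  have h3 := (Nat.prime_dvd_prime_iff_eq hq (by norm_num : Nat.Prime 17)).mp h1
  exact H.not17 (h3 ▸ hqn)

theorem ep_n : ep V = 0 := by simp [ep, H.n4]

theorem ep_div {a : ℕ} (ha : a ∣ V) : ep (V / a) = ep a := by
  have h1 : a * (V / a) = V := Nat.mul_div_cancel' ha
  have h2 := ep_mul (H.odd_of_dvd ha) (H.odd_of_dvd (Nat.div_dvd_of_dvd ha))
  rw [h1, H.ep_n] at h2
  exact (CharTwo.add_eq_zero.mp h2.symm).symm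

end HypP

/-- the conditions at a prime `q ∣ V` -/
def LP (V : ℕ) (σ η : ZMod 2) (a₁ a₂ q : ℕ) : Prop :=
  (if q ∣ a₁ then lg q ((V / a₁ : ℕ) : ℤ) + ep (V / a₁) * eP q else lg q a₁ + ep a₁ * eP q) =
      sP q * (ind a₂ q + η) ∧
    (if q ∣ a₂ then lg q ((V / a₂ : ℕ) : ℤ) + ep (V / a₂) * eP q else lg q a₂ + ep a₂ * eP q) =
      eP q * (ind a₁ q + ind a₂ q + σ + ep a₂)

theorem local_LP {V : ℕ} (H : HypP V) {s v w : ℤ} {σ η : ZMod 2}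
    {a₁ a₂ a₃ : ℕ} (hs : (s = 1 ∧ σ = 0) ∨ (s = -1 ∧ σ = 1)) (hep : ep a₁ = 0)
    (hv : (v = 1 ∧ η = 0) ∨ (v = 17 ∧ η = 1)) (ha₁ : a₁ ∣ V) (ha₂ : a₂ ∣ V)
    (h₁ : Squarefree (v * a₁)) (h₂ : Squarefree (s * a₂)) (h₃ : Squarefree (s * v * a₃))
    (h : (v * a₁) * (s * a₂) * (s * v * a₃) = w ^ 2) {q : ℕ} [Fact q.Prime] (hqn : q ∣ V)
    (hSol : Sol (-(V : ℤ)) (v * a₁) (s * a₂) (s * v * a₃) q 2) : LP V σ η a₁ a₂ q := by
  have hq : q.Prime := Fact.out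
  have hqZ : Prime (q : ℤ) := Nat.prime_iff_prime_int.mp hq
  obtain ⟨m, hm⟩ := hqn
  have hqn : q ∣ V := ⟨m, hm⟩
  have hq2 := H.ne_two hqn
  have hmq := H.not_dvd_cofactor hq hm
  have hmZ : -(V : ℤ) = q * (-(m : ℤ)) := by
    have : (V : ℤ) = q * m := by exact_mod_cast hm
    rw [this]; ring
  have hmq' : ¬ (q : ℤ) ∣ -(m : ℤ) := by rwa [Int.dvd_neg]
  have h17 := H.not_dvd_17 hq hqn
  have hu1 : ¬ (q : ℤ) ∣ 1 := fun hc => hqZ.not_isUnit (isUnit_of_dvd_one hc)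
  have hum1 : ¬ (q : ℤ) ∣ -1 := fun hc => hu1 ((Int.dvd_neg).mp hc)
  have hns : ¬ (q : ℤ) ∣ s := by
    rcases hs with ⟨rfl, -⟩ | ⟨rfl, -⟩
    · exact hu1
    · exact hum1
  have hnv : ¬ (q : ℤ) ∣ v := by
    rcases hv with ⟨rfl, -⟩ | ⟨rfl, -⟩
    · exact hu1
    · exact h17
  have Ls : lg q s = σ * eP q := by
    rcases hs with ⟨rfl, h4⟩ | ⟨rfl, h4⟩
    · rw [h4, lg_one, zero_mul]
    · rw [h4, lg_neg_one hq2, one_mul]
  have Lv : lg q v = η * sP q := by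
    rcases hv with ⟨rfl, h4⟩ | ⟨rfl, h4⟩
    · rw [h4, lg_one, zero_mul]
    · rw [h4, lg_17 hq2, one_mul]
  have L17 := lg_17 hq2
  have hcast : ∀ {a : ℕ} {t : ℤ}, ¬ (q : ℤ) ∣ t → ((q : ℤ) ∣ t * a ↔ q ∣ a) := by
    intro a t ht
    rw [← Int.natCast_dvd_natCast]
    exact ⟨fun h6 => (hqZ.dvd_or_dvd h6).resolve_left ht, fun h6 => Dvd.dvd.mul_left h6 _⟩
  have hcof : ∀ {a : ℕ}, a ∣ V → q ∣ a → ∃ b : ℕ, a = q * b ∧ (m : ℤ) = b * (V / a : ℕ) ∧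
      ¬ (q : ℤ) ∣ b ∧ ¬ (q : ℤ) ∣ (V / a : ℕ) := by
    intro a ha ⟨b, hb⟩
    have h6 : a * (V / a) = V := Nat.mul_div_cancel' ha
    have h7 : m = b * (V / a) := by
      apply Nat.eq_of_mul_eq_mul_left hq.pos
      rw [← hm, ← mul_assoc, ← hb, h6]
    have h8 : (m : ℤ) = b * (V / a : ℕ) := by
      conv_lhs => rw [h7]
      push_cast; ring
    refine ⟨b, hb, h8, fun hc => hmq ?_, fun hc => hmq ?_⟩
    · rw [h8]; exact Dvd.dvd.mul_right hc _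
    · rw [h8]; exact Dvd.dvd.mul_left hc _
  have h17m : ¬ (q : ℤ) ∣ 17 * m := fun hc => (hqZ.dvd_or_dvd hc).elim h17 hmq
  have Lneg : lg q (-(m : ℤ)) = eP q + lg q m := by
    rw [neg_eq_neg_one_mul, lg_mul hum1 hmq, lg_neg_one hq2]
  have L17m : lg q (17 * (m : ℤ)) = sP q + lg q m := by rw [lg_mul h17 hmq, L17]
  have Lneg17 : lg q (17 * -(m : ℤ)) = sP q + (eP q + lg q m) := by
    rw [lg_mul h17 hmq', L17, Lneg]
  have Lnn : -(-(m : ℤ)) = m := neg_neg _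
  have Lnn17 : -(17 * -(m : ℤ)) = 17 * m := by ring
  have two : ∀ z : ZMod 2, z + z = 0 := CharTwo.add_self_eq_zero
  rcases Sol.bad (H.not_dvd_16 hq hqn) h17 hmZ hmq' h₁ h₂ h₃ h hSol with
    ⟨g1, g2, g3, L1, L2, L3⟩ | ⟨g1, x₂, x₃, e2, e3, g2, g3, L2, L3⟩ |
    ⟨g2, x₁, x₃, e1, e3, g1, g3, L1, L3⟩ | ⟨g3, x₁, x₂, e1, e2, g1, g2, L1, L2⟩
  · have g1' : ¬ q ∣ a₁ := by rwa [hcast hnv] at g1
    have g2' : ¬ q ∣ a₂ := by rwa [hcast hns] at g2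
    have i1 : ind a₁ q = 0 := if_neg g1'
    have i2 : ind a₂ q = 0 := if_neg g2'
    have k1 := lg_eq_zero L1
    rw [lg_mul hnv (by rwa [Int.natCast_dvd_natCast]), Lv] at k1
    have k2 := lg_eq_zero L2
    rw [lg_mul hns (by rwa [Int.natCast_dvd_natCast]), Ls] at k2
    refine ⟨?_, ?_⟩
    · rw [if_neg g1', i2, hep]
      linear_combination k1 - two (η * sP q)
    · rw [if_neg g2', i1, i2]
      linear_combination k2 - two (σ * eP q)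
  · have g1' : ¬ q ∣ a₁ := by rwa [hcast hnv] at g1
    have g2' : q ∣ a₂ := (hcast hns).mp ⟨x₂, e2⟩
    obtain ⟨b₂, hb₂, hm₂, nb₂, nc₂⟩ := hcof ha₂ g2'
    have hx₂ : x₂ = s * b₂ := by
      apply mul_left_cancel₀ hqZ.ne_zero
      rw [← e2, hb₂]; push_cast; ring
    have i1 : ind a₁ q = 0 := if_neg g1'
    have i2 : ind a₂ q = 1 := if_pos g2'
    rw [e2, e3] at h
    have k1 := lg_sq_rel h g1 g2 g3
    rw [lg_congr L2, lg_congr L3, Lneg17, Lneg, lg_mul hnv (by rwa [Int.natCast_dvd_natCast]),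
      Lv] at k1
    have k2 := lg_congr L2
    rw [hx₂, Lneg, hm₂, lg_mul hns nb₂, lg_mul nb₂ nc₂, Ls] at k2
    refine ⟨?_, ?_⟩
    · rw [if_neg g1', i2, hep]
      linear_combination k1 - two (η * sP q) + two (lg q m) + two (eP q)
    · rw [if_pos g2', i1, i2, H.ep_div ha₂]
      linear_combination -k2 - two (eP q)
  · have g2' : ¬ q ∣ a₂ := by rwa [hcast hns] at g2
    have g1' : q ∣ a₁ := (hcast hnv).mp ⟨x₁, e1⟩
    obtain ⟨b₁, hb₁, hm₁, nb₁, nc₁⟩ := hcof ha₁ g1'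
    have hx₁ : x₁ = v * b₁ := by
      apply mul_left_cancel₀ hqZ.ne_zero
      rw [← e1, hb₁]; push_cast; ring
    have i1 : ind a₁ q = 1 := if_pos g1'
    have i2 : ind a₂ q = 0 := if_neg g2'
    have h' : (s * a₂) * (q * x₁) * (q * x₃) = w ^ 2 := by rw [← h, ← e1, ← e3]; ring
    have k2 := lg_sq_rel h' g2 g1 g3
    rw [lg_congr L1, lg_congr L3, Lnn, Lneg, lg_mul hns (by rwa [Int.natCast_dvd_natCast]),
      Ls] at k2
    have k1 := lg_congr L1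
    rw [hx₁, Lnn, hm₁, lg_mul hnv nb₁, lg_mul nb₁ nc₁, Lv] at k1
    refine ⟨?_, ?_⟩
    · rw [if_pos g1', i2, H.ep_div ha₁, hep]
      linear_combination -k1
    · rw [if_neg g2', i1, i2]
      linear_combination k2 - two (σ * eP q) + two (lg q m)
  · have g1' : q ∣ a₁ := (hcast hnv).mp ⟨x₁, e1⟩
    have g2' : q ∣ a₂ := (hcast hns).mp ⟨x₂, e2⟩
    obtain ⟨b₁, hb₁, hm₁, nb₁, nc₁⟩ := hcof ha₁ g1'
    obtain ⟨b₂, hb₂, hm₂, nb₂, nc₂⟩ := hcof ha₂ g2'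
    have hx₁ : x₁ = v * b₁ := by
      apply mul_left_cancel₀ hqZ.ne_zero
      rw [← e1, hb₁]; push_cast; ring
    have hx₂ : x₂ = s * b₂ := by
      apply mul_left_cancel₀ hqZ.ne_zero
      rw [← e2, hb₂]; push_cast; ring
    have i1 : ind a₁ q = 1 := if_pos g1'
    have i2 : ind a₂ q = 1 := if_pos g2'
    have k1 := lg_congr L1
    rw [hx₁, Lnn17, L17m, hm₁, lg_mul hnv nb₁, lg_mul nb₁ nc₁, Lv] at k1
    have k2 := lg_congr L2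
    rw [hx₂, Lnn, hm₂, lg_mul hns nb₂, lg_mul nb₂ nc₂, Ls] at k2
    refine ⟨?_, ?_⟩
    · rw [if_pos g1', i2, H.ep_div ha₁, hep]
      linear_combination -k1 - two (sP q)
    · rw [if_pos g2', i1, i2, H.ep_div ha₂]
      linear_combination -k2 - two (eP q)

theorem exists_LP {V : ℕ} (H : HypP V) {d₁ d₂ d₃ w : ℤ} (h₁ : Squarefree d₁)
    (h₂ : Squarefree d₂) (h₃ : Squarefree d₃) (h : d₁ * d₂ * d₃ = w ^ 2) (hpos : 0 < d₁)
    (hs : ∀ p : ℕ, p.Prime → Sol (-(V : ℤ)) d₁ d₂ d₃ p 6) :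
    ∃ (s v : ℤ) (σ η : ZMod 2) (a₁ a₂ a₃ : ℕ), ((s = 1 ∧ σ = 0) ∨ (s = -1 ∧ σ = 1)) ∧
      ep a₁ = 0 ∧ ((v = 1 ∧ η = 0) ∨ (v = 17 ∧ η = 1)) ∧
      d₁ = v * a₁ ∧ d₂ = s * a₂ ∧ d₃ = s * v * a₃ ∧ a₁ ∣ V ∧ a₂ ∣ V ∧ a₃ ∣ V ∧
      ∀ (q : ℕ) [Fact q.Prime], q ∣ V → LP V σ η a₁ a₂ q := by
  have h17f : Fact (Nat.Prime 17) := ⟨by norm_num⟩
  have hs2 : ∀ p : ℕ, p.Prime → Sol (-(V : ℤ)) d₁ d₂ d₃ p 2 := fun p hp =>
    (hs p hp).mono (by norm_num)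
  obtain ⟨t1, t2, t3⟩ := Sol.two (by have := H.n4; omega) h₁ h₂ h₃ h (hs 2 Nat.prime_two)
  have hn17 : ¬ (17 : ℤ) ∣ -(V : ℤ) := by
    intro hc; rw [Int.dvd_neg] at hc; exact H.not17 (by exact_mod_cast hc)
  obtain ⟨u2, u13, ures, unres⟩ := Sol.seventeen hn17 h₁ h₂ h₃ h (hs2 17 h17f.out)
  have hgood : ∀ p : ℕ, p.Prime → p ≠ 17 → ¬ p ∣ V →
      ¬ (p : ℤ) ∣ d₁ ∧ ¬ (p : ℤ) ∣ d₂ ∧ ¬ (p : ℤ) ∣ d₃ := by
    intro p hp hp17 hpn
    by_cases hp2 : p = 2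
    · subst hp2
      refine ⟨?_, ?_, ?_⟩ <;> · push_cast; omega
    · refine Sol.good (n := -(V : ℤ)) hp ?_ ?_ ?_ h₁ h₂ h₃ h (hs2 p hp)
      · intro hc
        have h1 : p ∣ 16 := by exact_mod_cast hc
        have h2 : p ∣ 2 := hp.dvd_of_dvd_pow (show p ∣ 2 ^ 4 by norm_num; exact h1)
        exact hp2 ((Nat.prime_dvd_prime_iff_eq hp Nat.prime_two).mp h2)
      · intro hc
        have h1 : p ∣ 17 := by exact_mod_cast hc
        exact hp17 ((Nat.prime_dvd_prime_iff_eq hp h17f.out).mp h1)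
      · intro hc; rw [Int.dvd_neg] at hc; exact hpn (by exact_mod_cast hc)
  have hP : ∀ p : ℕ, p.Prime → (p : ℤ) ∣ d₁ ∨ (p : ℤ) ∣ d₂ ∨ (p : ℤ) ∣ d₃ → p = 17 ∨ p ∣ V := by
    intro p hp hd
    by_contra hc
    push Not at hc
    obtain ⟨g1, g2, g3⟩ := hgood p hp hc.1 hc.2
    tauto
  obtain ⟨a₁, ha₁, hsa₁, hA1, hA1'⟩ := exists_decomp H.n0 h₁
    (fun p hp hd => hP p hp (Or.inl hd))
  obtain ⟨a₂, ha₂, hsa₂, hA2, -⟩ := exists_decomp H.n0 h₂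
    (fun p hp hd => hP p hp (Or.inr (Or.inl hd)))
  obtain ⟨a₃, ha₃, hsa₃, hA3, hA3'⟩ := exists_decomp H.n0 h₃
    (fun p hp hd => hP p hp (Or.inr (Or.inr hd)))
  have hw0 : 0 < w ^ 2 := by
    have : w ^ 2 ≠ 0 := by
      rw [← h]; exact mul_ne_zero (mul_ne_zero h₁.ne_zero h₂.ne_zero) h₃.ne_zero
    positivity
  have h23 : 0 < d₂ * d₃ := by
    by_contra hc
    push Not at hc
    have : d₁ * (d₂ * d₃) ≤ 0 := mul_nonpos_of_nonneg_of_nonpos hpos.le hc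
    rw [← mul_assoc, h] at this; linarith
  obtain ⟨s, σ, hsσ, e2, e3⟩ : ∃ (s : ℤ) (σ : ZMod 2), ((s = 1 ∧ σ = 0) ∨ (s = -1 ∧ σ = 1)) ∧
      d₂ = s * d₂.natAbs ∧ d₃ = s * d₃.natAbs := by
    rcases lt_trichotomy 0 d₂ with h4 | h4 | h4
    · have h5 : 0 < d₃ := (mul_pos_iff_of_pos_left h4).mp h23
      exact ⟨1, 0, Or.inl ⟨rfl, rfl⟩, by omega, by omega⟩
    · rw [← h4] at h23; simp at h23
    · have h5 : d₃ < 0 := by
        by_contra hc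
        push Not at hc
        have := mul_nonpos_of_nonpos_of_nonneg h4.le hc
        linarith
      exact ⟨-1, 1, Or.inr ⟨rfl, rfl⟩, by omega, by omega⟩
  obtain ⟨v, η, hv, e1', e3'⟩ : ∃ (v : ℤ) (η : ZMod 2), ((v = 1 ∧ η = 0) ∨ (v = 17 ∧ η = 1)) ∧
      d₁ = v * a₁ ∧ d₃ = s * v * a₃ := by
    by_cases h4 : (17 : ℤ) ∣ d₁
    · refine ⟨17, 1, Or.inr ⟨rfl, rfl⟩, ?_, ?_⟩
      · have := hA1' h4
        omega
      · rw [e3, hA3' (u13.mp h4)]; push_cast; ring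
    · refine ⟨1, 0, Or.inl ⟨rfl, rfl⟩, ?_, ?_⟩
      · have := hA1 h4
        omega
      · rw [e3, hA3 (fun hc => h4 (u13.mpr hc))]; ring
  have e2' : d₂ = s * a₂ := by rw [e2, hA2 u2]
  clear e2 e3
  have hep : ep a₁ = 0 := by
    have hd : d₁ % 4 = 1 := t1
    rw [e1'] at hd
    have h6 : ¬ a₁ % 4 = 3 := by
      rcases hv with ⟨hv5, -⟩ | ⟨hv5, -⟩ <;> rw [hv5] at hd <;> omega
    simp [ep, h6]
  have h₁' : Squarefree (v * a₁) := e1' ▸ h₁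
  have h₂' : Squarefree (s * a₂) := e2' ▸ h₂
  have h₃' : Squarefree (s * v * a₃) := e3' ▸ h₃
  have h' : (v * a₁) * (s * a₂) * (s * v * a₃) = w ^ 2 := by rw [← e1', ← e2', ← e3']; exact h
  refine ⟨s, v, σ, η, a₁, a₂, a₃, hsσ, hep, hv, e1', e2', e3', ha₁, ha₂, ha₃, ?_⟩
  intro q hqf hqn
  refine local_LP H hsσ hep hv ha₁ ha₂ h₁' h₂' h₃' h' hqn ?_
  rw [← e1', ← e2', ← e3']
  exact hs2 q hqf.out

end Vale.Agent.P014.H71
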