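import Vale.Agent.P014.H71.PSel1

/-!
# The 2-Selmer group of the twists by positive numbers, part 2: the determinant criterion
-/

namespace Vale.Agent.P014.H71

theorem sum_erase_transposeP {V : ℕ} (hn : Squarefree V) (hn4 : V % 4 = 1) {p : ℕ}
    (hp : p ∈ V.primeFactors) {a : ℕ} (ha : a ∣ V) (η : ZMod 2) :
    ∑ q ∈ V.primeFactors.erase p, (wP p q * (ind a p + η) + wP q p * (ind a q + η)) =
      ∑ q ∈ V.primeFactors.erase p, wP p q * (ind a p + ind a q) +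
        eP p * (ep a + ind a p + η) := by
  have two : ∀ z : ZMod 2, z + z = 0 := CharTwo.add_self_eq_zero
  have h1 : ∀ q ∈ V.primeFactors.erase p,
      wP p q * (ind a p + η) + wP q p * (ind a q + η) =
        wP p q * (ind a p + ind a q) + eP p * (eP q * (ind a q + η)) := by
    intro q hq
    rw [Finset.mem_erase] at hq
    rw [wP_recip (n := V) (by omega) hp hq.2 (Ne.symm hq.1)]
    linear_combination two (wP p q * η)
  rw [Finset.sum_congr rfl h1, Finset.sum_add_distrib, ← Finset.mul_sum]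
  congr 1
  have h2 : ∑ q ∈ V.primeFactors.erase p, eP q * (ind a q + η) =
      (ep a + η * ep V) + eP p * (ind a p + η) := by
    have h3 := Finset.add_sum_erase V.primeFactors (fun q => eP q * (ind a q + η)) hp
    have h4 : ∑ q ∈ V.primeFactors, eP q * (ind a q + η) = ep a + η * ep V := by
      rw [← sum_eP_ind hn (by omega) ha, ← sum_eP_ind hn (by omega) dvd_rfl, Finset.mul_sum,
        ← Finset.sum_add_distrib]
      refine Finset.sum_congr rfl fun q hq => ?_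
      have : ind V q = 1 := if_pos (Nat.dvd_of_mem_primeFactors hq)
      rw [this]; ring
    rw [h4] at h3
    linear_combination h3 - two (eP p * (ind a p + η))
  have h3 : ep V = 0 := by simp [ep, hn4]
  have h4 : eP p * eP p = eP p := by
    unfold eP; split_ifs <;> simp
  rw [h2, h3]
  linear_combination (ind a p + η) * h4

/-- the vector attached to a solution of the local conditions is in the kernel -/
theorem kernel_of_LP {V : ℕ} (H : HypP V) {σ η : ZMod 2} {a₁ a₂ : ℕ} (ha₁ : a₁ ∣ V) (ha₂ : a₂ ∣ V)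
    (h : ∀ (q : ℕ) [Fact q.Prime], q ∣ V → LP V σ η a₁ a₂ q) :
    (NP V).mulVec (Sum.elim (fun q => ind a₂ q + η) (fun q => ind a₁ q + (σ + η))) = 0 := by
  have two : ∀ z : ZMod 2, z + z = 0 := CharTwo.add_self_eq_zero
  have hn2 : V % 2 = 1 := by have := H.n4; omega
  rw [NP_mulVec (fun q => ind a₁ q + (σ + η)) (fun q => ind a₂ q + η)]
  funext i
  rcases i with p | p
  · have hp : Fact (p : ℕ).Prime := ⟨Nat.prime_of_mem_primeFactors p.2⟩
    have hpn := Nat.dvd_of_mem_primeFactors p.2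
    obtain ⟨h1, -⟩ := h p hpn
    rw [← lap_ind H.sqf ha₁ hpn (H.ne_two hpn) hn2] at h1
    simp only [Sum.elim_inl, Pi.zero_apply]
    have h2 : ∑ q ∈ V.primeFactors.erase p,
        wP p q * (ind a₁ p + (σ + η) + (ind a₁ q + (σ + η))) =
        ∑ q ∈ V.primeFactors.erase p, wP p q * (ind a₁ p + ind a₁ q) := by
      refine Finset.sum_congr rfl fun q _ => ?_
      linear_combination (wP p q) * two (σ + η)
    rw [h2, h1]
    exact two _
  · have hp : Fact (p : ℕ).Prime := ⟨Nat.prime_of_mem_primeFactors p.2⟩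
    have hpn := Nat.dvd_of_mem_primeFactors p.2
    obtain ⟨-, h1⟩ := h p hpn
    rw [← lap_ind H.sqf ha₂ hpn (H.ne_two hpn) hn2] at h1
    simp only [Sum.elim_inr, Pi.zero_apply]
    rw [sum_erase_transposeP H.sqf H.n4 p.2 ha₂ η, h1]
    linear_combination two (eP p * (ind a₁ p + ind a₂ p + σ + ep a₂ + η))

/-- **The 2-Selmer group is minimal if `det N(V) = 1`.** -/
theorem selmerP_trivial_of_det {V : ℕ} (H : HypP V) (hdet : (NP V).det ≠ 0)
    {d₁ d₂ d₃ w : ℤ} (h₁ : Squarefree d₁)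
    (h₂ : Squarefree d₂) (h₃ : Squarefree d₃) (h : d₁ * d₂ * d₃ = w ^ 2) (hpos : 0 < d₁)
    (hs : ∀ p : ℕ, p.Prime → Sol (-(V : ℤ)) d₁ d₂ d₃ p 6) :
    (d₁ = 1 ∧ d₂ = 1 ∧ d₃ = 1) ∨ (d₁ = 17 ∧ d₂ = -V ∧ d₃ = -17 * V) ∨
      (d₁ = V ∧ d₂ = -1 ∧ d₃ = -V) ∨ (d₁ = 17 * V ∧ d₂ = V ∧ d₃ = 17) := by
  obtain ⟨s, v, σ, η, a₁, a₂, a₃, hs1, hep, hv, e1, e2, e3, ha₁, ha₂, ha₃, hloc⟩ :=
    exists_LP H h₁ h₂ h₃ h hpos hs
  have hker := kernel_of_LP H ha₁ ha₂ hloc
  have hz := Matrix.eq_zero_of_mulVec_eq_zero hdet hker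
  have hy : ∀ q ∈ V.primeFactors, ind a₂ q + η = 0 := by
    intro q hq
    have := congrFun hz (Sum.inl ⟨q, hq⟩)
    simpa using this
  have hx : ∀ q ∈ V.primeFactors, ind a₁ q + (σ + η) = 0 := by
    intro q hq
    have := congrFun hz (Sum.inr ⟨q, hq⟩)
    simpa using this
  have hn0 := H.n0
  have hn4 := H.n4
  have hnpos : (0 : ℤ) < V := by exact_mod_cast Nat.pos_of_ne_zero hn0
  have hsn : Squarefree (V : ℤ) := Int.squarefree_natCast.mpr H.sqf
  have hs17 : Squarefree (17 : ℤ) := by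
    have : Squarefree ((17 : ℕ) : ℤ) :=
      Int.squarefree_natCast.mpr (by norm_num : Nat.Prime 17).squarefree
    exact_mod_cast this
  have hs1' : Squarefree (1 : ℤ) := squarefree_one
  have hs17V : Squarefree (17 * (V : ℤ)) := by
    have h17 : Squarefree (17 * V) := by
      rw [Nat.squarefree_mul
        ((Nat.Prime.coprime_iff_not_dvd (by norm_num)).mpr H.not17)]
      exact ⟨(by norm_num : Nat.Prime 17).squarefree, H.sqf⟩
    exact_mod_cast Int.squarefree_natCast.mpr h17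
  have A2 : (v = 1 ∧ η = 0 ∧ a₂ = 1) ∨ (v = 17 ∧ η = 1 ∧ a₂ = V) := by
    rcases hv with ⟨k1, k2⟩ | ⟨k1, k2⟩
    · left
      refine ⟨k1, k2, eq_of_ind_eq_zero H.sqf ha₂ fun q hq => ?_⟩
      have := hy q hq
      rwa [k2, add_zero] at this
    · right
      refine ⟨k1, k2, eq_of_ind_eq_one H.sqf ha₂ fun q hq => ?_⟩
      have := hy q hq
      rw [k2] at this
      exact CharTwo.add_eq_zero.mp this
  have B0 : σ + η = 0 → a₁ = 1 := fun hc => eq_of_ind_eq_zero H.sqf ha₁ fun q hq => by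
    have := hx q hq
    rwa [hc, add_zero] at this
  have B1 : σ + η = 1 → a₁ = V := fun hc => eq_of_ind_eq_one H.sqf ha₁ fun q hq => by
    have := hx q hq
    rw [hc] at this
    exact CharTwo.add_eq_zero.mp this
  have e00 : (0 : ZMod 2) + 0 = 0 := by decide
  have e01 : (0 : ZMod 2) + 1 = 1 := by decide
  have e10 : (1 : ZMod 2) + 0 = 1 := by decide
  have e11 : (1 : ZMod 2) + 1 = 0 := by decide
  rcases hs1 with ⟨k1, k2⟩ | ⟨k1, k2⟩ <;> rcases A2 with ⟨k3, k4, k5⟩ | ⟨k3, k4, k5⟩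
  · left
    have k6 := B0 (by rw [k2, k4, e00])
    have g1 : d₁ = 1 := by rw [e1, k3, k6]; norm_num
    have g2 : d₂ = 1 := by rw [e2, k1, k5]; norm_num
    refine ⟨g1, g2, ?_⟩
    have h3 : 0 ≤ d₃ := by rw [e3, k1, k3]; positivity
    have h3' : 0 < d₃ := lt_of_le_of_ne h3 (Ne.symm h₃.ne_zero)
    rw [g1, g2] at h
    exact (eq_of_mul_sq hs1' h₃ one_pos h3' (w := w) (by linear_combination h)).symm
  · right; right; right
    have k6 := B1 (by rw [k2, k4, e01])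
    have g1 : d₁ = 17 * V := by rw [e1, k3, k6]
    have g2 : d₂ = V := by rw [e2, k1, k5]; ring
    refine ⟨g1, g2, ?_⟩
    have h3 : 0 ≤ d₃ := by rw [e3, k1, k3]; positivity
    have h3' : 0 < d₃ := lt_of_le_of_ne h3 (Ne.symm h₃.ne_zero)
    rw [g1, g2] at h
    have h5 : (V : ℤ) ∣ w := by
      have : (V : ℤ) ∣ w ^ 2 := ⟨17 * V * d₃, by rw [← h]; ring⟩
      exact (hsn.dvd_pow_iff_dvd two_ne_zero).mp this
    obtain ⟨w', hw'⟩ := h5
    have h6 : 17 * d₃ = w' ^ 2 := by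
      apply mul_left_cancel₀ (pow_ne_zero 2 hnpos.ne')
      rw [hw'] at h
      linear_combination h
    exact (eq_of_mul_sq hs17 h₃ (by norm_num) h3' h6).symm
  · right; right; left
    have k6 := B1 (by rw [k2, k4, e10])
    have g1 : d₁ = V := by rw [e1, k3, k6]; ring
    have g2 : d₂ = -1 := by rw [e2, k1, k5]; norm_num
    refine ⟨g1, g2, ?_⟩
    have h3 : 0 ≤ -d₃ := by rw [e3, k1, k3]; simp
    have h3' : 0 < -d₃ := lt_of_le_of_ne h3 (by have := h₃.ne_zero; omega)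
    rw [g1, g2] at h
    have h₃n : Squarefree (-d₃) := (Int.squarefree_natAbs.mp (by rw [Int.natAbs_neg]; exact Int.squarefree_natAbs.mpr h₃))
    have := (eq_of_mul_sq hsn h₃n hnpos h3' (w := w) (by linear_combination h)).symm
    omega
  · right; left
    have k6 := B0 (by rw [k2, k4, e11])
    have g1 : d₁ = 17 := by rw [e1, k3, k6]; norm_num
    have g2 : d₂ = -V := by rw [e2, k1, k5]; ring
    refine ⟨g1, g2, ?_⟩
    have h3 : 0 ≤ -d₃ := by rw [e3, k1, k3]; simp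
    have h3' : 0 < -d₃ := lt_of_le_of_ne h3 (by have := h₃.ne_zero; omega)
    rw [g1, g2] at h
    have h₃n : Squarefree (-d₃) := (Int.squarefree_natAbs.mp (by rw [Int.natAbs_neg]; exact Int.squarefree_natAbs.mpr h₃))
    have := (eq_of_mul_sq hs17V h₃n (by positivity) h3' (w := w) (by linear_combination h)).symm
    omega

theorem pos_of_realP {n d₁ d₂ d₃ w : ℤ} (hn : n < 0) (h₁ : d₁ ≠ 0) (h₂ : d₂ ≠ 0)
    (h₃ : d₃ ≠ 0) (hw : d₁ * d₂ * d₃ = w ^ 2) {S₁ S₂ S₃ E : ℝ}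
    (hne : ¬ (S₁ = 0 ∧ S₂ = 0 ∧ S₃ = 0 ∧ E = 0))
    (h1 : d₂ * S₂ ^ 2 - d₁ * S₁ ^ 2 = n * E ^ 2)
    (h2 : d₃ * S₃ ^ 2 - d₁ * S₁ ^ 2 = 17 * n * E ^ 2) : 0 < d₁ := by
  by_contra hc
  push Not at hc
  have hd1 : d₁ < 0 := lt_of_le_of_ne hc h₁
  have hnR : (n : ℝ) < 0 := by exact_mod_cast hn
  have hd1R : (d₁ : ℝ) < 0 := by exact_mod_cast hd1
  have hw0 : 0 < w ^ 2 := by
    have : w ^ 2 ≠ 0 := by
      rw [← hw]; exact mul_ne_zero (mul_ne_zero h₁ h₂) h₃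
    positivity
  have h23 : d₂ * d₃ < 0 := by
    by_contra hc2
    push Not at hc2
    have : d₁ * (d₂ * d₃) ≤ 0 := mul_nonpos_of_nonpos_of_nonneg hd1.le hc2
    rw [← mul_assoc, hw] at this; linarith
  have hz : ∀ {a x : ℝ}, a ≠ 0 → a * x ^ 2 = 0 → x = 0 := by
    intro a x ha hx
    rcases mul_eq_zero.mp hx with h5 | h5
    · exact absurd h5 ha
    · exact pow_eq_zero_iff two_ne_zero |>.mp h5
  have p1 : d₁ * S₁ ^ 2 ≤ 0 := mul_nonpos_of_nonpos_of_nonneg hd1R.le (sq_nonneg _)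
  have p3 : n * E ^ 2 ≤ 0 := mul_nonpos_of_nonpos_of_nonneg hnR.le (sq_nonneg _)
  rcases lt_or_gt_of_ne h₂ with h5 | h5
  · -- d₂ < 0 < d₃
    have h6 : 0 < d₃ := by
      by_contra hc3
      push Not at hc3
      have := mul_nonneg_of_nonpos_of_nonpos h5.le hc3
      linarith
    have h3R : (0 : ℝ) < d₃ := by exact_mod_cast h6
    have h2R : (d₂ : ℝ) < 0 := by exact_mod_cast h5
    have p2 : 0 ≤ d₃ * S₃ ^ 2 := mul_nonneg h3R.le (sq_nonneg _)
    have q1 : d₃ * S₃ ^ 2 = 0 := by linarith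
    have q2 : d₁ * S₁ ^ 2 = 0 := by linarith
    have q3 : n * E ^ 2 = 0 := by linarith
    have r3 := hz h3R.ne' q1
    have r1 := hz hd1R.ne q2
    have rE : E = 0 := hz hnR.ne q3
    rw [r1, rE] at h1
    have r2 : S₂ = 0 := hz h2R.ne (by linear_combination h1)
    exact hne ⟨r1, r2, r3, rE⟩
  · -- d₃ < 0 < d₂
    have h6 : d₃ < 0 := by
      by_contra hc3
      push Not at hc3
      have := mul_nonneg h5.le hc3
      linarith
    have h3R : (d₃ : ℝ) < 0 := by exact_mod_cast h6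
    have h2R : (0 : ℝ) < d₂ := by exact_mod_cast h5
    have p2 : 0 ≤ d₂ * S₂ ^ 2 := mul_nonneg h2R.le (sq_nonneg _)
    have q1 : d₂ * S₂ ^ 2 = 0 := by linarith
    have q2 : d₁ * S₁ ^ 2 = 0 := by linarith
    have q3 : n * E ^ 2 = 0 := by linarith
    have r2 := hz h2R.ne' q1
    have r1 := hz hd1R.ne q2
    have rE : E = 0 := hz hnR.ne q3
    rw [r1, rE] at h2
    have r3 : S₃ = 0 := hz h3R.ne (by linear_combination h2)
    exact hne ⟨r1, r2, r3, rE⟩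

/-- **The determinant criterion.** -/
theorem selTrivP_of_det {V : ℕ} (H : HypP V) (hdet : (NP V).det ≠ 0) :
    SelTriv (-5 * (V : ℤ) / 4) (-(V : ℤ)) (3 * (V : ℤ)) := by
  intro d₁ d₂ d₃ h₁ h₂ h₃ ⟨w, hw⟩ hR hp
  have hn : (0 : ℤ) < V := by exact_mod_cast Nat.pos_of_ne_zero H.n0
  have E1 : (-5 * ((V : ℤ) : ℚ) / 4) = 5 * ((-(V : ℤ) : ℤ) : ℚ) / 4 := by push_cast; ring
  have E2 : (-((V : ℤ) : ℚ)) = ((-(V : ℤ) : ℤ) : ℚ) := by push_cast; ring
  have E3 : (3 * ((V : ℤ) : ℚ)) = -3 * ((-(V : ℤ) : ℤ) : ℚ) := by push_cast; ring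
  have hpos : 0 < d₁ := by
    rw [E1, E2, E3] at hR
    obtain ⟨S₁, S₂, S₃, E, hne, e1, e2⟩ := exists_hom h₁.ne_zero h₂.ne_zero h₃.ne_zero hR
    exact pos_of_realP (by omega) h₁.ne_zero h₂.ne_zero h₃.ne_zero hw hne e1 e2
  have hsol : ∀ p : ℕ, p.Prime → Sol (-(V : ℤ)) d₁ d₂ d₃ p 6 := by
    intro p hpp
    have := Fact.mk hpp
    have hp' := hp p
    rw [E1, E2, E3] at hp'
    obtain ⟨S₁, S₂, S₃, E, hne, e1, e2⟩ := exists_hom h₁.ne_zero h₂.ne_zero h₃.ne_zero hp'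
    exact Sol.of_padic (by norm_num) hne e1 e2
  rcases selmerP_trivial_of_det H hdet h₁ h₂ h₃ hw hpos hsol with ⟨r1, r2, r3⟩ | ⟨r1, r2, r3⟩ |
    ⟨r1, r2, r3⟩ | ⟨r1, r2, r3⟩
  · exact Or.inl ⟨r1, r2, r3⟩
  · refine Or.inr (Or.inl ⟨1 / 2, 1 / 2, ?_, ?_⟩)
    · rw [r2]; push_cast; ring
    · rw [r3]; push_cast; ring
  · refine Or.inr (Or.inr (Or.inl ⟨2, 1 / 2, ?_, ?_⟩))
    · rw [r3]; push_cast; ring
    · rw [r1]; push_cast; ring
  · refine Or.inr (Or.inr (Or.inr ⟨1 / 2, 2, ?_, ?_⟩))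
    · rw [r1]; push_cast; ring
    · rw [r2]; push_cast; ring

end Vale.Agent.P014.H71
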