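import Vale.Agent.P014.H71.Sel

/-!
# Squares in `ℚ_p`, `p` odd
-/

namespace Vale.Agent.P014.H71

open Polynomial

variable {p : ℕ} [hp : Fact p.Prime]

theorem padic_norm_two (hp2 : p ≠ 2) : ‖(2 : ℚ_[p])‖ = 1 := by
  have h1 : ‖((2 : ℤ) : ℚ_[p])‖ = 1 := by
    rw [Padic.norm_intCast_eq_one_iff]
    rw [Int.isCoprime_iff_gcd_eq_one, Int.gcd_comm]
    have : Nat.Coprime p 2 := (Nat.coprime_primes hp.out Nat.prime_two).mpr hp2
    simpa [Int.gcd] using this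
  simpa using h1

theorem sq_of_near_one (hp2 : p ≠ 2) {x : ℚ_[p]} (hx : ‖x - 1‖ < 1) : ∃ r, r ^ 2 = x := by
  have hx1 : ‖x‖ ≤ 1 := by
    have h1 : x = (x - 1) + 1 := by ring
    rw [h1]
    refine (Padic.nonarchimedean _ _).trans ?_
    rw [norm_one]
    exact max_le hx.le le_rfl
  set u : ℤ_[p] := ⟨x, hx1⟩ with hu
  have h2 : ‖(2 : ℤ_[p])‖ = 1 := by
    rw [PadicInt.norm_def]; exact padic_norm_two hp2
  have hnorm : ‖(X ^ 2 - C u : ℤ_[p][X]).aeval (1 : ℤ_[p])‖ <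
      ‖(X ^ 2 - C u : ℤ_[p][X]).derivative.aeval (1 : ℤ_[p])‖ ^ 2 := by
    simp only [map_sub, map_pow, aeval_X, aeval_C, one_pow, Algebra.algebraMap_self, RingHom.id_apply,
      derivative_X_pow, derivative_C, sub_zero, Nat.cast_ofNat, map_mul, map_ofNat]
    norm_num
    rw [h2]
    have : ‖1 - u‖ = ‖x - 1‖ := by
      rw [norm_sub_rev, PadicInt.norm_def]; push_cast; rfl
    rw [this]; simpa using hx
  obtain ⟨z, hz, -⟩ := hensels_lemma hnorm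
  simp only [map_sub, map_pow, aeval_X, aeval_C, Algebra.algebraMap_self, RingHom.id_apply] at hz
  refine ⟨z, ?_⟩
  have h3 : z ^ 2 = u := by linear_combination hz
  have h4 := congrArg (fun t : ℤ_[p] => (t : ℚ_[p])) h3
  simpa [hu] using h4

theorem near (hp2 : p ≠ 2) {x y : ℚ_[p]} (h : ‖x - y‖ < ‖y‖) :
    ∃ r, r ≠ 0 ∧ x = y * r ^ 2 := by
  have hy : y ≠ 0 := by
    rintro rfl
    rw [norm_zero] at h
    exact absurd (norm_nonneg _) (not_le.mpr h)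
  have hy' : 0 < ‖y‖ := norm_pos_iff.mpr hy
  have h1 : ‖x / y - 1‖ < 1 := by
    have : x / y - 1 = (x - y) / y := by field_simp
    rw [this, norm_div, div_lt_one hy']
    exact h
  obtain ⟨r, hr⟩ := sq_of_near_one hp2 h1
  refine ⟨r, ?_, by rw [hr]; field_simp⟩
  rintro rfl
  have h2 : x / y = 0 := by rw [← hr]; ring
  rw [h2] at h1
  simp at h1

theorem norm_int_unit {a : ℤ} (ha : ¬ (p : ℤ) ∣ a) : ‖(a : ℚ_[p])‖ = 1 := by
  have h1 := Padic.norm_int_le_one (p := p) a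
  have h2 : ¬ ‖(a : ℚ_[p])‖ < 1 := by rwa [Padic.norm_intCast_lt_one_iff]
  exact le_antisymm h1 (not_lt.mp h2)

theorem int_sq_of_legendre (hp2 : p ≠ 2) {a : ℤ} (h : legendreSym p a = 1) :
    ∃ r : ℚ_[p], r ^ 2 = a := by
  have ha : (a : ZMod p) ≠ 0 := by
    intro hc
    rw [(legendreSym.eq_zero_iff p a).mpr hc] at h
    norm_num at h
  obtain ⟨b, hb⟩ := (legendreSym.eq_one_iff p ha).mp h
  obtain ⟨c, hc⟩ : ∃ c : ℤ, (c : ZMod p) = b := ⟨b.val, by simp⟩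
  have hdvd : (p : ℤ) ∣ a - c ^ 2 := by
    rw [← ZMod.intCast_zmod_eq_zero_iff_dvd]
    push_cast
    rw [hb, hc]; ring
  have hc0 : ¬ (p : ℤ) ∣ c := by
    intro h1
    apply ha
    rw [ZMod.intCast_zmod_eq_zero_iff_dvd]
    have : a = (a - c ^ 2) + c ^ 2 := by ring
    rw [this]
    exact dvd_add hdvd (dvd_pow h1 two_ne_zero)
  have hcn := norm_int_unit hc0
  have h2 : ‖(a : ℚ_[p]) - (c : ℚ_[p]) ^ 2‖ < ‖(c : ℚ_[p]) ^ 2‖ := by
    rw [norm_pow, hcn, one_pow]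
    have := (Padic.norm_intCast_lt_one_iff (p := p) (k := a - c ^ 2)).mpr hdvd
    push_cast at this
    exact this
  obtain ⟨r, -, hr⟩ := near hp2 h2
  exact ⟨c * r, by rw [hr]; ring⟩

theorem legendre_of_sq {a : ℤ} (ha : ¬ (p : ℤ) ∣ a) {x : ℚ_[p]} (hx : ‖x ^ 2 - a‖ < 1) :
    legendreSym p a = 1 := by
  have hx1 : ‖x‖ ≤ 1 := by
    by_contra hc
    push Not at hc
    have h2 : (1 : ℝ) < ‖x ^ 2‖ := by rw [norm_pow]; nlinarith
    have h3 := Padic.nonarchimedean (x ^ 2 - (a : ℚ_[p])) (a : ℚ_[p])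
    rw [sub_add_cancel] at h3
    have h4 := Padic.norm_int_le_one (p := p) a
    have := h3.trans (max_le hx.le h4)
    linarith
  set u : ℤ_[p] := ⟨x, hx1⟩ with hu
  have h2 : ‖u ^ 2 - (a : ℤ_[p])‖ < 1 := by
    rw [PadicInt.norm_def]; push_cast; exact hx
  have h3 : PadicInt.toZMod (u ^ 2 - (a : ℤ_[p])) = 0 := by
    rw [← RingHom.mem_ker, PadicInt.ker_toZMod, PadicInt.maximalIdeal_eq_span_p,
      Ideal.mem_span_singleton, ← PadicInt.norm_lt_one_iff_dvd]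
    exact h2
  rw [map_sub, map_pow, map_intCast, sub_eq_zero] at h3
  rw [legendreSym.eq_one_iff p (by rwa [Ne, ZMod.intCast_zmod_eq_zero_iff_dvd]), ← h3]
  exact ⟨PadicInt.toZMod u, sq _⟩

/-- residues of units -/
theorem unit_class (hp2 : p ≠ 2) {u : ℚ_[p]} (hu : ‖u‖ = 1) :
    ∃ a : ℤ, ¬ (p : ℤ) ∣ a ∧ ∃ r, r ≠ 0 ∧ u = a * r ^ 2 := by
  set v : ℤ_[p] := ⟨u, hu.le⟩ with hv
  obtain ⟨a, h2⟩ : ∃ a : ℤ, ‖v - (a : ℤ_[p])‖ < 1 :=
    ⟨v.zmodRepr, by simpa using PadicInt.norm_sub_zmodRepr_lt_one v⟩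
  have h3 : ‖u - a‖ < 1 := by
    rw [PadicInt.norm_def] at h2; push_cast at h2; exact h2
  have ha0 : ¬ (p : ℤ) ∣ a := by
    intro hc
    have h4 := (Padic.norm_intCast_lt_one_iff (p := p) (k := a)).mpr hc
    have h5 := Padic.nonarchimedean (u - (a : ℚ_[p])) (a : ℚ_[p])
    rw [sub_add_cancel, hu] at h5
    rcases le_max_iff.mp h5 with h6 | h6 <;> linarith
  refine ⟨a, ha0, ?_⟩
  exact near hp2 (by rw [norm_int_unit ha0]; exact h3)

/-- the product of two non-square units is a square -/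
theorem sq_mul_of_not_sq (hp2 : p ≠ 2) {u v : ℚ_[p]} (hu : ‖u‖ = 1) (hv : ‖v‖ = 1)
    (hu' : ¬ ∃ r, r ^ 2 = u) (hv' : ¬ ∃ r, r ^ 2 = v) : ∃ r, r ^ 2 = u * v := by
  obtain ⟨a, ha, r, hr, hr'⟩ := unit_class hp2 hu
  obtain ⟨b, hb, s, hs, hs'⟩ := unit_class hp2 hv
  have h1 : legendreSym p a = -1 := by
    refine (legendre_ne_zero ha).resolve_left fun hc => hu' ?_
    obtain ⟨t, ht⟩ := int_sq_of_legendre hp2 hc
    exact ⟨t * r, by rw [mul_pow, ht, hr']⟩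
  have h2 : legendreSym p b = -1 := by
    refine (legendre_ne_zero hb).resolve_left fun hc => hv' ?_
    obtain ⟨t, ht⟩ := int_sq_of_legendre hp2 hc
    exact ⟨t * s, by rw [mul_pow, ht, hs']⟩
  obtain ⟨t, ht⟩ := int_sq_of_legendre hp2 (a := a * b) (by rw [legendreSym.mul, h1, h2]; norm_num)
  refine ⟨t * r * s, ?_⟩
  rw [mul_pow, mul_pow, ht, hr', hs']; push_cast; ring

theorem norm_lt_one_le {x : ℚ_[p]} (hx : ‖x‖ < 1) : ‖x‖ ≤ (p : ℝ)⁻¹ := by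
  have := (Padic.norm_le_pow_iff_norm_lt_pow_add_one x (-1)).mpr (by simpa using hx)
  simpa using this

theorem norm_lt_inv_le {x : ℚ_[p]} (hx : ‖x‖ < (p : ℝ)⁻¹) : ‖x‖ ≤ (p : ℝ)⁻¹ ^ 2 := by
  have := (Padic.norm_le_pow_iff_norm_lt_pow_add_one x (-2)).mpr (by
    norm_num; simpa using hx)
  simpa [zpow_neg] using this

end Vale.Agent.P014.H71
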