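import Vale.Agent.P014.H71.Sel3
import Vale.Agent.P014.H71.LocSel

/-!
# The determinant criterion for the 2-Selmer group
-/

namespace Vale.Agent.P014.H71

/-- evaluation of `N(n)` on a vector -/
theorem NP_mulVec {n : ℕ} (X Y : ℕ → ZMod 2) :
    (NP n).mulVec (Sum.elim (fun q => Y q) (fun q => X q)) =
      Sum.elim
        (fun p : n.primeFactors => sP p * Y p +
          ∑ q ∈ n.primeFactors.erase p, wP p q * (X p + X q))
        (fun p : n.primeFactors => ∑ q ∈ n.primeFactors.erase p, (wP p q * Y p + wP q p * Y q) +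
          eP p * X p) := by
  unfold NP NMat
  rw [Matrix.fromBlocks_mulVec]
  congr 1
  · funext p
    have h1 : (Matrix.diagonal fun p : n.primeFactors => sP p).mulVec
        (Sum.elim (fun q : n.primeFactors => Y q) (fun q : n.primeFactors => X q) ∘ Sum.inl) p =
        sP p * Y p := by
      rw [Matrix.mulVec_diagonal]; rfl
    rw [Pi.add_apply, h1]
    congr 1
    exact lap_mulVec wP n.primeFactors X p
  · funext p
    have h1 : (Matrix.diagonal fun p : n.primeFactors => eP p).mulVec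
        (Sum.elim (fun q : n.primeFactors => Y q) (fun q : n.primeFactors => X q) ∘ Sum.inr) p =
        eP p * X p := by
      rw [Matrix.mulVec_diagonal]; rfl
    rw [Pi.add_apply, h1]
    congr 1
    exact lap_transpose_mulVec wP n.primeFactors Y p

theorem sum_erase_transpose {n : ℕ} (hn : Squarefree n) (hn4 : n % 4 = 3) {p : ℕ}
    (hp : p ∈ n.primeFactors) {a : ℕ} (ha : a ∣ n) (η : ZMod 2) :
    ∑ q ∈ n.primeFactors.erase p, (wP p q * (ind a p + η) + wP q p * (ind a q + η)) =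
      ∑ q ∈ n.primeFactors.erase p, wP p q * (ind a p + ind a q) +
        eP p * (ep a + ind a p) := by
  have two : ∀ z : ZMod 2, z + z = 0 := CharTwo.add_self_eq_zero
  have h1 : ∀ q ∈ n.primeFactors.erase p,
      wP p q * (ind a p + η) + wP q p * (ind a q + η) =
        wP p q * (ind a p + ind a q) + eP p * (eP q * (ind a q + η)) := by
    intro q hq
    rw [Finset.mem_erase] at hq
    rw [wP_recip (n := n) (by omega) hp hq.2 (Ne.symm hq.1)]
    linear_combination two (wP p q * η)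
  rw [Finset.sum_congr rfl h1, Finset.sum_add_distrib, ← Finset.mul_sum]
  congr 1
  have h2 : ∑ q ∈ n.primeFactors.erase p, eP q * (ind a q + η) =
      (ep a + η * ep n) + eP p * (ind a p + η) := by
    have h3 := Finset.add_sum_erase n.primeFactors (fun q => eP q * (ind a q + η)) hp
    have h4 : ∑ q ∈ n.primeFactors, eP q * (ind a q + η) = ep a + η * ep n := by
      rw [← sum_eP_ind hn (by omega) ha, ← sum_eP_ind hn (by omega) dvd_rfl, Finset.mul_sum,
        ← Finset.sum_add_distrib]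
      refine Finset.sum_congr rfl fun q hq => ?_
      have : ind n q = 1 := if_pos (Nat.dvd_of_mem_primeFactors hq)
      rw [this]; ring
    rw [h4] at h3
    linear_combination h3 - two (eP p * (ind a p + η))
  have h3 : ep n = 1 := by simp [ep, hn4]
  have h4 : eP p * eP p = eP p := by
    unfold eP; split_ifs <;> simp
  rw [h2, h3]
  linear_combination (ind a p + η) * h4 + two (eP p * η)

/-- the vector attached to a solution of the local conditions is in the kernel -/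
theorem kernel_of_LL {n : ℕ} (H : HypB n) {η : ZMod 2} {a₁ a₂ : ℕ} (ha₁ : a₁ ∣ n) (ha₂ : a₂ ∣ n)
    (h : ∀ (q : ℕ) [Fact q.Prime], q ∣ n → LL n η a₁ a₂ q) :
    (NP n).mulVec (Sum.elim (fun q => ind a₂ q + η) (fun q => ind a₁ q + ep a₁)) = 0 := by
  have two : ∀ z : ZMod 2, z + z = 0 := CharTwo.add_self_eq_zero
  have hn2 : n % 2 = 1 := by have := H.n4; omega
  rw [NP_mulVec (fun q => ind a₁ q + ep a₁) (fun q => ind a₂ q + η)]
  funext i
  rcases i with p | p
  · have hp : Fact (p : ℕ).Prime := ⟨Nat.prime_of_mem_primeFactors p.2⟩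
    have hpn := Nat.dvd_of_mem_primeFactors p.2
    obtain ⟨h1, -⟩ := h p hpn
    rw [← lap_ind H.sqf ha₁ hpn (H.ne_two hpn) hn2] at h1
    simp only [Sum.elim_inl, Pi.zero_apply]
    have h2 : ∑ q ∈ n.primeFactors.erase p,
        wP p q * (ind a₁ p + ep a₁ + (ind a₁ q + ep a₁)) =
        ∑ q ∈ n.primeFactors.erase p, wP p q * (ind a₁ p + ind a₁ q) := by
      refine Finset.sum_congr rfl fun q _ => ?_
      linear_combination (wP p q) * two (ep a₁)
    rw [h2, h1]
    exact two _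
  · have hp : Fact (p : ℕ).Prime := ⟨Nat.prime_of_mem_primeFactors p.2⟩
    have hpn := Nat.dvd_of_mem_primeFactors p.2
    obtain ⟨-, h1⟩ := h p hpn
    rw [← lap_ind H.sqf ha₂ hpn (H.ne_two hpn) hn2] at h1
    simp only [Sum.elim_inr, Pi.zero_apply]
    rw [sum_erase_transpose H.sqf H.n4 p.2 ha₂ η, h1]
    linear_combination two (eP p * (ind a₁ p + ind a₂ p + ep a₁ + ep a₂))

theorem eq_of_ind_eq_zero {n a : ℕ} (hn : Squarefree n) (ha : a ∣ n)
    (h : ∀ q ∈ n.primeFactors, ind a q = 0) : a = 1 := by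
  by_contra hc
  obtain ⟨q, hq, hqa⟩ := Nat.exists_prime_and_dvd hc
  have h1 := h q (Nat.mem_primeFactors.mpr ⟨hq, hqa.trans ha, hn.ne_zero⟩)
  rw [ind, if_pos hqa] at h1
  exact one_ne_zero h1

theorem eq_of_ind_eq_one {n a : ℕ} (hn : Squarefree n) (ha : a ∣ n)
    (h : ∀ q ∈ n.primeFactors, ind a q = 1) : a = n := by
  apply Nat.dvd_antisymm ha
  refine dvd_of_primes hn (hn.squarefree_of_dvd ha).ne_zero fun q hq hqn => ?_
  have h1 := h q (Nat.mem_primeFactors.mpr ⟨hq, hqn, hn.ne_zero⟩)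
  by_contra hc
  rw [ind, if_neg hc] at h1
  exact zero_ne_one h1

/-- positive squarefree numbers whose product is a square are equal -/
theorem eq_of_mul_sq {x y w : ℤ} (hx : Squarefree x) (hy : Squarefree y) (hx0 : 0 < x)
    (hy0 : 0 < y) (h : x * y = w ^ 2) : x = y := by
  have key : ∀ {x y w : ℤ}, Squarefree x → Squarefree y → x * y = w ^ 2 → x ∣ y := by
    intro x y w hx hy h
    have h1 : x ∣ w ^ 2 := ⟨y, h.symm⟩
    obtain ⟨z, hz⟩ := (hx.dvd_pow_iff_dvd two_ne_zero).mp h1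
    rw [hz] at h
    have h2 : y = x * z ^ 2 := by
      apply mul_left_cancel₀ hx.ne_zero
      rw [h]; ring
    exact ⟨z ^ 2, h2⟩
  have h1 := key hx hy h
  have h2 := key hy hx (by rw [mul_comm]; exact h)
  exact Int.dvd_antisymm hx0.le hy0.le h1 h2

/-- **The 2-Selmer group is minimal if `det N(n) = 1`.** -/
theorem selmer_trivial_of_det {n : ℕ} (H : HypB n) (hdet : (NP n).det ≠ 0)
    {d₁ d₂ d₃ w : ℤ} (h₁ : Squarefree d₁)
    (h₂ : Squarefree d₂) (h₃ : Squarefree d₃) (h : d₁ * d₂ * d₃ = w ^ 2) (hpos : 0 < d₃)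
    (hs : ∀ p : ℕ, p.Prime → Sol n d₁ d₂ d₃ p 6) :
    (d₁ = 1 ∧ d₂ = 1 ∧ d₃ = 1) ∨ (d₁ = 17 ∧ d₂ = n ∧ d₃ = 17 * n) ∨
      (d₁ = -n ∧ d₂ = -1 ∧ d₃ = n) ∨ (d₁ = -17 * n ∧ d₂ = -n ∧ d₃ = 17) := by
  obtain ⟨s, v, η, a₁, a₂, a₃, hs1, hv, e1, e2, e3, ha₁, ha₂, ha₃, hloc⟩ :=
    exists_LL H h₁ h₂ h₃ h hpos hs
  have hker := kernel_of_LL H ha₁ ha₂ hloc
  have hz := Matrix.eq_zero_of_mulVec_eq_zero hdet hker
  have hy : ∀ q ∈ n.primeFactors, ind a₂ q + η = 0 := by
    intro q hq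
    have := congrFun hz (Sum.inl ⟨q, hq⟩)
    simpa using this
  have hx : ∀ q ∈ n.primeFactors, ind a₁ q + ep a₁ = 0 := by
    intro q hq
    have := congrFun hz (Sum.inr ⟨q, hq⟩)
    simpa using this
  have hn0 := H.n0
  have hn4 := H.n4
  have hnpos : (0 : ℤ) < n := by exact_mod_cast Nat.pos_of_ne_zero hn0
  have hsn : Squarefree (n : ℤ) := Int.squarefree_natCast.mpr H.sqf
  have hs17 : Squarefree (17 : ℤ) := by
    have : Squarefree ((17 : ℕ) : ℤ) :=
      Int.squarefree_natCast.mpr (by norm_num : Nat.Prime 17).squarefree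
    exact_mod_cast this
  have hs1' : Squarefree (1 : ℤ) := squarefree_one
  have A1 : (s = 1 ∧ a₁ = 1) ∨ (s = -1 ∧ a₁ = n) := by
    rcases hs1 with ⟨k1, k2⟩ | ⟨k1, k2⟩
    · left
      refine ⟨k1, eq_of_ind_eq_zero H.sqf ha₁ fun q hq => ?_⟩
      have := hx q hq
      rwa [k2, add_zero] at this
    · right
      refine ⟨k1, eq_of_ind_eq_one H.sqf ha₁ fun q hq => ?_⟩
      have := hx q hq
      rw [k2] at this
      exact CharTwo.add_eq_zero.mp this
  have A2 : (v = 1 ∧ a₂ = 1) ∨ (v = 17 ∧ a₂ = n) := by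
    rcases hv with ⟨k1, k2⟩ | ⟨k1, k2⟩
    · left
      refine ⟨k1, eq_of_ind_eq_zero H.sqf ha₂ fun q hq => ?_⟩
      have := hy q hq
      rwa [k2, add_zero] at this
    · right
      refine ⟨k1, eq_of_ind_eq_one H.sqf ha₂ fun q hq => ?_⟩
      have := hy q hq
      rw [k2] at this
      exact CharTwo.add_eq_zero.mp this
  rcases A1 with ⟨k1, k2⟩ | ⟨k1, k2⟩ <;> rcases A2 with ⟨k3, k4⟩ | ⟨k3, k4⟩
  · left
    have g1 : d₁ = 1 := by rw [e1, k1, k2, k3]; norm_num
    have g2 : d₂ = 1 := by rw [e2, k1, k4]; norm_num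
    refine ⟨g1, g2, ?_⟩
    rw [g1, g2] at h
    exact (eq_of_mul_sq hs1' h₃ one_pos hpos (w := w) (by linear_combination h)).symm
  · right; left
    have g1 : d₁ = 17 := by rw [e1, k1, k2, k3]; norm_num
    have g2 : d₂ = n := by rw [e2, k1, k4]; norm_num
    refine ⟨g1, g2, ?_⟩
    rw [g1, g2] at h
    have hs3 : Squarefree (17 * (n : ℤ)) := by
      have h17 : Squarefree (17 * n) := by
        rw [Nat.squarefree_mul
          ((Nat.Prime.coprime_iff_not_dvd (by norm_num)).mpr H.not17)]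
        exact ⟨(by norm_num : Nat.Prime 17).squarefree, H.sqf⟩
      exact_mod_cast Int.squarefree_natCast.mpr h17
    exact (eq_of_mul_sq hs3 h₃ (by positivity) hpos (w := w) (by linear_combination h)).symm
  · right; right; left
    have g1 : d₁ = -n := by rw [e1, k1, k2, k3]; ring
    have g2 : d₂ = -1 := by rw [e2, k1, k4]; norm_num
    refine ⟨g1, g2, ?_⟩
    rw [g1, g2] at h
    exact (eq_of_mul_sq hsn h₃ hnpos hpos (w := w) (by linear_combination h)).symm
  · right; right; right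
    have g1 : d₁ = -17 * n := by rw [e1, k1, k2, k3]; ring
    have g2 : d₂ = -n := by rw [e2, k1, k4]; ring
    refine ⟨g1, g2, ?_⟩
    rw [g1, g2] at h
    -- `17 n² d₃ = w²`
    have h5 : (n : ℤ) ∣ w := by
      have : (n : ℤ) ∣ w ^ 2 := ⟨17 * n * d₃, by rw [← h]; ring⟩
      exact (hsn.dvd_pow_iff_dvd two_ne_zero).mp this
    obtain ⟨w', hw'⟩ := h5
    have h6 : 17 * d₃ = w' ^ 2 := by
      apply mul_left_cancel₀ (pow_ne_zero 2 hnpos.ne')
      rw [hw'] at h
      linear_combination h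
    exact (eq_of_mul_sq hs17 h₃ (by norm_num) hpos h6).symm

/-- **The determinant criterion.** -/
theorem hypN_of_det {n : ℕ} (H : HypB n) (hdet : (NP n).det ≠ 0) : HypN n := by
  refine ⟨H.sqf, H.n4, H.not17, H.res, ?_⟩
  intro d₁ d₂ d₃ h₁ h₂ h₃ ⟨w, hw⟩ hR hp
  have hn : (0 : ℤ) < n := by exact_mod_cast Nat.pos_of_ne_zero H.n0
  have hpos : 0 < d₃ := by
    obtain ⟨S₁, S₂, S₃, E, hne, e1, e2⟩ := exists_hom h₁.ne_zero h₂.ne_zero h₃.ne_zero hR
    exact pos_of_real hn h₁.ne_zero h₂.ne_zero h₃.ne_zero hw hne e1 e2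
  have hsol : ∀ p : ℕ, p.Prime → Sol n d₁ d₂ d₃ p 6 := by
    intro p hpp
    have := Fact.mk hpp
    obtain ⟨S₁, S₂, S₃, E, hne, e1, e2⟩ := exists_hom h₁.ne_zero h₂.ne_zero h₃.ne_zero (hp p)
    exact Sol.of_padic (by norm_num) hne e1 e2
  rcases selmer_trivial_of_det H hdet h₁ h₂ h₃ hw hpos hsol with ⟨r1, r2, r3⟩ | ⟨r1, r2, r3⟩ |
    ⟨r1, r2, r3⟩ | ⟨r1, r2, r3⟩
  · exact Or.inl ⟨r1, r2, r3⟩
  · refine Or.inr (Or.inl ⟨1 / 2, 1 / 2, ?_, ?_⟩)
    · rw [r2]; push_cast; ring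
    · rw [r3]; push_cast; ring
  · refine Or.inr (Or.inr (Or.inl ⟨2, 1 / 2, ?_, ?_⟩))
    · rw [r3]; push_cast; ring
    · rw [r1]; push_cast; ring
  · refine Or.inr (Or.inr (Or.inr ⟨1 / 2, 2, ?_, ?_⟩))
    · rw [r1]; push_cast; ring
    · rw [r2]; push_cast; ring

end Vale.Agent.P014.H71
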