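import Vale.Agent.P014.H71.Sel4
import Vale.Agent.P014.H71.ChSum
import Vale.Agent.P014.H71.PadicSq

/-!
# Local solubility of the 2-coverings
-/

namespace Vale.Agent.P014.H71

open Polynomial

section cond

variable {K : Type} [Field K] [Algebra ℚ K]

theorem locCond_of {n d₁ d₂ d₃ w : ℤ} (h₁ : d₁ ≠ 0) (h₂ : d₂ ≠ 0) (h₃ : d₃ ≠ 0)
    (hw : d₁ * d₂ * d₃ = w ^ 2) {U r₁ r₂ r₃ : K} (e1 : U * d₁ = r₁ ^ 2)
    (e2 : (U + n) * d₂ = r₂ ^ 2) (e3 : (U + 17 * n) * (d₁ * d₂) = r₃ ^ 2) :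
    LocCond (5 * n / 4) n (-3 * n) d₁ d₂ d₃ K := by
  have := algebraRat.charZero K
  have k1 : (d₁ : K) ≠ 0 := Int.cast_ne_zero.mpr h₁
  have k2 : (d₂ : K) ≠ 0 := Int.cast_ne_zero.mpr h₂
  have k3 : (d₃ : K) ≠ 0 := Int.cast_ne_zero.mpr h₃
  have hwK : (d₁ : K) * d₂ * d₃ = (w : K) ^ 2 := by exact_mod_cast congrArg (Int.cast (R := K)) hw
  have hw0 : (w : K) ≠ 0 := by
    intro hc
    rw [hc] at hwK
    apply mul_ne_zero (mul_ne_zero k1 k2) k3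
    rw [hwK]; ring
  have a1 : algebraMap ℚ K (5 * n / 4) = 5 * n / 4 := by simp
  have a2 : algebraMap ℚ K (n : ℚ) = n := by simp
  have a3 : algebraMap ℚ K (-3 * n : ℚ) = -3 * n := by simp
  have two : (2 : K) ≠ 0 := two_ne_zero
  refine Or.inr ⟨(U + 5 * n) / 4, r₁ / (2 * d₁), r₂ / (2 * d₂), r₃ / (2 * w), ?_, ?_, ?_⟩
  · rw [a1, div_pow, ← e1]
    field_simp
    ring
  · rw [a2, div_pow, ← e2]
    field_simp
    ring
  · rw [a3, div_pow, ← e3, mul_pow, ← hwK]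
    field_simp
    ring

theorem locCond_of_sq {e₁ e₂ e₃ : ℚ} {d₁ d₂ d₃ w : ℤ} (h₁ : d₁ ≠ 0) (h₂ : d₂ ≠ 0)
    (hw : d₁ * d₂ * d₃ = w ^ 2) {t₁ t₂ : K} (e1 : t₁ ^ 2 = d₁) (e2 : t₂ ^ 2 = d₂) :
    LocCond e₁ e₂ e₃ d₁ d₂ d₃ K := by
  have := algebraRat.charZero K
  have k1 : (d₁ : K) ≠ 0 := Int.cast_ne_zero.mpr h₁
  have k2 : (d₂ : K) ≠ 0 := Int.cast_ne_zero.mpr h₂
  have hwK : (d₁ : K) * d₂ * d₃ = (w : K) ^ 2 := by exact_mod_cast congrArg (Int.cast (R := K)) hw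
  have t1 : t₁ ≠ 0 := by rintro rfl; apply k1; rw [← e1]; ring
  have t2 : t₂ ≠ 0 := by rintro rfl; apply k2; rw [← e2]; ring
  refine Or.inl ⟨t₁, t₂, w / (t₁ * t₂), e1, e2, ?_⟩
  rw [div_pow, mul_pow, e1, e2, ← hwK]
  field_simp

end cond

/-! ### odd primes -/

section odd

variable {p : ℕ} [hp : Fact p.Prime]

theorem sq_of_leg (hp2 : p ≠ 2) {z : ℤ} (c : ℤ) {z' : ℤ} (hz : z = c ^ 2 * z')
    (h : z' = 0 ∨ lg p z' = 0 ∧ ¬ (p : ℤ) ∣ z') : ∃ r : ℚ_[p], (z : ℚ_[p]) = r ^ 2 := by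
  rcases h with h | ⟨h, h'⟩
  · exact ⟨0, by rw [hz, h]; simp⟩
  · obtain ⟨r, hr⟩ := int_sq_of_legendre hp2 ((lg_eq_zero_iff h').mp h)
    exact ⟨c * r, by rw [hz, mul_pow, hr]; push_cast; ring⟩

theorem locCond_odd (hp2 : p ≠ 2) {n d₁ d₂ d₃ w : ℤ} (h₁ : d₁ ≠ 0) (h₂ : d₂ ≠ 0) (h₃ : d₃ ≠ 0)
    (hw : d₁ * d₂ * d₃ = w ^ 2) (U : ℤ) (c₁ c₂ c₃ : ℤ) {z₁ z₂ z₃ : ℤ} (e1 : U * d₁ = c₁ ^ 2 * z₁)
    (e2 : (U + n) * d₂ = c₂ ^ 2 * z₂) (e3 : (U + 17 * n) * (d₁ * d₂) = c₃ ^ 2 * z₃)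
    (g1 : z₁ = 0 ∨ lg p z₁ = 0 ∧ ¬ (p : ℤ) ∣ z₁) (g2 : z₂ = 0 ∨ lg p z₂ = 0 ∧ ¬ (p : ℤ) ∣ z₂)
    (g3 : z₃ = 0 ∨ lg p z₃ = 0 ∧ ¬ (p : ℤ) ∣ z₃) :
    LocCond (5 * n / 4) n (-3 * n) d₁ d₂ d₃ ℚ_[p] := by
  obtain ⟨r₁, f1⟩ := sq_of_leg hp2 c₁ e1 g1
  obtain ⟨r₂, f2⟩ := sq_of_leg hp2 c₂ e2 g2
  obtain ⟨r₃, f3⟩ := sq_of_leg hp2 c₃ e3 g3
  push_cast at f1 f2 f3
  exact locCond_of h₁ h₂ h₃ hw f1 f2 f3

theorem legendre_eq_quadraticChar (a : ℤ) : legendreSym p a = quadraticChar (ZMod p) a := rfl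

/-- primes of good reduction -/
theorem locCond_good (hp2 : p ≠ 2) {n d₁ d₂ d₃ w : ℤ} (hw : d₁ * d₂ * d₃ = w ^ 2)
    (hn : ¬ (p : ℤ) ∣ n) (h17 : ¬ (p : ℤ) ∣ 17) (h₁ : ¬ (p : ℤ) ∣ d₁) (h₂ : ¬ (p : ℤ) ∣ d₂)
    (h₃ : ¬ (p : ℤ) ∣ d₃) : LocCond (5 * n / 4) n (-3 * n) d₁ d₂ d₃ ℚ_[p] := by
  have hpZ := Nat.prime_iff_prime_int.mp hp.out
  have h0 : ∀ {d : ℤ}, ¬ (p : ℤ) ∣ d → d ≠ 0 := by rintro d hd rfl; exact hd (dvd_zero _)
  have h2' : ¬ (p : ℤ) ∣ 2 := by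
    intro hc
    have h1 : p ∣ 2 := by exact_mod_cast hc
    exact hp2 ((Nat.prime_dvd_prime_iff_eq hp.out Nat.prime_two).mp h1)
  have hF : ringChar (ZMod p) ≠ 2 := by rwa [ZMod.ringChar_zmod_n]
  have hz : ∀ {z : ℤ}, ¬ (p : ℤ) ∣ z → (z : ZMod p) ≠ 0 := by
    intro z hz
    rwa [Ne, ZMod.intCast_zmod_eq_zero_iff_dvd]
  have hab : (0 : ZMod p) ≠ ((n : ℤ) : ZMod p) := (hz hn).symm
  have hac : (0 : ZMod p) ≠ ((17 * n : ℤ) : ZMod p) :=
    (hz (fun hc => (hpZ.dvd_or_dvd hc).elim h17 hn)).symm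
  have hbc : ((n : ℤ) : ZMod p) ≠ ((17 * n : ℤ) : ZMod p) := by
    intro hc
    have h1 : ((16 * n : ℤ) : ZMod p) = 0 := by
      push_cast at hc ⊢
      linear_combination -hc
    rw [ZMod.intCast_zmod_eq_zero_iff_dvd] at h1
    have h2 : (16 : ℤ) * n = 2 * (2 * (2 * (2 * n))) := by ring
    rw [h2] at h1
    rcases hpZ.dvd_or_dvd h1 with h | h
    · exact h2' h
    rcases hpZ.dvd_or_dvd h with h | h
    · exact h2' h
    rcases hpZ.dvd_or_dvd h with h | h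
    · exact h2' h
    rcases hpZ.dvd_or_dvd h with h | h
    · exact h2' h
    · exact hn h
  have hprod : legendreSym p d₁ * legendreSym p d₂ * legendreSym p d₃ = 1 := by
    rw [← legendreSym.mul, ← legendreSym.mul, hw]
    apply legendreSym.sq_one' p
    apply hz
    intro hc
    have h5 : (p : ℤ) ∣ d₁ * d₂ * d₃ := by rw [hw]; exact dvd_pow hc two_ne_zero
    rcases hpZ.dvd_or_dvd h5 with h | h
    · exact (hpZ.dvd_or_dvd h).elim h₁ h₂
    · exact h₃ h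
  have l1 := legendre_ne_zero h₁
  have l2 := legendre_ne_zero h₂
  have l3 := legendre_ne_zero h₃
  have key : ∀ {z d : ℤ}, ¬ (p : ℤ) ∣ d → ((z : ZMod p) = 0 → z = 0) →
      ((z : ZMod p) = 0 ∨ quadraticChar (ZMod p) z = legendreSym p d) →
      (z * d = 0 ∨ lg p (z * d) = 0 ∧ ¬ (p : ℤ) ∣ z * d) := by
    intro z d hd hz0 h
    by_cases hzp : (z : ZMod p) = 0
    · left; rw [hz0 hzp, zero_mul]
    · right
      have h6 := h.resolve_left hzp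
      rw [← legendre_eq_quadraticChar] at h6
      have hzd : ¬ (p : ℤ) ∣ z := by rwa [ZMod.intCast_zmod_eq_zero_iff_dvd] at hzp
      refine ⟨lg_eq_zero ?_, fun hc => (hpZ.dvd_or_dvd hc).elim hzd hd⟩
      rw [legendreSym.mul, h6]
      rcases legendre_ne_zero hd with h7 | h7 <;> rw [h7] <;> norm_num
  rcases exists_point hF hab hac hbc l1 l2 l3 hprod with ⟨g1, g2, -⟩ | ⟨u, g1, g2, g3⟩
  · obtain ⟨t₁, f1⟩ := int_sq_of_legendre hp2 g1
    obtain ⟨t₂, f2⟩ := int_sq_of_legendre hp2 g2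
    exact locCond_of_sq (h0 h₁) (h0 h₂) hw f1 f2
  · -- choose the integer
    obtain ⟨U, hU, q1, q2, q3⟩ : ∃ U : ℤ, (U : ZMod p) = u ∧ ((U : ZMod p) = 0 → U = 0) ∧
        (((U + n : ℤ) : ZMod p) = 0 → U + n = 0) ∧
        (((U + 17 * n : ℤ) : ZMod p) = 0 → U + 17 * n = 0) := by
      by_cases c1 : u = 0
      · refine ⟨0, by rw [c1]; simp, fun _ => rfl, ?_, ?_⟩
        · intro hc
          exact absurd (by simpa using hc) hab.symm
        · intro hc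
          exact absurd (by simpa using hc) hac.symm
      · by_cases c2 : u + n = 0
        · refine ⟨-n, ?_, ?_, ?_, ?_⟩
          · push_cast; linear_combination -c2
          · intro hc
            exfalso; apply hab
            push_cast at hc
            linear_combination hc
          · intro _; ring
          · intro hc
            exfalso; apply hbc
            push_cast at hc ⊢
            linear_combination -hc
        · by_cases c3 : u + (17 * n : ℤ) = 0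
          · refine ⟨-(17 * n), ?_, ?_, ?_, ?_⟩
            · push_cast at c3 ⊢; linear_combination -c3
            · intro hc
              exfalso; apply hac
              push_cast at hc ⊢
              linear_combination hc
            · intro hc
              exfalso; apply hbc
              push_cast at hc ⊢
              linear_combination hc
            · intro _; ring
          · refine ⟨u.val, by simp, ?_, ?_, ?_⟩
            · intro hc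
              exact absurd (by simpa using hc) c1
            · intro hc
              exact absurd (by simpa using hc) c2
            · intro hc
              exact absurd (by simpa using hc) c3
    have hU' : u = ((U : ℤ) : ZMod p) := hU.symm
    have g1' : ((U : ℤ) : ZMod p) = 0 ∨ quadraticChar (ZMod p) ((U : ℤ) : ZMod p) =
        legendreSym p d₁ := by
      rw [hU', add_zero] at g1; exact g1
    have g2' : ((U + n : ℤ) : ZMod p) = 0 ∨ quadraticChar (ZMod p) ((U + n : ℤ) : ZMod p) =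
        legendreSym p d₂ := by
      rw [hU'] at g2; rw [Int.cast_add]; exact g2
    have g3' : ((U + 17 * n : ℤ) : ZMod p) = 0 ∨
        quadraticChar (ZMod p) ((U + 17 * n : ℤ) : ZMod p) = legendreSym p d₃ := by
      rw [hU'] at g3; rw [Int.cast_add]; exact g3
    have m1 := key h₁ q1 g1'
    have m2 := key h₂ q2 g2'
    have m3 := key h₃ q3 g3'
    -- `(U + 17 n) d₁ d₂ d₃² = (U + 17 n) d₃ w²`
    obtain ⟨r₁, f1⟩ := sq_of_leg hp2 (z := U * d₁) 1 (by ring) m1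
    obtain ⟨r₂, f2⟩ := sq_of_leg hp2 (z := (U + n) * d₂) 1 (by ring) m2
    obtain ⟨r₃, f3⟩ := sq_of_leg hp2 (z := (U + 17 * n) * d₃) 1 (by ring) m3
    push_cast at f1 f2 f3
    have k3 : (d₃ : ℚ_[p]) ≠ 0 := Int.cast_ne_zero.mpr (h0 h₃)
    have hwK : (d₁ : ℚ_[p]) * d₂ * d₃ = (w : ℚ_[p]) ^ 2 := by exact_mod_cast hw
    refine locCond_of (h0 h₁) (h0 h₂) (h0 h₃) hw (r₃ := r₃ * w / d₃) f1 f2 ?_
    rw [div_pow, mul_pow, ← f3, ← hwK]
    field_simp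

/-- primes dividing `n` -/
theorem locCond_bad {n : ℕ} (H : HypB n) {a₁ a₂ : ℕ} {d₃ w : ℤ} (ha₁ : a₁ ∣ n) (ha₂ : a₂ ∣ n)
    (hep : ep a₁ = 0) (h₃ : d₃ ≠ 0) (hw : (a₁ : ℤ) * a₂ * d₃ = w ^ 2) (hpn : p ∣ n)
    (h : LL n 0 a₁ a₂ p) :
    LocCond (5 * (n : ℤ) / 4) (n : ℤ) (-3 * (n : ℤ)) a₁ a₂ d₃ ℚ_[p] := by
  have hpZ := Nat.prime_iff_prime_int.mp hp.out
  have hp2 := H.ne_two hpn
  have hn1 : (a₁ : ℤ) ≠ 0 := by exact_mod_cast (H.sqf.squarefree_of_dvd ha₁).ne_zero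
  have hn2 : (a₂ : ℤ) ≠ 0 := by exact_mod_cast (H.sqf.squarefree_of_dvd ha₂).ne_zero
  have hu1 : ¬ (p : ℤ) ∣ 1 := fun hc => hpZ.not_isUnit (isUnit_of_dvd_one hc)
  have hum1 : ¬ (p : ℤ) ∣ -1 := fun hc => hu1 ((Int.dvd_neg).mp hc)
  have h17 := H.not_dvd_17 hp.out hpn
  have hab : ∀ {a : ℕ}, a ∣ n → a * (n / a) = n := fun h => Nat.mul_div_cancel' h
  have habZ : ∀ {a : ℕ}, a ∣ n → (n : ℤ) = a * ((n / a : ℕ) : ℤ) := by
    intro a ha
    conv_lhs => rw [← hab ha]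
    push_cast; ring
  have hcof : ∀ {a : ℕ}, a ∣ n → p ∣ a → ¬ (p : ℤ) ∣ ((n / a : ℕ) : ℤ) := by
    intro a ha hpa hc
    have h1 : p ∣ n / a := by exact_mod_cast hc
    have : p * p ∣ n := by rw [← hab ha]; exact Nat.mul_dvd_mul hpa h1
    exact hp.out.not_isUnit (H.sqf p this)
  have hZ : ∀ {a : ℕ}, ¬ p ∣ a → ¬ (p : ℤ) ∣ (a : ℤ) := by
    intro a ha; rwa [Int.natCast_dvd_natCast]
  have two : ∀ z : ZMod 2, z + z = 0 := CharTwo.add_self_eq_zero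
  obtain ⟨L1, L2⟩ := h
  rw [hep] at L1 L2
  rw [H.ep_div ha₁, hep] at L1
  rw [H.ep_div ha₂] at L2
  have lm : lg p (-1) = eP p := lg_neg_one hp2
  have l17 : lg p 17 = sP p := lg_17 hp2
  have mulu : ∀ {x y : ℤ}, ¬ (p : ℤ) ∣ x → ¬ (p : ℤ) ∣ y → ¬ (p : ℤ) ∣ x * y :=
    fun hx hy hc => (hpZ.dvd_or_dvd hc).elim hx hy
  by_cases c1 : p ∣ a₁ <;> by_cases c2 : p ∣ a₂
  · have i1 : ind a₁ p = 1 := if_pos c1
    have i2 : ind a₂ p = 1 := if_pos c2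
    rw [if_pos c1, i2] at L1
    rw [if_pos c2, i1, i2] at L2
    have u1 := hcof ha₁ c1
    have u2 := hcof ha₂ c2
    refine locCond_odd hp2 hn1 hn2 h₃ hw (-(17 * n)) a₁ (4 * a₂) 0
      (z₁ := (-1) * (17 * (n / a₁ : ℕ))) (z₂ := (-1) * (n / a₂ : ℕ)) (z₃ := 0) ?_ ?_ (by ring)
      (Or.inr ⟨?_, mulu hum1 (mulu h17 u1)⟩) (Or.inr ⟨?_, mulu hum1 u2⟩) (Or.inl rfl)
    · rw [habZ ha₁]; ring
    · rw [habZ ha₂]; ring
    · rw [lg_mul hum1 (mulu h17 u1), lg_mul h17 u1, lm, l17]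
      linear_combination L1 + two (sP p)
    · rw [lg_mul hum1 u2, lm]
      linear_combination L2 + two (eP p)
  · have i1 : ind a₁ p = 1 := if_pos c1
    have i2 : ind a₂ p = 0 := if_neg c2
    rw [if_pos c1, i2] at L1
    rw [if_neg c2, i1, i2] at L2
    have u1 := hcof ha₁ c1
    refine locCond_odd hp2 hn1 hn2 h₃ hw (-n) a₁ 0 (4 * a₁)
      (z₁ := (-1) * (n / a₁ : ℕ)) (z₂ := 0) (z₃ := (n / a₁ : ℕ) * a₂) ?_ (by ring) ?_
      (Or.inr ⟨?_, mulu hum1 u1⟩) (Or.inl rfl) (Or.inr ⟨?_, mulu u1 (hZ c2)⟩)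
    · rw [habZ ha₁]; ring
    · rw [habZ ha₁]; ring
    · rw [lg_mul hum1 u1, lm]
      linear_combination L1
    · rw [lg_mul u1 (hZ c2)]
      linear_combination L1 + L2
  · have i1 : ind a₁ p = 0 := if_neg c1
    have i2 : ind a₂ p = 1 := if_pos c2
    rw [if_neg c1, i2] at L1
    rw [if_pos c2, i1, i2] at L2
    have u2 := hcof ha₂ c2
    refine locCond_odd hp2 hn1 hn2 h₃ hw 0 0 a₂ a₂
      (z₁ := 0) (z₂ := (n / a₂ : ℕ)) (z₃ := 17 * (a₁ * (n / a₂ : ℕ))) (by ring) ?_ ?_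
      (Or.inl rfl) (Or.inr ⟨?_, u2⟩) (Or.inr ⟨?_, mulu h17 (mulu (hZ c1) u2)⟩)
    · rw [habZ ha₂]; ring
    · rw [habZ ha₂]; ring
    · linear_combination L2
    · rw [lg_mul h17 (mulu (hZ c1) u2), lg_mul (hZ c1) u2, l17]
      linear_combination L1 + L2 + two (sP p)
  · have i1 : ind a₁ p = 0 := if_neg c1
    have i2 : ind a₂ p = 0 := if_neg c2
    rw [if_neg c1, i2] at L1
    rw [if_neg c2, i1, i2] at L2
    have k1 : lg p a₁ = 0 := by linear_combination L1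
    have k2 : lg p a₂ = 0 := by linear_combination L2
    obtain ⟨t₁, f1⟩ := int_sq_of_legendre hp2 ((lg_eq_zero_iff (hZ c1)).mp k1)
    obtain ⟨t₂, f2⟩ := int_sq_of_legendre hp2 ((lg_eq_zero_iff (hZ c2)).mp k2)
    exact locCond_of_sq hn1 hn2 hw f1 f2

/-- the prime 17 -/
theorem locCond_seventeen {n : ℕ} [h17f : Fact (Nat.Prime 17)] (H : HypB n) {a₁ a₂ : ℕ}
    {d₃ w : ℤ} (ha₁ : a₁ ∣ n) (ha₂ : a₂ ∣ n)
    (h₃ : d₃ ≠ 0) (hw : (a₁ : ℤ) * a₂ * d₃ = w ^ 2) (h2 : legendreSym 17 a₂ = 1) :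
    LocCond (5 * (n : ℤ) / 4) (n : ℤ) (-3 * (n : ℤ)) a₁ a₂ d₃ ℚ_[17] := by
  have hpZ := Nat.prime_iff_prime_int.mp h17f.out
  have h172 : (17 : ℕ) ≠ 2 := by norm_num
  have hn1 : (a₁ : ℤ) ≠ 0 := by exact_mod_cast (H.sqf.squarefree_of_dvd ha₁).ne_zero
  have hn2 : (a₂ : ℤ) ≠ 0 := by exact_mod_cast (H.sqf.squarefree_of_dvd ha₂).ne_zero
  have hu : ∀ {a : ℕ}, a ∣ n → ¬ ((17 : ℕ) : ℤ) ∣ a := by
    intro a ha hc
    rw [Int.natCast_dvd_natCast] at hc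
    exact H.not17 (hc.trans ha)
  rcases legendre_ne_zero (hu ha₁) with h1 | h1
  · obtain ⟨t₁, f1⟩ := int_sq_of_legendre h172 h1
    obtain ⟨t₂, f2⟩ := int_sq_of_legendre h172 h2
    exact locCond_of_sq hn1 hn2 hw f1 f2
  · have hm1 : legendreSym 17 (-1) = 1 := by
      rw [legendreSym.at_neg_one (by norm_num)]; decide
    have un := hu (dvd_refl n)
    have u1 := hu ha₁
    have u2 := hu ha₂
    have um : ¬ ((17 : ℕ) : ℤ) ∣ -1 := by norm_num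
    have mulu : ∀ {x y : ℤ}, ¬ ((17 : ℕ) : ℤ) ∣ x → ¬ ((17 : ℕ) : ℤ) ∣ y →
      ¬ ((17 : ℕ) : ℤ) ∣ x * y := fun hx hy hc => (hpZ.dvd_or_dvd hc).elim hx hy
    refine locCond_odd h172 hn1 hn2 h₃ hw (-n) 1 0 4
      (z₁ := (-1) * (n * a₁)) (z₂ := 0) (z₃ := n * (a₁ * a₂)) (by ring) (by ring) (by ring)
      (Or.inr ⟨lg_eq_zero ?_, mulu um (mulu un u1)⟩) (Or.inl rfl)
      (Or.inr ⟨lg_eq_zero ?_, mulu un (mulu u1 u2)⟩)
    · rw [legendreSym.mul, legendreSym.mul, hm1, H.res, h1]; norm_num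
    · rw [legendreSym.mul, legendreSym.mul, h1, h2, H.res]; norm_num

end odd

/-! ### the prime 2 -/

theorem sq_two {z : ℤ} (hz : z % 8 = 1) : ∃ r : ℚ_[2], (z : ℚ_[2]) = r ^ 2 := by
  obtain ⟨k, hk⟩ : ∃ k, z = 8 * k + 1 := ⟨z / 8, by omega⟩
  have h2 : ‖(2 : ℤ_[2])‖ = 1 / 2 := by
    have := PadicInt.norm_p (p := 2)
    push_cast at this
    rw [this]; norm_num
  have h8 : ‖(8 : ℤ_[2])‖ = 1 / 8 := by
    have : (8 : ℤ_[2]) = 2 ^ 3 := by norm_num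
    rw [this, norm_pow, h2]; norm_num
  have hnorm : ‖(X ^ 2 - C (z : ℤ_[2]) : ℤ_[2][X]).aeval (1 : ℤ_[2])‖ <
      ‖(X ^ 2 - C (z : ℤ_[2]) : ℤ_[2][X]).derivative.aeval (1 : ℤ_[2])‖ ^ 2 := by
    have e1 : (X ^ 2 - C (z : ℤ_[2]) : ℤ_[2][X]).aeval (1 : ℤ_[2]) = -(8 * k) := by
      simp only [map_sub, map_pow, aeval_X, aeval_C, one_pow, Algebra.algebraMap_self,
        RingHom.id_apply]
      rw [hk]; push_cast; ring
    have e2 : (X ^ 2 - C (z : ℤ_[2]) : ℤ_[2][X]).derivative.aeval (1 : ℤ_[2]) = 2 := by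
      rw [derivative_sub, derivative_X_pow, derivative_C, sub_zero]
      simp
    rw [e1, e2, norm_neg, norm_mul, h8, h2]
    have := PadicInt.norm_le_one (k : ℤ_[2])
    have : (1 / 8 : ℝ) * ‖(k : ℤ_[2])‖ ≤ 1 / 8 := by linarith
    refine lt_of_le_of_lt this (by norm_num)
  obtain ⟨x, hx, -⟩ := hensels_lemma hnorm
  simp only [map_sub, map_pow, aeval_X, aeval_C, Algebra.algebraMap_self, RingHom.id_apply] at hx
  refine ⟨x, ?_⟩
  have h3 : (z : ℤ_[2]) = x ^ 2 := by linear_combination -hx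
  have h4 := congrArg (fun t : ℤ_[2] => (t : ℚ_[2])) h3
  simpa using h4

theorem locCond_two_aux {n d₁ d₂ d₃ w : ℤ} (h₁ : d₁ ≠ 0) (h₂ : d₂ ≠ 0) (h₃ : d₃ ≠ 0)
    (hw : d₁ * d₂ * d₃ = w ^ 2) (U c₁ c₂ c₃ : ℚ_[2]) {z₁ z₂ z₃ : ℤ}
    (e1 : U * d₁ = c₁ ^ 2 * z₁) (e2 : (U + n) * d₂ = c₂ ^ 2 * z₂)
    (e3 : (U + 17 * n) * (d₁ * d₂) = c₃ ^ 2 * z₃) (g1 : z₁ % 8 = 1) (g2 : z₂ % 8 = 1)
    (g3 : z₃ % 8 = 1) : LocCond (5 * n / 4) n (-3 * n) d₁ d₂ d₃ ℚ_[2] := by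
  obtain ⟨r₁, f1⟩ := sq_two g1
  obtain ⟨r₂, f2⟩ := sq_two g2
  obtain ⟨r₃, f3⟩ := sq_two g3
  refine locCond_of h₁ h₂ h₃ hw (U := U) (r₁ := c₁ * r₁) (r₂ := c₂ * r₂) (r₃ := c₃ * r₃)
    ?_ ?_ ?_
  · rw [e1, f1]; ring
  · rw [e2, f2]; ring
  · rw [e3, f3]; ring

theorem mod8_mul {x y a b c : ℤ} (hx : x % 8 = a) (hy : y % 8 = b) (h : a * b % 8 = c) :
    x * y % 8 = c := by
  rw [Int.mul_emod, hx, hy, h]

theorem locCond_two {n d₁ d₂ d₃ w : ℤ} (hn : n % 4 = 3) (h₁ : d₁ % 4 = 1) (h₂ : d₂ % 2 = 1)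
    (h₃ : d₃ ≠ 0) (hw : d₁ * d₂ * d₃ = w ^ 2) :
    LocCond (5 * n / 4) n (-3 * n) d₁ d₂ d₃ ℚ_[2] := by
  have k1 : d₁ ≠ 0 := by rintro rfl; norm_num at h₁
  have k2 : d₂ ≠ 0 := by rintro rfl; norm_num at h₂
  have hd1 : d₁ % 8 = 1 ∨ d₁ % 8 = 5 := by omega
  have hn8 : n % 8 = 3 ∨ n % 8 = 7 := by omega
  have hd2 : d₂ % 8 = 1 ∨ d₂ % 8 = 3 ∨ d₂ % 8 = 5 ∨ d₂ % 8 = 7 := by omega
  rcases hd1 with a1 | a1
  · rcases hd2 with b1 | b1 | b1 | b1
    · -- `U = 1/16`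
      have q : (1 + 16 * n) % 8 = 1 := by omega
      have q' : (1 + 272 * n) % 8 = 1 := by omega
      refine locCond_two_aux k1 k2 h₃ hw (1 / 16) (1 / 4) (1 / 4) (1 / 4) (z₁ := d₁)
        (z₂ := (1 + 16 * n) * d₂) (z₃ := (1 + 272 * n) * (d₁ * d₂)) (by ring)
        (by push_cast; ring) (by push_cast; ring) a1 (mod8_mul q b1 (by norm_num))
        (mod8_mul q' (mod8_mul a1 b1 rfl) (by norm_num))
    · rcases hn8 with c1 | c1
      · have q : (16 + n) % 8 = 3 := by omega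
        have q' : (16 + 17 * n) % 8 = 3 := by omega
        refine locCond_two_aux k1 k2 h₃ hw 16 4 1 1 (z₁ := d₁)
          (z₂ := (16 + n) * d₂) (z₃ := (16 + 17 * n) * (d₁ * d₂)) (by ring)
          (by push_cast; ring) (by push_cast; ring) a1 (mod8_mul q b1 (by norm_num))
          (mod8_mul q' (mod8_mul a1 b1 rfl) (by norm_num))
      · have q : (4 + n) % 8 = 3 := by omega
        have q' : (4 + 17 * n) % 8 = 3 := by omega
        refine locCond_two_aux k1 k2 h₃ hw 4 2 1 1 (z₁ := d₁)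
          (z₂ := (4 + n) * d₂) (z₃ := (4 + 17 * n) * (d₁ * d₂)) (by ring)
          (by push_cast; ring) (by push_cast; ring) a1 (mod8_mul q b1 (by norm_num))
          (mod8_mul q' (mod8_mul a1 b1 rfl) (by norm_num))
    · have q : (1 + 4 * n) % 8 = 5 := by omega
      have q' : (1 + 68 * n) % 8 = 5 := by omega
      refine locCond_two_aux k1 k2 h₃ hw (1 / 4) (1 / 2) (1 / 2) (1 / 2) (z₁ := d₁)
        (z₂ := (1 + 4 * n) * d₂) (z₃ := (1 + 68 * n) * (d₁ * d₂)) (by ring)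
        (by push_cast; ring) (by push_cast; ring) a1 (mod8_mul q b1 (by norm_num))
        (mod8_mul q' (mod8_mul a1 b1 rfl) (by norm_num))
    · rcases hn8 with c1 | c1
      · have q : (4 + n) % 8 = 7 := by omega
        have q' : (4 + 17 * n) % 8 = 7 := by omega
        refine locCond_two_aux k1 k2 h₃ hw 4 2 1 1 (z₁ := d₁)
          (z₂ := (4 + n) * d₂) (z₃ := (4 + 17 * n) * (d₁ * d₂)) (by ring)
          (by push_cast; ring) (by push_cast; ring) a1 (mod8_mul q b1 (by norm_num))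
          (mod8_mul q' (mod8_mul a1 b1 rfl) (by norm_num))
      · have q : (16 + n) % 8 = 7 := by omega
        have q' : (16 + 17 * n) % 8 = 7 := by omega
        refine locCond_two_aux k1 k2 h₃ hw 16 4 1 1 (z₁ := d₁)
          (z₂ := (16 + n) * d₂) (z₃ := (16 + 17 * n) * (d₁ * d₂)) (by ring)
          (by push_cast; ring) (by push_cast; ring) a1 (mod8_mul q b1 (by norm_num))
          (mod8_mul q' (mod8_mul a1 b1 rfl) (by norm_num))
  · rcases hn8 with c1 | c1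
    · rcases hd2 with b1 | b1 | b1 | b1
      · have q : (320 - 17 * n) % 8 = 5 := by omega
        have q' : (20 - n) % 8 = 1 := by omega
        refine locCond_two_aux k1 k2 h₃ hw (320 - 17 * n) 1 4 8 (z₁ := (320 - 17 * n) * d₁)
          (z₂ := (20 - n) * d₂) (z₃ := 5 * (d₁ * d₂)) (by push_cast; ring)
          (by push_cast; ring) (by push_cast; ring) (mod8_mul q a1 (by norm_num))
          (mod8_mul q' b1 (by norm_num))
          (mod8_mul (a := 5) (by norm_num) (mod8_mul a1 b1 rfl) (by norm_num))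
      · have q : (192 - n) % 8 = 5 := by omega
        have q' : (12 + n) % 8 = 7 := by omega
        refine locCond_two_aux k1 k2 h₃ hw (192 - n) 1 8 4 (z₁ := (192 - n) * d₁)
          (z₂ := 3 * d₂) (z₃ := (12 + n) * (d₁ * d₂)) (by push_cast; ring)
          (by push_cast; ring) (by push_cast; ring) (mod8_mul q a1 (by norm_num))
          (mod8_mul (a := 3) (by norm_num) b1 (by norm_num))
          (mod8_mul q' (mod8_mul a1 b1 rfl) (by norm_num))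
      · have q : (256 - 17 * n) % 8 = 5 := by omega
        have q' : (16 - n) % 8 = 5 := by omega
        refine locCond_two_aux k1 k2 h₃ hw (256 - 17 * n) 1 4 16 (z₁ := (256 - 17 * n) * d₁)
          (z₂ := (16 - n) * d₂) (z₃ := d₁ * d₂) (by push_cast; ring)
          (by push_cast; ring) (by push_cast; ring) (mod8_mul q a1 (by norm_num))
          (mod8_mul q' b1 (by norm_num)) (mod8_mul a1 b1 (by norm_num))
      · have q : (1792 - n) % 8 = 5 := by omega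
        have q' : (112 + n) % 8 = 3 := by omega
        refine locCond_two_aux k1 k2 h₃ hw (1792 - n) 1 16 4 (z₁ := (1792 - n) * d₁)
          (z₂ := 7 * d₂) (z₃ := (112 + n) * (d₁ * d₂)) (by push_cast; ring)
          (by push_cast; ring) (by push_cast; ring) (mod8_mul q a1 (by norm_num))
          (mod8_mul (a := 7) (by norm_num) b1 (by norm_num))
          (mod8_mul q' (mod8_mul a1 b1 rfl) (by norm_num))
    · have q : (4 * d₂ - n) % 8 = 5 := by omega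
      have hsq : d₂ * d₂ % 8 = 1 := by
        rcases hd2 with b1 | b1 | b1 | b1 <;> exact mod8_mul b1 b1 (by norm_num)
      have q' : ((d₂ + 4 * n) * d₂) % 8 = 5 := by
        rcases hd2 with b1 | b1 | b1 | b1
        · exact mod8_mul (a := 5) (by omega) b1 (by norm_num)
        · exact mod8_mul (a := 7) (by omega) b1 (by norm_num)
        · exact mod8_mul (a := 1) (by omega) b1 (by norm_num)
        · exact mod8_mul (a := 3) (by omega) b1 (by norm_num)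
      refine locCond_two_aux k1 k2 h₃ hw (4 * d₂ - n) 1 2 2 (z₁ := (4 * d₂ - n) * d₁)
        (z₂ := d₂ * d₂) (z₃ := d₁ * ((d₂ + 4 * n) * d₂)) (by push_cast; ring)
        (by push_cast; ring) (by push_cast; ring) (mod8_mul q a1 (by norm_num)) hsq
        (mod8_mul a1 q' (by norm_num))

/-- the real place -/
theorem locCond_real {e₁ e₂ e₃ : ℚ} {d₁ d₂ d₃ w : ℤ} (h₁ : 0 < d₁) (h₂ : 0 < d₂)
    (hw : d₁ * d₂ * d₃ = w ^ 2) : LocCond e₁ e₂ e₃ d₁ d₂ d₃ ℝ := by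
  refine locCond_of_sq h₁.ne' h₂.ne' hw (t₁ := Real.sqrt d₁) (t₂ := Real.sqrt d₂) ?_ ?_
  · exact Real.sq_sqrt (by exact_mod_cast h₁.le)
  · exact Real.sq_sqrt (by exact_mod_cast h₂.le)

end Vale.Agent.P014.H71
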