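import Vale.Agent.P014.H71.Sel5

/-!
# The converse: if the 2-Selmer group is minimal then `det N(n) = 1`
-/

namespace Vale.Agent.P014.H71

theorem HypN.toB {n : ℕ} (H : HypN n) : HypB n := ⟨H.sqf, H.n4, H.not17, H.res⟩

theorem sum_erase_swap {I : Type*} [DecidableEq I] (T : Finset I) (f : I → I → ZMod 2) :
    ∑ p ∈ T, ∑ q ∈ T.erase p, f p q = ∑ p ∈ T, ∑ q ∈ T.erase p, f q p := by
  rw [Finset.sum_comm' (t' := T) (s' := fun q => T.erase q)]
  intro x y
  simp only [Finset.mem_erase]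
  constructor
  · rintro ⟨h1, h2, h3⟩; exact ⟨⟨h2.symm, h1⟩, h3⟩
  · rintro ⟨⟨h1, h2⟩, h3⟩; exact ⟨h2, h1.symm, h3⟩

theorem sum_eP_erase {n : ℕ} (hn : Squarefree n) (hn4 : n % 4 = 3) {p : ℕ}
    (hp : p ∈ n.primeFactors) : ∑ q ∈ n.primeFactors.erase p, eP q = 1 + eP p := by
  have h1 := sum_eP_ind hn (by omega) (dvd_refl n)
  have h2 : ∑ q ∈ n.primeFactors, eP q * ind n q = ∑ q ∈ n.primeFactors, eP q := by
    refine Finset.sum_congr rfl fun q hq => ?_
    rw [ind, if_pos (Nat.dvd_of_mem_primeFactors hq), mul_one]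
  rw [h2, ← Finset.add_sum_erase _ _ hp] at h1
  have h3 : ep n = 1 := by simp [ep, hn4]
  rw [h3] at h1
  have two : ∀ z : ZMod 2, z + z = 0 := CharTwo.add_self_eq_zero
  linear_combination h1 - two (eP p)

/-- kernel vectors satisfy the local conditions -/
theorem LL_of_kernel {n : ℕ} (H : HypB n) {a₁ a₂ : ℕ} (ha₁ : a₁ ∣ n) (ha₂ : a₂ ∣ n)
    (h : (NP n).mulVec (Sum.elim (fun q => ind a₂ q) (fun q => ind a₁ q)) = 0) :
    ep a₁ = 0 ∧ (∑ q ∈ n.primeFactors, sP q * ind a₂ q = 0) ∧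
      ∀ (p : ℕ) [Fact p.Prime], p ∣ n → LL n 0 a₁ a₂ p := by
  have two : ∀ z : ZMod 2, z + z = 0 := CharTwo.add_self_eq_zero
  have hn2 : n % 2 = 1 := by have := H.n4; omega
  rw [NP_mulVec (fun q => ind a₁ q) (fun q => ind a₂ q)] at h
  have h1 : ∀ p ∈ n.primeFactors, sP p * ind a₂ p +
      ∑ q ∈ n.primeFactors.erase p, wP p q * (ind a₁ p + ind a₁ q) = 0 := by
    intro p hp
    exact congrFun h (Sum.inl ⟨p, hp⟩)
  have h2 : ∀ p ∈ n.primeFactors,
      ∑ q ∈ n.primeFactors.erase p, (wP p q * ind a₂ p + wP q p * ind a₂ q) +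
        eP p * ind a₁ p = 0 := by
    intro p hp
    exact congrFun h (Sum.inr ⟨p, hp⟩)
  have hep : ep a₁ = 0 := by
    rw [← sum_eP_ind H.sqf hn2 ha₁]
    have h3 : ∑ p ∈ n.primeFactors, eP p * ind a₁ p =
        ∑ p ∈ n.primeFactors, ∑ q ∈ n.primeFactors.erase p,
          (wP p q * ind a₂ p + wP q p * ind a₂ q) := by
      refine Finset.sum_congr rfl fun p hp => ?_
      exact (CharTwo.add_eq_zero.mp (h2 p hp)).symm
    rw [h3]
    simp only [Finset.sum_add_distrib]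
    rw [sum_erase_swap n.primeFactors (fun p q => wP q p * ind a₂ q)]
    exact two _
  refine ⟨hep, ?_, ?_⟩
  · have h3 : ∑ p ∈ n.primeFactors, sP p * ind a₂ p =
        ∑ p ∈ n.primeFactors, ∑ q ∈ n.primeFactors.erase p,
          (wP p q * ind a₁ p + wP p q * ind a₁ q) := by
      refine Finset.sum_congr rfl fun p hp => ?_
      rw [CharTwo.add_eq_zero.mp (h1 p hp)]
      refine Finset.sum_congr rfl fun q _ => ?_
      ring
    rw [h3]
    have h4 : ∑ p ∈ n.primeFactors, ∑ q ∈ n.primeFactors.erase p,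
          (wP p q * ind a₁ p + wP p q * ind a₁ q) =
        ∑ p ∈ n.primeFactors, ∑ q ∈ n.primeFactors.erase p,
          (wP p q * ind a₁ p + wP q p * ind a₁ p) := by
      simp only [Finset.sum_add_distrib]
      rw [sum_erase_swap n.primeFactors (fun p q => wP p q * ind a₁ q)]
    rw [h4]
    apply Finset.sum_eq_zero
    intro p hp
    have h5 : ∑ q ∈ n.primeFactors.erase p, (wP p q * ind a₁ p + wP q p * ind a₁ p) =
        eP p * ind a₁ p * ∑ q ∈ n.primeFactors.erase p, eP q := by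
      rw [Finset.mul_sum]
      refine Finset.sum_congr rfl fun q hq => ?_
      rw [Finset.mem_erase] at hq
      rw [wP_recip hn2 hp hq.2 (Ne.symm hq.1)]
      linear_combination two (wP p q * ind a₁ p)
    rw [h5, sum_eP_erase H.sqf H.n4 hp]
    have h6 : eP p * (1 + eP p) = 0 := by
      unfold eP; split_ifs <;> decide
    linear_combination ind a₁ p * h6
  · intro p hpf hpn
    have hp : p ∈ n.primeFactors := Nat.mem_primeFactors.mpr ⟨hpf.out, hpn, H.n0⟩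
    refine ⟨?_, ?_⟩
    · rw [← lap_ind H.sqf ha₁ hpn (H.ne_two hpn) hn2]
      rw [add_zero]
      exact (CharTwo.add_eq_zero.mp (h1 p hp)).symm
    · rw [← lap_ind H.sqf ha₂ hpn (H.ne_two hpn) hn2]
      have h3 := sum_erase_transpose H.sqf H.n4 hp ha₂ 0
      simp only [add_zero] at h3
      have h4 := h2 p hp
      rw [h3] at h4
      rw [hep]
      linear_combination h4 - two (eP p * (ep a₂ + ind a₂ p)) - two (eP p * ind a₁ p)

theorem legendre_17_of_sum {n a : ℕ} [Fact (Nat.Prime 17)] (H : HypB n) (ha : a ∣ n)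
    (h : ∑ q ∈ n.primeFactors, sP q * ind a q = 0) : legendreSym 17 a = 1 := by
  have hsa := H.sqf.squarefree_of_dvd ha
  have h17 : ¬ ((17 : ℕ) : ℤ) ∣ a := by
    intro hc
    rw [Int.natCast_dvd_natCast] at hc
    exact H.not17 (hc.trans ha)
  have h1 : ∑ q ∈ n.primeFactors, sP q * ind a q = ∑ q ∈ a.primeFactors, lg 17 q := by
    rw [← Finset.sum_subset (Nat.primeFactors_mono ha H.n0)]
    · refine Finset.sum_congr rfl fun q hq => ?_
      rw [ind, if_pos (Nat.dvd_of_mem_primeFactors hq), mul_one]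
      rfl
    · intro q hq hqa
      have : ¬ q ∣ a := by
        intro hc
        exact hqa (Nat.mem_primeFactors.mpr ⟨Nat.prime_of_mem_primeFactors hq, hc, hsa.ne_zero⟩)
      rw [ind, if_neg this, mul_zero]
  rw [h1, ← lg_prod] at h
  · have h2 : (∏ q ∈ a.primeFactors, (q : ℤ)) = a := by
      rw [← Nat.cast_prod, Nat.prod_primeFactors_of_squarefree hsa]
    rw [h2] at h
    exact (lg_eq_zero_iff h17).mp h
  · intro q hq hc
    rw [Int.natCast_dvd_natCast] at hc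
    exact H.not17 ((hc.trans (Nat.dvd_of_mem_primeFactors hq)).trans ha)

theorem exists_ind {n : ℕ} (X : n.primeFactors → ZMod 2) :
    ∃ a : ℕ, a ∣ n ∧ ∀ q : n.primeFactors, ind a q = X q := by
  classical
  set S : Finset ℕ := n.primeFactors.filter (fun q => ∃ h : q ∈ n.primeFactors, X ⟨q, h⟩ = 1)
    with hS
  have hSn : S ⊆ n.primeFactors := Finset.filter_subset _ _
  refine ⟨∏ q ∈ S, q, ?_, ?_⟩
  · exact (Finset.prod_dvd_prod_of_subset S n.primeFactors (fun q => q) hSn).trans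
      (Nat.prod_primeFactors_dvd n)
  · rintro ⟨q, hq⟩
    have hqp := Nat.prime_of_mem_primeFactors hq
    have h1 : q ∣ ∏ r ∈ S, r ↔ q ∈ S := by
      constructor
      · intro hd
        obtain ⟨r, hr, hqr⟩ := (hqp.prime.dvd_finsetProd_iff _).mp hd
        have hrp := Nat.prime_of_mem_primeFactors (hSn hr)
        have := (Nat.prime_dvd_prime_iff_eq hqp hrp).mp hqr
        rwa [this]
      · intro hd
        exact Finset.dvd_prod_of_mem (fun r => r) hd
    unfold ind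
    simp only [h1]
    by_cases hx : X ⟨q, hq⟩ = 1
    · rw [if_pos (by rw [hS, Finset.mem_filter]; exact ⟨hq, hq, hx⟩), hx]
    · rw [if_neg (by
        rw [hS, Finset.mem_filter]
        rintro ⟨-, h, h'⟩
        exact hx h')]
      have : ∀ z : ZMod 2, z ≠ 1 → z = 0 := by decide
      exact (this _ hx).symm

/-- all local conditions hold -/
theorem locCond_all {n : ℕ} (H : HypB n) {a₁ a₂ a₃ w : ℕ} (ha₁ : a₁ ∣ n) (ha₂ : a₂ ∣ n)
    (ha₃ : a₃ ∣ n) (hw : a₁ * a₂ * a₃ = w ^ 2) (hep : ep a₁ = 0)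
    (h17 : ∑ q ∈ n.primeFactors, sP q * ind a₂ q = 0)
    (hLL : ∀ (p : ℕ) [Fact p.Prime], p ∣ n → LL n 0 a₁ a₂ p) (p : ℕ) [hp : Fact p.Prime] :
    LocCond (5 * (n : ℤ) / 4) (n : ℤ) (-3 * (n : ℤ)) a₁ a₂ a₃ ℚ_[p] := by
  have hwZ : (a₁ : ℤ) * a₂ * a₃ = (w : ℤ) ^ 2 := by exact_mod_cast hw
  have h3 : (a₃ : ℤ) ≠ 0 := by exact_mod_cast (H.sqf.squarefree_of_dvd ha₃).ne_zero
  by_cases hpn : p ∣ n
  · exact locCond_bad H ha₁ ha₂ hep h3 hwZ hpn (hLL p hpn)
  · by_cases h2 : p = 2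
    · subst h2
      have o1 := H.odd_of_dvd ha₁
      have o2 := H.odd_of_dvd ha₂
      have h4 : ¬ a₁ % 4 = 3 := by
        intro hc
        rw [ep, if_pos hc] at hep
        exact one_ne_zero hep
      have := H.n4
      exact locCond_two (by omega) (by omega) (by omega) h3 hwZ
    · by_cases h17p : p = 17
      · subst h17p
        exact locCond_seventeen H ha₁ ha₂ h3 hwZ (legendre_17_of_sum H ha₂ h17)
      · have hu : ∀ {a : ℕ}, a ∣ n → ¬ (p : ℤ) ∣ a := by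
          intro a ha hc
          rw [Int.natCast_dvd_natCast] at hc
          exact hpn (hc.trans ha)
        refine locCond_good h2 hwZ (hu dvd_rfl) ?_ (hu ha₁) (hu ha₂) (hu ha₃)
        intro hc
        have h1 : p ∣ 17 := by exact_mod_cast hc
        exact h17p ((Nat.prime_dvd_prime_iff_eq hp.out (by norm_num)).mp h1)

/-- **If the 2-Selmer group is minimal then `det N(n) = 1`.** -/
theorem det_of_hypN {n : ℕ} (H : HypN n) : (NP n).det ≠ 0 := by
  intro hdet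
  have HB := H.toB
  obtain ⟨v, hv0, hv⟩ := Matrix.exists_mulVec_eq_zero_iff.mpr hdet
  obtain ⟨a₂, ha₂, hY⟩ := exists_ind (fun q => v (Sum.inl q))
  obtain ⟨a₁, ha₁, hX⟩ := exists_ind (fun q => v (Sum.inr q))
  have hv' : v = Sum.elim (fun q : n.primeFactors => ind a₂ q)
      (fun q : n.primeFactors => ind a₁ q) := by
    funext i
    rcases i with q | q
    · exact (hY q).symm
    · exact (hX q).symm
  rw [hv'] at hv
  obtain ⟨hep, h17, hLL⟩ := LL_of_kernel HB ha₁ ha₂ hv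
  have hs1 := H.sqf.squarefree_of_dvd ha₁
  have hs2 := H.sqf.squarefree_of_dvd ha₂
  -- the third number
  obtain ⟨g, b₁, b₂, hg, hb1, hb2, hco⟩ : ∃ g b₁ b₂ : ℕ, 0 < g ∧ a₁ = g * b₁ ∧ a₂ = g * b₂ ∧
      Nat.Coprime b₁ b₂ := by
    have hg : 0 < Nat.gcd a₁ a₂ := Nat.gcd_pos_of_pos_left _ (Nat.pos_of_ne_zero hs1.ne_zero)
    refine ⟨Nat.gcd a₁ a₂, a₁ / Nat.gcd a₁ a₂, a₂ / Nat.gcd a₁ a₂, hg,
      (Nat.mul_div_cancel' (Nat.gcd_dvd_left _ _)).symm,
      (Nat.mul_div_cancel' (Nat.gcd_dvd_right _ _)).symm, Nat.coprime_div_gcd_div_gcd hg⟩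
  have hd1 : b₁ ∣ n := (Dvd.intro_left g hb1.symm).trans ha₁
  have hd2 : b₂ ∣ n := (Dvd.intro_left g hb2.symm).trans ha₂
  have ha₃ : b₁ * b₂ ∣ n := Nat.Coprime.mul_dvd_of_dvd_of_dvd hco hd1 hd2
  have hw : a₁ * a₂ * (b₁ * b₂) = (g * b₁ * b₂) ^ 2 := by rw [hb1, hb2]; ring
  have hs3 := H.sqf.squarefree_of_dvd ha₃
  have hloc := fun (p : ℕ) (hp : Fact p.Prime) =>
    locCond_all HB ha₁ ha₂ ha₃ hw hep h17 hLL p (hp := hp)
  have hwZ : (a₁ : ℤ) * a₂ * ((b₁ * b₂ : ℕ) : ℤ) = ((g * b₁ * b₂ : ℕ) : ℤ) ^ 2 := by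
    exact_mod_cast hw
  have p1 : (0 : ℤ) < a₁ := by exact_mod_cast Nat.pos_of_ne_zero hs1.ne_zero
  have p2 : (0 : ℤ) < a₂ := by exact_mod_cast Nat.pos_of_ne_zero hs2.ne_zero
  have hn0 : (0 : ℚ) < n := by exact_mod_cast Nat.pos_of_ne_zero HB.n0
  have p1Q : (0 : ℚ) < a₁ := by exact_mod_cast p1
  rcases H.sel a₁ a₂ ((b₁ * b₂ : ℕ) : ℤ) (Int.squarefree_natCast.mpr hs1)
    (Int.squarefree_natCast.mpr hs2) (Int.squarefree_natCast.mpr hs3) ⟨_, hwZ⟩
    (locCond_real p1 p2 hwZ) (fun p hp => hloc p hp) with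
    ⟨g1, g2, -⟩ | ⟨r₂, r₃, -, g3⟩ | ⟨r₃, r₁, -, g1⟩ | ⟨r₁, r₂, g1, -⟩
  · -- trivial vector
    apply hv0
    have e1 : a₁ = 1 := by exact_mod_cast g1
    have e2 : a₂ = 1 := by exact_mod_cast g2
    rw [hv', e1, e2]
    have h1 : ∀ q : n.primeFactors, ind 1 q = 0 := by
      intro q
      rw [ind, if_neg]
      intro hc
      have := Nat.prime_of_mem_primeFactors q.2
      exact this.one_lt.ne' (Nat.dvd_one.mp hc)
    funext i
    rcases i with q | q
    · exact h1 q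
    · exact h1 q
  · -- `17 n = 4 d₃ r₃²`
    have h5 : (2 * r₃ * ((b₁ * b₂ : ℕ) : ℚ)) ^ 2 = ((17 * n * (b₁ * b₂) : ℕ) : ℤ) := by
      push_cast at g3 ⊢
      linear_combination (-4 : ℚ) * (b₁ * b₂) * g3
    obtain ⟨m, hm⟩ := int_of_sq_int h5
    have h17p : Prime (17 : ℤ) := by
      have := Nat.prime_iff_prime_int.mp (by norm_num : Nat.Prime 17)
      exact_mod_cast this
    have h6 : (17 : ℤ) ∣ m := by
      apply h17p.dvd_of_dvd_pow (n := 2)
      rw [← hm]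
      exact ⟨((n * (b₁ * b₂) : ℕ) : ℤ), by push_cast; ring⟩
    obtain ⟨m', rfl⟩ := h6
    have h7 : ((n * (b₁ * b₂) : ℕ) : ℤ) = 17 * m' ^ 2 := by
      have : (17 : ℤ) * ((n * (b₁ * b₂) : ℕ) : ℤ) = 17 * (17 * m' ^ 2) := by
        push_cast at hm ⊢
        linear_combination hm
      exact mul_left_cancel₀ (by norm_num) this
    have h8 : (17 : ℕ) ∣ n * (b₁ * b₂) := by
      have : (17 : ℤ) ∣ ((n * (b₁ * b₂) : ℕ) : ℤ) := ⟨m' ^ 2, h7⟩
      exact_mod_cast this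
    rcases (by norm_num : Nat.Prime 17).dvd_mul.mp h8 with h9 | h9
    · exact H.not17 h9
    · exact H.not17 (h9.trans ha₃)
  · have h5 : (0 : ℚ) ≤ (a₁ : ℤ) * r₁ ^ 2 := by push_cast; positivity
    rw [← g1] at h5
    push_cast at h5
    linarith
  · have h5 : (0 : ℚ) ≤ (a₁ : ℤ) * r₁ ^ 2 := by push_cast; positivity
    rw [← g1] at h5
    push_cast at h5
    linarith

/-- **The 2-Selmer group is minimal if and only if `det N(n) = 1`.** -/
theorem hypN_iff {n : ℕ} (H : HypB n) : HypN n ↔ (NP n).det ≠ 0 :=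
  ⟨det_of_hypN, hypN_of_det H⟩

end Vale.Agent.P014.H71
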