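import Vale.Agent.P014.H71.Sel6
import Vale.Agent.P014.H71.TorsOrd

/-!
# Triviality of the Selmer group from the triviality of `Sha[2]` and the finiteness of `E(ℚ)`
-/

namespace Vale.Agent.P014.H71

open WeierstrassCurve
open scoped Classical

section tors

variable {F : Type*} [Field F] {V : WeierstrassCurve F} {a₁ a₂ a₃ : F}

/-- the 2-torsion point with given signs -/
noncomputable def T3.ptSgn (h : T3 V a₁ a₂ a₃) (a b : ℤˣ) : V.toAffine.Point :=
  if a = 1 then (if b = 1 then 0 else h.T) else (if b = 1 then h.rot.T else h.rot.rot.T)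

theorem T3.ptSgn_spec (h : T3 V a₁ a₂ a₃) (a b : ℤˣ) :
    h.ptSgn a b + h.ptSgn a b = 0 ∧ h.sgn (h.ptSgn a b) = a ∧ h.rot.sgn (h.ptSgn a b) = b := by
  have b1 := h.rot.sgn_zero
  have b2 := h.rot.sgn_T1
  have b3 := h.rot.sgn_T2
  have b4 : h.rot.sgn h.T = -1 := h.rot.sgn_T3
  rcases Int.units_eq_one_or a with rfl | rfl <;> rcases Int.units_eq_one_or b with rfl | rfl
  · have e : h.ptSgn 1 1 = 0 := by simp [ptSgn]
    rw [e]
    exact ⟨add_zero 0, h.sgn_zero, b1⟩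
  · have e : h.ptSgn 1 (-1) = h.T := by simp [ptSgn]
    rw [e]
    exact ⟨h.two_T, h.sgn_T1, b4⟩
  · have e : h.ptSgn (-1) 1 = h.rot.T := by simp [ptSgn]
    rw [e]
    exact ⟨h.rot.two_T, h.sgn_T2, b2⟩
  · have e : h.ptSgn (-1) (-1) = h.rot.rot.T := by simp [ptSgn]
    rw [e]
    exact ⟨h.rot.rot.two_T, h.sgn_T3, b3⟩

end tors

/-- the quadratic character of `β` -/
noncomputable def chr (β : AlgebraicClosure ℚ) (σ : GQ) : ℤˣ := if σ β = β then 1 else -1

theorem chr_spec {β : AlgebraicClosure ℚ} {d : ℤ} (hβ : β ^ 2 = (d : AlgebraicClosure ℚ)) (σ : GQ) :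
    σ β = ((chr β σ : ℤ) : AlgebraicClosure ℚ) * β := by
  unfold chr
  split_ifs with h
  · rw [h]; simp
  · have h1 : (σ β) ^ 2 = β ^ 2 := by rw [← map_pow, hβ, map_intCast]
    rcases sq_eq_sq_iff_eq_or_eq_neg.mp h1 with h2 | h2
    · exact absurd h2 h
    · rw [h2]; simp

theorem unit_eq {K : Type*} [Field K] [Algebra ℚ K] {u v : ℤˣ} {β : K} (hβ : β ≠ 0)
    (h : ((u : ℤ) : K) * β = ((v : ℤ) : K) * β) : u = v := by
  have := algebraRat.charZero K
  have h1 := mul_right_cancel₀ hβ h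
  have h2 : (u : ℤ) = (v : ℤ) := by exact_mod_cast h1
  exact Units.ext h2

theorem chr_mul {β : AlgebraicClosure ℚ} {d : ℤ} (hβ : β ^ 2 = (d : AlgebraicClosure ℚ))
    (hβ0 : β ≠ 0) (σ τ : GQ) : chr β (σ * τ) = chr β σ * chr β τ := by
  apply unit_eq hβ0
  rw [← chr_spec hβ, AlgEquiv.mul_apply, chr_spec hβ τ, map_mul, map_intCast, chr_spec hβ σ]
  push_cast
  ring

theorem chr_lc (β : AlgebraicClosure ℚ) : IsLocallyConstant (chr β) :=
  (isLocallyConstant_apply β).comp (fun y => if y = β then (1 : ℤˣ) else -1)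

theorem unit_mul_three {K : Type*} [Field K] [Algebra ℚ K] {u v w : ℤˣ} {a b c : K} (ha : a ≠ 0)
    (hb : b ≠ 0) (hc : c ≠ 0)
    (h : ((u : ℤ) : K) * a * (((v : ℤ) : K) * b) * (((w : ℤ) : K) * c) = a * b * c) :
    u * v * w = 1 := by
  apply unit_eq (K := K) (β := a * b * c) (mul_ne_zero (mul_ne_zero ha hb) hc)
  push_cast
  linear_combination h

variable {W : WeierstrassCurve ℚ} {e₁ e₂ e₃ : ℚ}

/-- one sign of the difference of two halves -/
theorem sgn_loc {K : Type} [Field K] [Algebra ℚ K] (h : T3 W e₁ e₂ e₃)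
    {R : (W⁄(AlgebraicClosure K)).toAffine.Point} (hR2 : R + R ≠ 0)
    (τ : AlgebraicClosure K ≃ₐ[K] AlgebraicClosure K)
    (ht : (Affine.Point.map (W' := W) (τ : AlgebraicClosure K →ₐ[K] AlgebraicClosure K) R - R) +
      (Affine.Point.map (W' := W) (τ : AlgebraicClosure K →ₐ[K] AlgebraicClosure K) R - R) = 0)
    {r : AlgebraicClosure K} (hr : r ^ 2 = xc _ (R + R) - algebraMap ℚ _ e₁) (hr0 : r ≠ 0)
    {u : ℤˣ} (hτ : τ r = ((u : ℤ) : AlgebraicClosure K) * r) :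
    (h.bc (AlgebraicClosure K)).sgn
      (Affine.Point.map (W' := W) (τ : AlgebraicClosure K →ₐ[K] AlgebraicClosure K) R - R) = u := by
  set H := h.bc (AlgebraicClosure K) with hH
  set ρ := rhoP (W⁄(AlgebraicClosure K)) (algebraMap ℚ _ e₁) (algebraMap ℚ _ e₂)
    (algebraMap ℚ _ e₃) R with hρ
  have h1 : ρ ^ 2 = r ^ 2 := by rw [hρ, ← H.xc_two hR2, hr]
  have hρ0 : ρ ≠ 0 := by
    intro hc0
    rw [hc0] at h1
    exact hr0 (pow_eq_zero_iff two_ne_zero |>.mp (by rw [← h1]; ring))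
  have h2 : (τ : AlgebraicClosure K →ₐ[K] AlgebraicClosure K) ρ =
      ((u : ℤ) : AlgebraicClosure K) * ρ := by
    change τ ρ = _
    rcases sq_eq_sq_iff_eq_or_eq_neg.mp h1 with h3 | h3
    · rw [h3]; exact hτ
    · rw [h3, map_neg, hτ]; ring
  have h3 : (τ : AlgebraicClosure K →ₐ[K] AlgebraicClosure K) ρ =
      ((H.sgn (Affine.Point.map (W' := W) (τ : AlgebraicClosure K →ₐ[K] AlgebraicClosure K) R - R) :
        ℤ) : AlgebraicClosure K) * ρ := by
    have h4 := map_rhoP (τ : AlgebraicClosure K →ₐ[K] AlgebraicClosure K) h R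
    have h5 : Affine.Point.map (W' := W) (τ : AlgebraicClosure K →ₐ[K] AlgebraicClosure K) R =
        R + (Affine.Point.map (W' := W) (τ : AlgebraicClosure K →ₐ[K] AlgebraicClosure K) R - R) := by
      abel
    rw [h5, H.rhoP_add hR2 ht] at h4
    exact h4.symm
  exact unit_eq hρ0 (h3.symm.trans h2)

/-- the converse of `local_cond_of_trivial` -/
theorem locTriv_of_cond {K : Type} [Field K] [Algebra ℚ K]
    (h : T3 W e₁ e₂ e₃) {c : GQ → Pbar W} (hc : ∀ σ, c σ + c σ = 0)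
    {d₁ d₂ d₃ : ℤ} {β₁ β₂ β₃ : AlgebraicClosure ℚ} (hd₁ : d₁ ≠ 0) (hd₂ : d₂ ≠ 0) (hd₃ : d₃ ≠ 0)
    (hβ₁ : β₁ ^ 2 = (d₁ : AlgebraicClosure ℚ)) (hβ₂ : β₂ ^ 2 = (d₂ : AlgebraicClosure ℚ))
    (hβ₃ : β₃ ^ 2 = (d₃ : AlgebraicClosure ℚ))
    (h₁ : ∀ σ, σ β₁ = (((h.bc (AlgebraicClosure ℚ)).sgn (c σ) : ℤ) : AlgebraicClosure ℚ) * β₁)
    (h₂ : ∀ σ, σ β₂ = (((h.rot.bc (AlgebraicClosure ℚ)).sgn (c σ) : ℤ) : AlgebraicClosure ℚ) * β₂)
    (h₃ : ∀ σ, σ β₃ =
      (((h.rot.rot.bc (AlgebraicClosure ℚ)).sgn (c σ) : ℤ) : AlgebraicClosure ℚ) * β₃)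
    (hL : LocCond e₁ e₂ e₃ d₁ d₂ d₃ K) : LocallyTrivial W K c := by
  intro ι
  have hι0 : ∀ {β : AlgebraicClosure ℚ} {d : ℤ}, d ≠ 0 → β ^ 2 = (d : AlgebraicClosure ℚ) →
      ι β ≠ 0 := by
    intro β d hd hβ hc0
    have h5 : (ι β) ^ 2 = (d : AlgebraicClosure K) := by rw [← map_pow, hβ, map_intCast]
    rw [hc0] at h5
    have h6 : (d : AlgebraicClosure K) = 0 := by rw [← h5]; ring
    have := algebraRat.charZero (AlgebraicClosure K)
    exact hd (by exact_mod_cast h6)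
  have hcomp : ∀ (τ : AlgebraicClosure K ≃ₐ[K] AlgebraicClosure K) (σ : GQ),
      (∀ x, ι (σ x) = τ (ι x)) → ∀ {β : AlgebraicClosure ℚ} {u : ℤˣ},
      σ β = ((u : ℤ) : AlgebraicClosure ℚ) * β →
      τ (ι β) = ((u : ℤ) : AlgebraicClosure K) * ι β := by
    intro τ σ hστ β u hu
    rw [← hστ, hu, map_mul, map_intCast]
  rcases hL with ⟨t₁, t₂, t₃, ht₁, ht₂, ht₃⟩ | ⟨x, s₁, s₂, s₃, hs₁, hs₂, hs₃⟩
  · refine ⟨0, fun τ σ hστ => ?_⟩
    have key : ∀ {β : AlgebraicClosure ℚ} {d : ℤ} {t : K} {u : ℤˣ}, d ≠ 0 →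
        β ^ 2 = (d : AlgebraicClosure ℚ) → t ^ 2 = d →
        σ β = ((u : ℤ) : AlgebraicClosure ℚ) * β → u = 1 := by
      intro β d t u hd hβ ht hu
      apply unit_eq (hι0 hd hβ)
      rw [← hcomp τ σ hστ hu]
      have h5 : (ι β) ^ 2 = (algebraMap K (AlgebraicClosure K) t) ^ 2 := by
        rw [← map_pow, hβ, map_intCast, ← map_pow, ht, map_intCast]
      rcases sq_eq_sq_iff_eq_or_eq_neg.mp h5 with h6 | h6
      · rw [h6]; simp
      · rw [h6]; simp
    have hcσ : c σ = 0 := by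
      refine (h.bc (AlgebraicClosure ℚ)).eq_of_sgn (hc σ) (add_zero 0) ?_ ?_
      · rw [T3.sgn_zero]; exact key hd₁ hβ₁ ht₁ (h₁ σ)
      · rw [T3.sgn_zero]; exact key hd₂ hβ₂ ht₂ (h₂ σ)
    rw [hcσ, _root_.map_zero, _root_.map_zero, sub_zero]
  · have halg : ∀ e : ℚ, algebraMap ℚ (AlgebraicClosure K) e =
        algebraMap K (AlgebraicClosure K) (algebraMap ℚ K e) := fun e =>
      IsScalarTower.algebraMap_apply ℚ K (AlgebraicClosure K) e
    set A := algebraMap K (AlgebraicClosure K) with hA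
    have hr : ∀ {β : AlgebraicClosure ℚ} {d : ℤ} {s : K} {e : ℚ},
        β ^ 2 = (d : AlgebraicClosure ℚ) → x - algebraMap ℚ K e = d * s ^ 2 →
        (ι β * A s) ^ 2 = A x - algebraMap ℚ (AlgebraicClosure K) e := by
      intro β d s e hβ hs
      rw [mul_pow, ← map_pow, hβ, map_intCast, halg, ← map_sub, hs, map_mul, map_pow, map_intCast]
    set r₁ := ι β₁ * A s₁ with hr₁
    set r₂ := ι β₂ * A s₂ with hr₂
    set r₃ := ι β₃ * A s₃ with hr₃
    have q₁ := hr hβ₁ hs₁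
    have q₂ := hr hβ₂ hs₂
    have q₃ := hr hβ₃ hs₃
    rw [← hr₁] at q₁
    rw [← hr₂] at q₂
    rw [← hr₃] at q₃
    have hη : (2 * (r₁ * r₂ * r₃)) ^ 2 = 4 * ((A x - algebraMap ℚ (AlgebraicClosure K) e₁) *
        (A x - algebraMap ℚ (AlgebraicClosure K) e₂) *
        (A x - algebraMap ℚ (AlgebraicClosure K) e₃)) := by
      rw [← q₁, ← q₂, ← q₃]; ring
    obtain ⟨R, hR⟩ := exists_half (h.bc (AlgebraicClosure K))
      ((h.bc (AlgebraicClosure K)).pt (A x) (2 * (r₁ * r₂ * r₃)) hη)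
    have hR2 : R + R ≠ 0 := by rw [hR]; exact (h.bc (AlgebraicClosure K)).pt_ne_zero _ _ _
    have hRx : xc _ (R + R) = A x := by rw [hR]; rfl
    refine ⟨R, fun τ σ hστ => ?_⟩
    have hcσ := hc σ
    have p₁ := hcomp τ σ hστ (h₁ σ)
    have p₂ := hcomp τ σ hστ (h₂ σ)
    have p₃ := hcomp τ σ hστ (h₃ σ)
    have hprod := (h.bc (AlgebraicClosure ℚ)).sgn_mul_sgn_mul_sgn hcσ
    set u₁ := (h.bc (AlgebraicClosure ℚ)).sgn (c σ) with hu₁
    set u₂ := (h.rot.bc (AlgebraicClosure ℚ)).sgn (c σ) with hu₂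
    set u₃ := (h.rot.rot.bc (AlgebraicClosure ℚ)).sgn (c σ) with hu₃
    have hprod' : u₁ * u₂ * u₃ = 1 := hprod
    have hprodK : ((u₁ : ℤ) : AlgebraicClosure K) * ((u₂ : ℤ) : AlgebraicClosure K) *
        ((u₃ : ℤ) : AlgebraicClosure K) = 1 := by
      have : (((u₁ * u₂ * u₃ : ℤˣ) : ℤ) : AlgebraicClosure K) = 1 := by rw [hprod']; simp
      push_cast at this
      exact this
    have g₁ : τ r₁ = ((u₁ : ℤ) : AlgebraicClosure K) * r₁ := by
      rw [hr₁, map_mul, p₁, hA, AlgEquiv.commutes]; ring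
    have g₂ : τ r₂ = ((u₂ : ℤ) : AlgebraicClosure K) * r₂ := by
      rw [hr₂, map_mul, p₂, hA, AlgEquiv.commutes]; ring
    have g₃ : τ r₃ = ((u₃ : ℤ) : AlgebraicClosure K) * r₃ := by
      rw [hr₃, map_mul, p₃, hA, AlgEquiv.commutes]; ring
    have hfix : Affine.Point.map (W' := W) (τ : AlgebraicClosure K →ₐ[K] AlgebraicClosure K)
        (R + R) = R + R := by
      rw [hR]
      obtain ⟨hh, h5⟩ := map_pt (τ : AlgebraicClosure K →ₐ[K] AlgebraicClosure K) h hη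
      rw [h5]
      apply (h.bc (AlgebraicClosure K)).pt_congr
      · exact AlgEquiv.commutes τ x
      · change τ (2 * (r₁ * r₂ * r₃)) = _
        rw [map_mul, map_mul, map_mul, map_ofNat, g₁, g₂, g₃]
        linear_combination 2 * (r₁ * r₂ * r₃) * hprodK
    set t := Affine.Point.map (W' := W) (τ : AlgebraicClosure K →ₐ[K] AlgebraicClosure K) R - R
      with ht
    have htt : t + t = 0 := by
      rw [map_add] at hfix
      calc t + t = (Affine.Point.map (W' := W)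
              (τ : AlgebraicClosure K →ₐ[K] AlgebraicClosure K) R + Affine.Point.map (W' := W)
              (τ : AlgebraicClosure K →ₐ[K] AlgebraicClosure K) R) - (R + R) := by rw [ht]; abel
        _ = 0 := by rw [hfix, sub_self]
    have hιc : Affine.Point.map (W' := W) ι (c σ) + Affine.Point.map (W' := W) ι (c σ) = 0 := by
      rw [← map_add, hcσ, _root_.map_zero]
    have k₁ : r₁ ≠ 0 → (h.bc (AlgebraicClosure K)).sgn (Affine.Point.map (W' := W) ι (c σ)) =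
        (h.bc (AlgebraicClosure K)).sgn t := by
      intro hr0
      rw [sgn_map ι h hcσ, sgn_loc h hR2 τ htt (by rw [hRx]; exact q₁) hr0 g₁]
    have k₂ : r₂ ≠ 0 → (h.rot.bc (AlgebraicClosure K)).sgn (Affine.Point.map (W' := W) ι (c σ)) =
        (h.rot.bc (AlgebraicClosure K)).sgn t := by
      intro hr0
      rw [sgn_map ι h.rot hcσ, sgn_loc h.rot hR2 τ htt (by rw [hRx]; exact q₂) hr0 g₂]
    have k₃ : r₃ ≠ 0 → (h.rot.rot.bc (AlgebraicClosure K)).sgn
        (Affine.Point.map (W' := W) ι (c σ)) = (h.rot.rot.bc (AlgebraicClosure K)).sgn t := by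
      intro hr0
      rw [sgn_map ι h.rot.rot hcσ, sgn_loc h.rot.rot hR2 τ htt (by rw [hRx]; exact q₃) hr0 g₃]
    have hinj := (algebraMap ℚ (AlgebraicClosure K)).injective
    by_cases z₁ : r₁ = 0
    · have z₂ : r₂ ≠ 0 := by
        intro z₂
        apply h.h12
        apply hinj
        rw [z₁] at q₁
        rw [z₂] at q₂
        linear_combination q₁ - q₂
      have z₃ : r₃ ≠ 0 := by
        intro z₃
        apply h.h13
        apply hinj
        rw [z₁] at q₁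
        rw [z₃] at q₃
        linear_combination q₁ - q₃
      exact (h.rot.bc (AlgebraicClosure K)).eq_of_sgn hιc htt (k₂ z₂) (k₃ z₃)
    · by_cases z₂ : r₂ = 0
      · have z₃ : r₃ ≠ 0 := by
          intro z₃
          apply h.h23
          apply hinj
          rw [z₂] at q₂
          rw [z₃] at q₃
          linear_combination q₂ - q₃
        exact (h.rot.rot.bc (AlgebraicClosure K)).eq_of_sgn hιc htt (k₃ z₃) (k₁ z₁)
      · exact (h.bc (AlgebraicClosure K)).eq_of_sgn hιc htt (k₁ z₁) (k₂ z₂)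

end Vale.Agent.P014.H71
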