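import Vale.Agent.P014.H71.ShaLoc

/-!
# `Sha[2] = 0` from the triviality of the Selmer group
-/

namespace Vale.Agent.P014.H71

open WeierstrassCurve
open scoped Classical

theorem isLocallyConstant_apply (x : AlgebraicClosure ℚ) :
    IsLocallyConstant (fun σ : GQ => σ x) := by
  rw [IsLocallyConstant.iff_exists_open]
  intro σ₀
  have hst : IsOpen (MulAction.stabilizer GQ x : Set GQ) := stabilizer_isOpen_of_isIntegral x
  refine ⟨(fun σ => σ₀⁻¹ * σ) ⁻¹' (MulAction.stabilizer GQ x : Set GQ),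
    hst.preimage (continuous_const_mul _), ?_, ?_⟩
  · simp
  · intro σ hσ
    have h1 : (σ₀⁻¹ * σ) • x = x := hσ
    have h2 : σ x = σ₀ ((σ₀⁻¹ * σ) • x) := by
      rw [AlgEquiv.smul_def, AlgEquiv.mul_apply]
      exact (AlgEquiv.apply_symm_apply σ₀ _).symm
    rw [h2, h1]

variable {W : WeierstrassCurve ℚ} {e₁ e₂ e₃ : ℚ}

theorem isLocallyConstant_act (R : Pbar W) : IsLocallyConstant (fun σ : GQ => act W σ R) := by
  rcases R with _ | ⟨x, y, hxy⟩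
  · exact IsLocallyConstant.const 0
  · rw [IsLocallyConstant.iff_exists_open]
    intro σ₀
    obtain ⟨U, hU, hU0, hUx⟩ := (IsLocallyConstant.iff_exists_open _).mp
      (isLocallyConstant_apply x) σ₀
    obtain ⟨V, hV, hV0, hVy⟩ := (IsLocallyConstant.iff_exists_open _).mp
      (isLocallyConstant_apply y) σ₀
    refine ⟨U ∩ V, hU.inter hV, ⟨hU0, hV0⟩, fun σ hσ => ?_⟩
    have h1 := hUx σ hσ.1
    have h2 := hVy σ hσ.2
    unfold act
    rw [Affine.Point.map_some, Affine.Point.map_some, Affine.Point.some.injEq]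
    exact ⟨h1, h2⟩

theorem act_mul (σ τ : GQ) (R : Pbar W) : act W (σ * τ) R = act W σ (act W τ R) := by
  unfold act
  rw [Affine.Point.map_map]
  rfl

theorem coboundary_mem (R : Pbar W) : (fun σ => act W σ R - R) ∈ shaCocycles W := by
  have hloc : ∀ (K : Type) [Field K] [Algebra ℚ K],
      LocallyTrivial W K (fun σ => act W σ R - R) := by
    intro K _ _ ι
    refine ⟨Affine.Point.map (W' := W) ι R, fun τ σ h => ?_⟩
    rw [map_sub]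
    congr 1
    rcases R with _ | ⟨x, y, hxy⟩
    · rfl
    · unfold act
      rw [Affine.Point.map_some, Affine.Point.map_some, Affine.Point.map_some,
        Affine.Point.map_some, Affine.Point.some.injEq]
      exact ⟨h x, h y⟩
  refine ⟨(isLocallyConstant_act R).sub (IsLocallyConstant.const R), fun σ τ => ?_,
    hloc ℝ, fun p _ => hloc ℚ_[p]⟩
  simp only
  rw [act_mul, map_sub]; abel

theorem exists_half {F : Type*} [Field F] [IsAlgClosed F] [DecidableEq F] {V : WeierstrassCurve F}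
    {a₁ a₂ a₃ : F} (h : T3 V a₁ a₂ a₃) (P : V.toAffine.Point) : ∃ R, R + R = P := by
  rcases h.eq_zero_or_pt P with rfl | ⟨x, η, hη, rfl⟩
  · exact ⟨0, add_zero 0⟩
  · obtain ⟨r₁, hr₁⟩ := IsAlgClosed.exists_pow_nat_eq (x - a₁) (n := 2) (by norm_num)
    obtain ⟨r₂, hr₂⟩ := IsAlgClosed.exists_pow_nat_eq (x - a₂) (n := 2) (by norm_num)
    obtain ⟨r₃, hr₃⟩ := IsAlgClosed.exists_pow_nat_eq (x - a₃) (n := 2) (by norm_num)
    have h1 : (η - 2 * (r₁ * r₂ * r₃)) * (η + 2 * (r₁ * r₂ * r₃)) = 0 := by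
      have : (η - 2 * (r₁ * r₂ * r₃)) * (η + 2 * (r₁ * r₂ * r₃)) =
        η ^ 2 - 4 * (r₁ ^ 2 * r₂ ^ 2 * r₃ ^ 2) := by ring
      rw [this, hη, hr₁, hr₂, hr₃]; ring
    rcases mul_eq_zero.mp h1 with h2 | h2
    · obtain ⟨hh, h3⟩ := h.half hη hr₁ hr₂ hr₃ (by linear_combination h2)
      exact ⟨_, h3⟩
    · obtain ⟨hh, h3⟩ := h.half hη (r₁ := -r₁) (by rw [neg_sq]; exact hr₁) hr₂ hr₃
        (by linear_combination h2)
      exact ⟨_, h3⟩

/-- The Selmer condition: all everywhere locally soluble classes come from 2-torsion points. -/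
def SelTriv (e₁ e₂ e₃ : ℚ) : Prop := ∀ d₁ d₂ d₃ : ℤ, Squarefree d₁ → Squarefree d₂ →
  Squarefree d₃ → (∃ w : ℤ, d₁ * d₂ * d₃ = w ^ 2) → LocCond e₁ e₂ e₃ d₁ d₂ d₃ ℝ →
  (∀ (p : ℕ) [Fact p.Prime], LocCond e₁ e₂ e₃ d₁ d₂ d₃ ℚ_[p]) →
  (d₁ = 1 ∧ d₂ = 1 ∧ d₃ = 1) ∨
  (∃ r₂ r₃ : ℚ, e₁ - e₂ = d₂ * r₂ ^ 2 ∧ e₁ - e₃ = d₃ * r₃ ^ 2) ∨
  (∃ r₃ r₁ : ℚ, e₂ - e₃ = d₃ * r₃ ^ 2 ∧ e₂ - e₁ = d₁ * r₁ ^ 2) ∨
  (∃ r₁ r₂ : ℚ, e₃ - e₁ = d₁ * r₁ ^ 2 ∧ e₃ - e₂ = d₂ * r₂ ^ 2)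

/-- the characters -/
noncomputable def chi (h : T3 W e₁ e₂ e₃) {c : GQ → Pbar W} (hc : ∀ σ, c σ + c σ = 0)
    (hcoc : ∀ σ τ, c (σ * τ) = c σ + act W σ (c τ)) : GQ →* ℤˣ :=
  MonoidHom.mk' (fun σ => (h.bc (AlgebraicClosure ℚ)).sgn (c σ)) (fun σ τ => by
    rw [hcoc]
    have : act W σ (c τ) = c τ := map_self_of_two _ h (hc τ)
    rw [this]
    exact (h.bc (AlgebraicClosure ℚ)).sgn_add (hc σ) (hc τ))

theorem chi_lc (h : T3 W e₁ e₂ e₃) {c : GQ → Pbar W} (hc : ∀ σ, c σ + c σ = 0)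
    (hcoc : ∀ σ τ, c (σ * τ) = c σ + act W σ (c τ)) (hlc : IsLocallyConstant c) :
    IsLocallyConstant (chi h hc hcoc) :=
  hlc.comp (fun P => (h.bc (AlgebraicClosure ℚ)).sgn P)

/-- one coordinate of the comparison with a half of a 2-torsion point -/
theorem sgn_half (h : T3 W e₁ e₂ e₃) {c : GQ → Pbar W} {e : ℚ} {R : Pbar W} (hne : e ≠ e₁)
    (hR2 : R + R ≠ 0)
    (hR : xc _ (R + R) = algebraMap ℚ (AlgebraicClosure ℚ) e) (hRf : ∀ σ, act W σ (R + R) = R + R)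
    {d : ℤ} {β : AlgebraicClosure ℚ} (hβ : β ^ 2 = (d : AlgebraicClosure ℚ))
    (hχ : ∀ σ, σ β = (((h.bc (AlgebraicClosure ℚ)).sgn (c σ) : ℤ) : AlgebraicClosure ℚ) * β)
    {r : ℚ} (hr : e - e₁ = d * r ^ 2) (σ : GQ) :
    (h.bc (AlgebraicClosure ℚ)).sgn (act W σ R - R) = (h.bc (AlgebraicClosure ℚ)).sgn (c σ) := by
  set H := h.bc (AlgebraicClosure ℚ) with hH
  have ht : (act W σ R - R) + (act W σ R - R) = 0 := by
    have := hRf σ
    rw [map_add] at this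
    calc (act W σ R - R) + (act W σ R - R) = (act W σ R + act W σ R) - (R + R) := by abel
      _ = 0 := by rw [this, sub_self]
  set ρ := rhoP (W⁄(AlgebraicClosure ℚ)) (algebraMap ℚ _ e₁) (algebraMap ℚ _ e₂)
    (algebraMap ℚ _ e₃) R with hρ
  have h1 : ρ ^ 2 = (β * algebraMap ℚ _ r) ^ 2 := by
    rw [hρ, ← H.xc_two hR2, hR, ← map_sub, hr, mul_pow, hβ, map_mul, map_pow, map_intCast]
  have hρ0 : ρ ≠ 0 := by
    intro hc0
    have h2 := H.xc_two hR2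
    rw [← hρ, hc0, hR, ← map_sub] at h2
    have h3 : algebraMap ℚ (AlgebraicClosure ℚ) (e - e₁) = 0 := by rw [h2]; ring
    rw [map_eq_zero, sub_eq_zero] at h3
    exact hne h3
  have h2 : σ ρ = ((H.sgn (c σ) : ℤ) : AlgebraicClosure ℚ) * ρ := by
    rcases sq_eq_sq_iff_eq_or_eq_neg.mp h1 with h3 | h3
    · rw [h3, map_mul, hχ, AlgEquiv.commutes]; ring
    · rw [h3, map_neg, map_mul, hχ, AlgEquiv.commutes]; ring
  have h3 : σ ρ = ((H.sgn (act W σ R - R) : ℤ) : AlgebraicClosure ℚ) * ρ := by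
    have h4 := map_rhoP (σ : AlgebraicClosure ℚ →ₐ[ℚ] AlgebraicClosure ℚ) h R
    have h5 : Affine.Point.map (W' := W) (σ : AlgebraicClosure ℚ →ₐ[ℚ] AlgebraicClosure ℚ) R =
        R + (act W σ R - R) := by
      have : act W σ R = R + (act W σ R - R) := by abel
      exact this
    rw [h5, H.rhoP_add hR2 ht] at h4
    exact h4.symm
  rw [h2] at h3
  have h6 := mul_right_cancel₀ hρ0 h3
  have h7 : ((H.sgn (c σ) : ℤ)) = ((H.sgn (act W σ R - R) : ℤ)) := by exact_mod_cast h6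
  exact (Units.ext h7).symm

/-- comparison with a half of the 2-torsion point `T₁` -/
theorem eq_half (h : T3 W e₁ e₂ e₃) {c : GQ → Pbar W} (hc : ∀ σ, c σ + c σ = 0)
    {d₂ d₃ : ℤ} {β₂ β₃ : AlgebraicClosure ℚ}
    (hβ₂ : β₂ ^ 2 = (d₂ : AlgebraicClosure ℚ)) (hβ₃ : β₃ ^ 2 = (d₃ : AlgebraicClosure ℚ))
    (h₂ : ∀ σ, σ β₂ = (((h.rot.bc (AlgebraicClosure ℚ)).sgn (c σ) : ℤ) : AlgebraicClosure ℚ) * β₂)
    (h₃ : ∀ σ, σ β₃ =
      (((h.rot.rot.bc (AlgebraicClosure ℚ)).sgn (c σ) : ℤ) : AlgebraicClosure ℚ) * β₃)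
    {r₂ r₃ : ℚ} (hr₂ : e₁ - e₂ = d₂ * r₂ ^ 2) (hr₃ : e₁ - e₃ = d₃ * r₃ ^ 2) :
    ∃ R : Pbar W, ∀ σ, c σ = act W σ R - R := by
  obtain ⟨R, hR⟩ := exists_half (h.bc (AlgebraicClosure ℚ)) (h.bc (AlgebraicClosure ℚ)).T
  have hR2 : R + R ≠ 0 := by rw [hR]; exact (h.bc (AlgebraicClosure ℚ)).T_ne_zero
  have hRx : xc _ (R + R) = algebraMap ℚ (AlgebraicClosure ℚ) e₁ := by rw [hR]; rfl
  have hRf : ∀ σ, act W σ (R + R) = R + R := by
    intro σ; rw [hR]; exact map_T _ h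
  refine ⟨R, fun σ => ?_⟩
  have ht : (act W σ R - R) + (act W σ R - R) = 0 := by
    have := hRf σ
    rw [map_add] at this
    calc (act W σ R - R) + (act W σ R - R) = (act W σ R + act W σ R) - (R + R) := by abel
      _ = 0 := by rw [this, sub_self]
  have k2 := sgn_half h.rot h.h12 hR2 hRx hRf hβ₂ h₂ hr₂ σ
  have k3 := sgn_half h.rot.rot h.h13 hR2 hRx hRf hβ₃ h₃ hr₃ σ
  exact (h.rot.bc (AlgebraicClosure ℚ)).eq_of_sgn (hc σ) ht k2.symm k3.symm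

theorem int_of_sq_int {r : ℚ} {m : ℤ} (h : r ^ 2 = m) : ∃ w : ℤ, m = w ^ 2 := by
  have h1 : IsIntegral ℤ r := by
    apply IsIntegral.of_pow (n := 2) (by norm_num)
    rw [h]; exact isIntegral_algebraMap (R := ℤ) (A := ℚ) (x := m)
  obtain ⟨w, hw⟩ := IsIntegrallyClosed.isIntegral_iff.mp h1
  refine ⟨w, ?_⟩
  have : (m : ℚ) = (w : ℚ) ^ 2 := by rw [← h, ← hw]; simp
  exact_mod_cast this

theorem sha_two (h : T3 W e₁ e₂ e₃) (hS : SelTriv e₁ e₂ e₃) {c : GQ → Pbar W}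
    (hcS : c ∈ shaCocycles W) (hc : ∀ σ, c σ + c σ = 0) :
    ∃ R : Pbar W, ∀ σ, c σ = act W σ R - R := by
  obtain ⟨hlc, hcoc, hR, hp⟩ := hcS
  obtain ⟨d₁, β₁, hd₁, hβ₁, hχ₁⟩ := exists_sqrt_of_char _ (chi_lc h hc hcoc hlc)
  obtain ⟨d₂, β₂, hd₂, hβ₂, hχ₂⟩ := exists_sqrt_of_char _ (chi_lc h.rot hc hcoc hlc)
  obtain ⟨d₃, β₃, hd₃, hβ₃, hχ₃⟩ := exists_sqrt_of_char _ (chi_lc h.rot.rot hc hcoc hlc)
  have hw : ∃ w : ℤ, d₁ * d₂ * d₃ = w ^ 2 := by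
    obtain ⟨r, hr⟩ : β₁ * β₂ * β₃ ∈ Set.range (algebraMap ℚ (AlgebraicClosure ℚ)) := by
      rw [InfiniteGalois.mem_range_algebraMap_iff_fixed]
      intro σ
      rw [map_mul, map_mul, hχ₁, hχ₂, hχ₃]
      have h1 := (h.bc (AlgebraicClosure ℚ)).sgn_mul_sgn_mul_sgn (hc σ)
      have h2 : chi h hc hcoc σ * chi h.rot hc hcoc σ * chi h.rot.rot hc hcoc σ = 1 := h1
      have h3 : ((chi h hc hcoc σ : ℤ) * (chi h.rot hc hcoc σ : ℤ) *
          (chi h.rot.rot hc hcoc σ : ℤ)) = 1 := by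
        rw [← Units.val_mul, ← Units.val_mul, h2]; rfl
      have h4 : (((chi h hc hcoc σ : ℤ) : AlgebraicClosure ℚ) *
          ((chi h.rot hc hcoc σ : ℤ) : AlgebraicClosure ℚ) *
          ((chi h.rot.rot hc hcoc σ : ℤ) : AlgebraicClosure ℚ)) = 1 := by
        exact_mod_cast h3
      linear_combination (β₁ * β₂ * β₃) * h4
    have h5 : r ^ 2 = ((d₁ * d₂ * d₃ : ℤ) : ℚ) := by
      apply (algebraMap ℚ (AlgebraicClosure ℚ)).injective
      rw [map_pow, hr, mul_pow, mul_pow, hβ₁, hβ₂, hβ₃, map_intCast]; push_cast; ring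
    exact int_of_sq_int h5
  have key : ∀ (K : Type) [Field K] [Algebra ℚ K], LocallyTrivial W K c →
      LocCond e₁ e₂ e₃ d₁ d₂ d₃ K := fun K _ _ hK =>
    local_cond_of_trivial h hc hK hd₁.ne_zero hd₂.ne_zero hd₃.ne_zero hβ₁ hβ₂ hβ₃ hχ₁ hχ₂ hχ₃
  rcases hS d₁ d₂ d₃ hd₁ hd₂ hd₃ hw (key ℝ hR) (fun p _ => key ℚ_[p] (hp p)) with
    ⟨rfl, rfl, rfl⟩ | ⟨r₂, r₃, hr₂, hr₃⟩ | ⟨r₃, r₁, hr₃, hr₁⟩ | ⟨r₁, r₂, hr₁, hr₂⟩
  · refine ⟨0, fun σ => ?_⟩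
    rw [_root_.map_zero, sub_zero]
    have hone : ∀ (χ : ℤˣ) (β : AlgebraicClosure ℚ), β ^ 2 = ((1 : ℤ) : AlgebraicClosure ℚ) →
        σ β = ((χ : ℤ) : AlgebraicClosure ℚ) * β → χ = 1 := by
      intro χ β hβ hσ
      have hβ' : β ^ 2 = 1 ^ 2 := by rw [hβ]; simp
      have hfix : σ β = β := by
        rcases sq_eq_sq_iff_eq_or_eq_neg.mp hβ' with h1 | h1 <;> rw [h1] <;> simp
      have hβ0 : β ≠ 0 := by rintro rfl; simp at hβ'
      rcases Int.units_eq_one_or χ with h2 | h2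
      · exact h2
      · exfalso
        rw [hfix, h2] at hσ
        have h3 : (2 : AlgebraicClosure ℚ) * β = 0 := by
          simp only [Units.val_neg, Units.val_one, Int.cast_neg, Int.cast_one] at hσ
          linear_combination hσ
        rcases mul_eq_zero.mp h3 with h4 | h4
        · exact two_ne_zero h4
        · exact hβ0 h4
    have k1 : (h.bc (AlgebraicClosure ℚ)).sgn (c σ) = 1 := hone _ β₁ hβ₁ (hχ₁ σ)
    have k2 : (h.rot.bc (AlgebraicClosure ℚ)).sgn (c σ) = 1 := hone _ β₂ hβ₂ (hχ₂ σ)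
    refine (h.bc (AlgebraicClosure ℚ)).eq_of_sgn (hc σ) (add_zero 0) ?_ ?_
    · rw [k1, T3.sgn_zero]
    · rw [T3.sgn_zero]; exact k2
  · exact eq_half h hc hβ₂ hβ₃ hχ₂ hχ₃ hr₂ hr₃
  · exact eq_half h.rot hc hβ₃ hβ₁ hχ₃ hχ₁ hr₃ hr₁
  · exact eq_half h.rot.rot hc hβ₁ hβ₂ hχ₁ hχ₂ hr₁ hr₂

theorem sha_eq_zero (h : T3 W e₁ e₂ e₃) (hS : SelTriv e₁ e₂ e₃) {s : Sha W} (hs : s + s = 0) :
    s = 0 := by
  obtain ⟨⟨c, hc⟩, rfl⟩ := QuotientAddGroup.mk_surjective s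
  have h1 : (⟨c, hc⟩ : shaCocycles W) + ⟨c, hc⟩ ∈
      (coboundaries W).addSubgroupOf (shaCocycles W) := by
    rw [← QuotientAddGroup.eq_zero_iff]; exact hs
  rw [AddSubgroup.mem_addSubgroupOf] at h1
  obtain ⟨Q, hQ⟩ : ∃ P, ∀ σ, (c + c) σ = act W σ P - P := h1
  obtain ⟨R, hR⟩ := exists_half (h.bc (AlgebraicClosure ℚ)) Q
  have hc' : c - (fun σ => act W σ R - R) ∈ shaCocycles W :=
    (shaCocycles W).sub_mem hc (coboundary_mem R)
  have h2 : ∀ σ, (c - (fun σ => act W σ R - R)) σ + (c - (fun σ => act W σ R - R)) σ = 0 := by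
    intro σ
    have h3 := hQ σ
    rw [← hR, map_add] at h3
    simp only [Pi.sub_apply, Pi.add_apply] at h3 ⊢
    calc c σ - (act W σ R - R) + (c σ - (act W σ R - R))
        = (c σ + c σ) - (act W σ R + act W σ R - (R + R)) := by abel
      _ = 0 := by rw [h3, sub_self]
  obtain ⟨S, hS'⟩ := sha_two h hS hc' h2
  rw [QuotientAddGroup.eq_zero_iff, AddSubgroup.mem_addSubgroupOf]
  refine ⟨R + S, fun σ => ?_⟩
  have h3 := hS' σ
  simp only [Pi.sub_apply] at h3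
  rw [map_add]
  calc c σ = (c σ - (act W σ R - R)) + (act W σ R - R) := by abel
    _ = act W σ R + act W σ S - (R + S) := by rw [h3]; abel

theorem two_pow_torsion {A : Type*} [AddCommGroup A] (hA : ∀ s : A, s + s = 0 → s = 0) (k : ℕ) :
    ∀ s : A, 2 ^ k • s = 0 → s = 0 := by
  induction k with
  | zero => intro s hs; simpa using hs
  | succ k ih =>
    intro s hs
    apply hA
    apply ih
    rw [← two_nsmul, ← mul_nsmul', ← pow_succ]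
    exact hs

theorem sha_primary_trivial (h : T3 W e₁ e₂ e₃) (hS : SelTriv e₁ e₂ e₃) :
    Nat.card (shaPrimary W 2) = 1 := by
  have key := two_pow_torsion (A := Sha W) (fun s hs => sha_eq_zero h hS hs)
  have : Subsingleton (shaPrimary W 2) := by
    constructor
    rintro ⟨x, hx⟩ ⟨y, hy⟩
    obtain ⟨k, hk⟩ := AddCommMonoid.mem_primaryComponent.mp hx
    obtain ⟨l, hl⟩ := AddCommMonoid.mem_primaryComponent.mp hy
    apply Subtype.ext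
    change x = y
    rw [key k x hk, key l y hl]
  have : Nonempty (shaPrimary W 2) := ⟨⟨0, zero_mem _⟩⟩
  exact Nat.card_unique

end Vale.Agent.P014.H71
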