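import Vale.Agent.P014.H71.Gal

/-!
# Local consequences of local triviality
-/

namespace Vale.Agent.P014.H71

open WeierstrassCurve
open scoped Classical

theorem exists_restrict {K : Type} [Field K] [Algebra ℚ K]
    (ι : AlgebraicClosure ℚ →ₐ[ℚ] AlgebraicClosure K)
    (τ : AlgebraicClosure K ≃ₐ[K] AlgebraicClosure K) :
    ∃ σ : GQ, ∀ x, ι (σ x) = τ (ι x) := by
  let : Algebra (AlgebraicClosure ℚ) (AlgebraicClosure K) := ι.toRingHom.toAlgebra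
  have : @IsScalarTower ℚ (AlgebraicClosure ℚ) (AlgebraicClosure K) Algebra.toSMul Algebra.toSMul
      Algebra.toSMul := IsScalarTower.of_algebraMap_eq fun x => (ι.commutes x).symm
  exact ⟨AlgEquiv.restrictNormal (τ.restrictScalars ℚ) (AlgebraicClosure ℚ), fun x =>
    AlgEquiv.restrictNormal_commutes (τ.restrictScalars ℚ) (AlgebraicClosure ℚ) x⟩

theorem exists_emb (K : Type) [Field K] [Algebra ℚ K] :
    Nonempty (AlgebraicClosure ℚ →ₐ[ℚ] AlgebraicClosure K) :=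
  ⟨IsAlgClosed.lift⟩

theorem exists_of_fixed {K : Type} [Field K] [Algebra ℚ K] {x : AlgebraicClosure K}
    (hx : ∀ τ : AlgebraicClosure K ≃ₐ[K] AlgebraicClosure K, τ x = x) :
    ∃ a : K, algebraMap K (AlgebraicClosure K) a = x := by
  have := algebraRat.charZero K
  have := isGalois_algebraicClosure K
  exact (InfiniteGalois.mem_range_algebraMap_iff_fixed x).mpr hx

/-- The local condition on the classes `d₁, d₂, d₃` in a field `K`. -/
def LocCond (e₁ e₂ e₃ : ℚ) (d₁ d₂ d₃ : ℤ) (K : Type) [Field K] [Algebra ℚ K] : Prop :=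
  (∃ t₁ t₂ t₃ : K, t₁ ^ 2 = d₁ ∧ t₂ ^ 2 = d₂ ∧ t₃ ^ 2 = d₃) ∨
    ∃ x s₁ s₂ s₃ : K, x - algebraMap ℚ K e₁ = d₁ * s₁ ^ 2 ∧ x - algebraMap ℚ K e₂ = d₂ * s₂ ^ 2 ∧
      x - algebraMap ℚ K e₃ = d₃ * s₃ ^ 2

variable {W : WeierstrassCurve ℚ} {e₁ e₂ e₃ : ℚ}

theorem map_of_two {S F K : Type*} [CommRing S] [Algebra ℚ S] [Field F] [Field K] [Algebra ℚ F]
    [Algebra ℚ K] [Algebra S F] [Algebra S K] [IsScalarTower ℚ S F] [IsScalarTower ℚ S K]
    [DecidableEq F] [DecidableEq K] (f : F →ₐ[S] K) (h : T3 W e₁ e₂ e₃)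
    {P : (W⁄F).toAffine.Point} (hP : P + P = 0) :
    (P = 0 ∧ Affine.Point.map (W' := W) f P = 0) ∨
    (P = (h.bc F).T ∧ Affine.Point.map (W' := W) f P = (h.bc K).T) ∨
    (P = (h.bc F).rot.T ∧ Affine.Point.map (W' := W) f P = (h.bc K).rot.T) ∨
    (P = (h.bc F).rot.rot.T ∧ Affine.Point.map (W' := W) f P = (h.bc K).rot.rot.T) := by
  rcases (h.bc F).two_torsion hP with rfl | rfl | rfl | rfl
  · left; exact ⟨rfl, _root_.map_zero _⟩
  · right; left; exact ⟨rfl, map_T f h⟩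
  · right; right; left; exact ⟨rfl, map_T f h.rot⟩
  · right; right; right; exact ⟨rfl, map_T f h.rot.rot⟩

theorem sgn_map {S F K : Type*} [CommRing S] [Algebra ℚ S] [Field F] [Field K] [Algebra ℚ F]
    [Algebra ℚ K] [Algebra S F] [Algebra S K] [IsScalarTower ℚ S F] [IsScalarTower ℚ S K]
    [DecidableEq F] [DecidableEq K] (f : F →ₐ[S] K) (h : T3 W e₁ e₂ e₃)
    {P : (W⁄F).toAffine.Point} (hP : P + P = 0) :
    (h.bc K).sgn (Affine.Point.map (W' := W) f P) = (h.bc F).sgn P := by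
  rcases map_of_two f h hP with ⟨h1, h2⟩ | ⟨h1, h2⟩ | ⟨h1, h2⟩ | ⟨h1, h2⟩
  · rw [h2, h1, T3.sgn_zero, T3.sgn_zero]
  · rw [h2, h1, T3.sgn_T1, T3.sgn_T1]
  · rw [h2, h1, T3.sgn_T2, T3.sgn_T2]
  · rw [h2, h1, T3.sgn_T3, T3.sgn_T3]

theorem map_self_of_two {S F : Type*} [CommRing S] [Algebra ℚ S] [Field F] [Algebra ℚ F]
    [Algebra S F] [IsScalarTower ℚ S F] [DecidableEq F] (f : F →ₐ[S] F) (h : T3 W e₁ e₂ e₃)
    {P : (W⁄F).toAffine.Point} (hP : P + P = 0) : Affine.Point.map (W' := W) f P = P := by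
  rcases map_of_two f h hP with ⟨h1, h2⟩ | ⟨h1, h2⟩ | ⟨h1, h2⟩ | ⟨h1, h2⟩ <;> rw [h2, h1]

/-- the key local computation, one coordinate -/
theorem local_coord {K : Type} [Field K] [Algebra ℚ K] (h : T3 W e₁ e₂ e₃)
    {c : GQ → Pbar W} (hc : ∀ σ, c σ + c σ = 0)
    (ι : AlgebraicClosure ℚ →ₐ[ℚ] AlgebraicClosure K)
    {P : (W⁄(AlgebraicClosure K)).toAffine.Point} (hP2 : P + P ≠ 0)
    (hP : ∀ (τ : AlgebraicClosure K ≃ₐ[K] AlgebraicClosure K) (σ : GQ), (∀ x, ι (σ x) = τ (ι x)) →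
        Affine.Point.map (W' := W) ι (c σ) =
          Affine.Point.map (W' := W) (τ : AlgebraicClosure K →ₐ[K] AlgebraicClosure K) P - P)
    {d : ℤ} {β : AlgebraicClosure ℚ} (hd : d ≠ 0) (hβ : β ^ 2 = (d : AlgebraicClosure ℚ))
    (hχ : ∀ σ, σ β = (((h.bc (AlgebraicClosure ℚ)).sgn (c σ) : ℤ) : AlgebraicClosure ℚ) * β) :
    ∃ s : K, xc _ (P + P) - algebraMap ℚ (AlgebraicClosure K) e₁ =
      algebraMap K (AlgebraicClosure K) (d * s ^ 2) := by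
  obtain ⟨t, ht⟩ : ∃ t : K, algebraMap K (AlgebraicClosure K) t =
      rhoP (W⁄(AlgebraicClosure K)) (algebraMap ℚ _ e₁) (algebraMap ℚ _ e₂) (algebraMap ℚ _ e₃) P *
        ι β := by
    apply exists_of_fixed
    intro τ
    obtain ⟨σ, hσ⟩ := exists_restrict ι τ
    have h1 := hP τ σ hσ
    have h2 : Affine.Point.map (W' := W) (τ : AlgebraicClosure K →ₐ[K] AlgebraicClosure K) P =
        P + Affine.Point.map (W' := W) ι (c σ) := by rw [h1]; abel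
    have h3 : (τ : AlgebraicClosure K →ₐ[K] AlgebraicClosure K) (rhoP (W⁄(AlgebraicClosure K))
        (algebraMap ℚ _ e₁) (algebraMap ℚ _ e₂) (algebraMap ℚ _ e₃) P) =
        (((h.bc (AlgebraicClosure ℚ)).sgn (c σ) : ℤ) : AlgebraicClosure K) *
          rhoP (W⁄(AlgebraicClosure K)) (algebraMap ℚ _ e₁) (algebraMap ℚ _ e₂)
            (algebraMap ℚ _ e₃) P := by
      rw [← map_rhoP (τ : AlgebraicClosure K →ₐ[K] AlgebraicClosure K) h P, h2,
        (h.bc (AlgebraicClosure K)).rhoP_add hP2, sgn_map ι h (hc σ)]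
      rw [← map_add, hc σ, _root_.map_zero]
    have h4 : τ (ι β) = (((h.bc (AlgebraicClosure ℚ)).sgn (c σ) : ℤ) : AlgebraicClosure K) * ι β := by
      rw [← hσ, hχ, map_mul, map_intCast]
    rw [map_mul, h4]
    have h5 : τ (rhoP (W⁄(AlgebraicClosure K))
        (algebraMap ℚ _ e₁) (algebraMap ℚ _ e₂) (algebraMap ℚ _ e₃) P) = _ := h3
    rw [h5]
    rcases Int.units_eq_one_or ((h.bc (AlgebraicClosure ℚ)).sgn (c σ)) with h6 | h6 <;>
      rw [h6] <;> simp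
  have hd' : (d : K) ≠ 0 := by
    have := algebraRat.charZero K
    exact Int.cast_ne_zero.mpr hd
  refine ⟨t / d, ?_⟩
  rw [(h.bc (AlgebraicClosure K)).xc_two hP2]
  have h7 : (d : K) * (t / d) ^ 2 = t ^ 2 / d := by field_simp
  rw [h7, map_div₀, map_pow, ht, mul_pow, ← map_pow, hβ, map_intCast, map_intCast, mul_div_assoc,
    div_self, mul_one]
  have := algebraRat.charZero (AlgebraicClosure K)
  exact Int.cast_ne_zero.mpr hd

theorem local_sq {K : Type} [Field K] [Algebra ℚ K] (h : T3 W e₁ e₂ e₃)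
    {c : GQ → Pbar W} (ι : AlgebraicClosure ℚ →ₐ[ℚ] AlgebraicClosure K)
    (hc : ∀ (τ : AlgebraicClosure K ≃ₐ[K] AlgebraicClosure K) (σ : GQ), (∀ x, ι (σ x) = τ (ι x)) →
        c σ = 0)
    {d : ℤ} {β : AlgebraicClosure ℚ} (hβ : β ^ 2 = (d : AlgebraicClosure ℚ))
    (hχ : ∀ σ, σ β = (((h.bc (AlgebraicClosure ℚ)).sgn (c σ) : ℤ) : AlgebraicClosure ℚ) * β) :
    ∃ t : K, t ^ 2 = d := by
  obtain ⟨t, ht⟩ : ∃ t : K, algebraMap K (AlgebraicClosure K) t = ι β := by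
    apply exists_of_fixed
    intro τ
    obtain ⟨σ, hσ⟩ := exists_restrict ι τ
    rw [← hσ, hχ, hc τ σ hσ, T3.sgn_zero]
    simp
  refine ⟨t, ?_⟩
  apply (algebraMap K (AlgebraicClosure K)).injective
  rw [map_pow, ht, ← map_pow, hβ, map_intCast, map_intCast]

theorem local_cond_of_trivial {K : Type} [Field K] [Algebra ℚ K]
    (h : T3 W e₁ e₂ e₃) {c : GQ → Pbar W} (hc : ∀ σ, c σ + c σ = 0) (hloc : LocallyTrivial W K c)
    {d₁ d₂ d₃ : ℤ} {β₁ β₂ β₃ : AlgebraicClosure ℚ} (hd₁ : d₁ ≠ 0) (hd₂ : d₂ ≠ 0) (hd₃ : d₃ ≠ 0)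
    (hβ₁ : β₁ ^ 2 = (d₁ : AlgebraicClosure ℚ)) (hβ₂ : β₂ ^ 2 = (d₂ : AlgebraicClosure ℚ))
    (hβ₃ : β₃ ^ 2 = (d₃ : AlgebraicClosure ℚ))
    (h₁ : ∀ σ, σ β₁ = (((h.bc (AlgebraicClosure ℚ)).sgn (c σ) : ℤ) : AlgebraicClosure ℚ) * β₁)
    (h₂ : ∀ σ, σ β₂ = (((h.rot.bc (AlgebraicClosure ℚ)).sgn (c σ) : ℤ) : AlgebraicClosure ℚ) * β₂)
    (h₃ : ∀ σ, σ β₃ =
      (((h.rot.rot.bc (AlgebraicClosure ℚ)).sgn (c σ) : ℤ) : AlgebraicClosure ℚ) * β₃) :
    LocCond e₁ e₂ e₃ d₁ d₂ d₃ K := by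
  obtain ⟨ι⟩ := exists_emb K
  obtain ⟨P, hP⟩ := hloc ι
  have hP2 : ∀ τ : AlgebraicClosure K ≃ₐ[K] AlgebraicClosure K,
      Affine.Point.map (W' := W) (τ : AlgebraicClosure K →ₐ[K] AlgebraicClosure K) (P + P) =
        P + P := by
    intro τ
    obtain ⟨σ, hσ⟩ := exists_restrict ι τ
    have h1 := hP τ σ hσ
    have h2 : Affine.Point.map (W' := W) (τ : AlgebraicClosure K →ₐ[K] AlgebraicClosure K) P =
        P + Affine.Point.map (W' := W) ι (c σ) := by rw [h1]; abel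
    have h3 : Affine.Point.map (W' := W) ι (c σ) + Affine.Point.map (W' := W) ι (c σ) = 0 := by
      rw [← map_add, hc σ, _root_.map_zero]
    rw [map_add, h2]
    calc P + Affine.Point.map (W' := W) ι (c σ) + (P + Affine.Point.map (W' := W) ι (c σ))
        = P + P + (Affine.Point.map (W' := W) ι (c σ) + Affine.Point.map (W' := W) ι (c σ)) := by
          abel
      _ = P + P := by rw [h3, add_zero]
  by_cases h0 : P + P = 0
  · left
    have hc0 : ∀ (τ : AlgebraicClosure K ≃ₐ[K] AlgebraicClosure K) (σ : GQ),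
        (∀ x, ι (σ x) = τ (ι x)) → c σ = 0 := by
      intro τ σ hσ
      have h1 := hP τ σ hσ
      rw [map_self_of_two (τ : AlgebraicClosure K →ₐ[K] AlgebraicClosure K) h h0, sub_self] at h1
      apply Affine.Point.map_injective (W' := W) ι
      rw [h1, _root_.map_zero]
    obtain ⟨t₁, ht₁⟩ := local_sq h ι hc0 hβ₁ h₁
    obtain ⟨t₂, ht₂⟩ := local_sq h.rot ι hc0 hβ₂ h₂
    obtain ⟨t₃, ht₃⟩ := local_sq h.rot.rot ι hc0 hβ₃ h₃
    exact ⟨t₁, t₂, t₃, ht₁, ht₂, ht₃⟩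
  · right
    obtain ⟨x, hx⟩ : ∃ x : K, algebraMap K (AlgebraicClosure K) x = xc _ (P + P) := by
      apply exists_of_fixed
      intro τ
      have h1 := map_xc (W := W) (τ : AlgebraicClosure K →ₐ[K] AlgebraicClosure K) (P + P)
      rw [hP2 τ] at h1
      exact h1.symm
    obtain ⟨s₁, hs₁⟩ := local_coord h hc ι h0 hP hd₁ hβ₁ h₁
    obtain ⟨s₂, hs₂⟩ := local_coord h.rot hc ι h0 hP hd₂ hβ₂ h₂
    obtain ⟨s₃, hs₃⟩ := local_coord h.rot.rot hc ι h0 hP hd₃ hβ₃ h₃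
    have halg : ∀ e : ℚ, algebraMap ℚ (AlgebraicClosure K) e =
        algebraMap K (AlgebraicClosure K) (algebraMap ℚ K e) := fun e =>
      IsScalarTower.algebraMap_apply ℚ K (AlgebraicClosure K) e
    refine ⟨x, s₁, s₂, s₃, ?_, ?_, ?_⟩ <;> apply (algebraMap K (AlgebraicClosure K)).injective
    · rw [map_sub, hx, ← halg, hs₁]
    · rw [map_sub, hx, ← halg, hs₂]
    · rw [map_sub, hx, ← halg, hs₃]

end Vale.Agent.P014.H71
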