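import Vale.Agent.P014.H71.PadicSq
import Vale.Agent.P014.H71.TorsOrd

/-!
# Tamagawa numbers
-/

namespace Vale.Agent.P014.H71

open WeierstrassCurve
open scoped Classical

theorem norm_sub_of_lt {p : ℕ} [Fact p.Prime] {x e : ℚ_[p]} (h : ‖e‖ < ‖x‖) : ‖x - e‖ = ‖x‖ := by
  have h1 : ‖x + -e‖ = max ‖x‖ ‖-e‖ := Padic.add_eq_max_of_ne (by rw [norm_neg]; exact h.ne')
  rw [← sub_eq_add_neg, norm_neg, max_eq_left h.le] at h1
  exact h1

theorem norm_add_lt {p : ℕ} [Fact p.Prime] {x y : ℚ_[p]} {c : ℝ} (hx : ‖x‖ < c) (hy : ‖y‖ < c) :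
    ‖x + y‖ < c := (Padic.nonarchimedean x y).trans_lt (max_lt hx hy)

theorem norm_sub_lt {p : ℕ} [Fact p.Prime] {x y : ℚ_[p]} {c : ℝ} (hx : ‖x‖ < c) (hy : ‖y‖ < c) :
    ‖x - y‖ < c := by
  rw [sub_eq_add_neg]; exact norm_add_lt hx (by rwa [norm_neg])

theorem norm_mul_lt {p : ℕ} [Fact p.Prime] {x y : ℚ_[p]} (hx : ‖x‖ < 1) (hy : ‖y‖ ≤ 1) :
    ‖x * y‖ < 1 := by
  rw [norm_mul]
  calc ‖x‖ * ‖y‖ ≤ ‖x‖ * 1 := mul_le_mul_of_nonneg_left hy (norm_nonneg _)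
    _ < 1 := by rw [mul_one]; exact hx

/-- index of a subgroup from representatives -/
theorem index_of_reps {G : Type*} [AddCommGroup G] (H : AddSubgroup G) (S : Finset G)
    (hcov : ∀ g, ∃ t ∈ S, g + t ∈ H) (hsep : ∀ s ∈ S, ∀ t ∈ S, s - t ∈ H → s = t) :
    H.index = S.card := by
  have hb : Function.Bijective (fun s : S => ((-(s : G) : G) : G ⧸ H)) := by
    constructor
    · rintro ⟨s, hs⟩ ⟨t, ht⟩ hst
      have h1 : -(-s) + -t ∈ H := QuotientAddGroup.eq.mp hst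
      apply Subtype.ext
      exact hsep s hs t ht (by rw [neg_neg, ← sub_eq_add_neg] at h1; exact h1)
    · intro x
      obtain ⟨g, rfl⟩ := QuotientAddGroup.mk_surjective x
      obtain ⟨t, ht, hgt⟩ := hcov g
      refine ⟨⟨t, ht⟩, ?_⟩
      apply QuotientAddGroup.eq.mpr
      rw [neg_neg, add_comm]
      exact hgt
  rw [AddSubgroup.index, ← Nat.card_congr (Equiv.ofBijective _ hb)]
  simp

section

variable {E : WeierstrassCurve ℚ} {e₁ e₂ e₃ : ℚ} {p : ℕ} [hp : Fact p.Prime]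

theorem nonsing_zero : NonsingularReduction E p 0 := trivial

theorem nonsing_pt (h : T3 E e₁ e₂ e₃) {x η : ℚ_[p]} (hη) :
    NonsingularReduction E p ((h.bc ℚ_[p]).pt x η hη) ↔ 1 < ‖x‖ ∨
      1 ≤ ‖((E.a₁ : ℚ_[p]) * η - 2 * ((x - algebraMap ℚ ℚ_[p] e₁) * (x - algebraMap ℚ ℚ_[p] e₂) +
        (x - algebraMap ℚ ℚ_[p] e₁) * (x - algebraMap ℚ ℚ_[p] e₃) +
        (x - algebraMap ℚ ℚ_[p] e₂) * (x - algebraMap ℚ ℚ_[p] e₃))) / 2‖ ∨ 1 ≤ ‖η‖ := by
  have hH := h.bc ℚ_[p]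
  set y : ℚ_[p] := (η - (E⁄ℚ_[p]).a₁ * x - (E⁄ℚ_[p]).a₃) / 2 with hy
  have hy2 : 2 * y = η - (E⁄ℚ_[p]).a₁ * x - (E⁄ℚ_[p]).a₃ := by rw [hy]; field_simp
  have a1 : (E⁄ℚ_[p]).a₁ = (E.a₁ : ℚ_[p]) := by simp [WeierstrassCurve.baseChange]
  have a2 : (E⁄ℚ_[p]).a₂ = (E.a₂ : ℚ_[p]) := by simp [WeierstrassCurve.baseChange]
  have a3 : (E⁄ℚ_[p]).a₃ = (E.a₃ : ℚ_[p]) := by simp [WeierstrassCurve.baseChange]
  have a4 : (E⁄ℚ_[p]).a₄ = (E.a₄ : ℚ_[p]) := by simp [WeierstrassCurve.baseChange]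
  have b2 := hH.b2
  have b4 := hH.b4
  simp only [WeierstrassCurve.b₂, WeierstrassCurve.b₄] at b2 b4
  have h1 : NonsingularReduction E p ((h.bc ℚ_[p]).pt x η hη) ↔ (1 < ‖x‖ ∨
      1 ≤ ‖(E.a₁ : ℚ_[p]) * y - (3 * x ^ 2 + 2 * (E.a₂ : ℚ_[p]) * x + (E.a₄ : ℚ_[p]))‖ ∨
      1 ≤ ‖2 * y + (E.a₁ : ℚ_[p]) * x + (E.a₃ : ℚ_[p])‖) := Iff.rfl
  rw [h1, ← a1, ← a2, ← a3, ← a4]
  have h2 : 2 * y + (E⁄ℚ_[p]).a₁ * x + (E⁄ℚ_[p]).a₃ = η := by rw [hy2]; ring
  have h3 : (E⁄ℚ_[p]).a₁ * y - (3 * x ^ 2 + 2 * (E⁄ℚ_[p]).a₂ * x + (E⁄ℚ_[p]).a₄) =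
      ((E⁄ℚ_[p]).a₁ * η - 2 * ((x - algebraMap ℚ ℚ_[p] e₁) * (x - algebraMap ℚ ℚ_[p] e₂) +
        (x - algebraMap ℚ ℚ_[p] e₁) * (x - algebraMap ℚ ℚ_[p] e₃) +
        (x - algebraMap ℚ ℚ_[p] e₂) * (x - algebraMap ℚ ℚ_[p] e₃))) / 2 := by
    rw [eq_div_iff two_ne_zero]
    linear_combination (E⁄ℚ_[p]).a₁ * hy2 - b4 - x * b2
  rw [h2, h3]

end

/-! ### Primes dividing `n` -/

section additive

variable {p : ℕ} [hp : Fact p.Prime] {V : WeierstrassCurve ℚ_[p]} {f₁ f₂ f₃ : ℚ_[p]}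

/-- valuations of the 2-torsion points at a prime dividing `n` -/
structure AddHyp (f₁ f₂ f₃ : ℚ_[p]) : Prop where
  hp2 : p ≠ 2
  n1 : ‖f₁‖ < 1
  n2 : ‖f₂‖ < 1
  n3 : ‖f₃‖ < 1
  d12 : ‖f₁ - f₂‖ = (p : ℝ)⁻¹
  d13 : ‖f₁ - f₃‖ = (p : ℝ)⁻¹
  d23 : ‖f₂ - f₃‖ = (p : ℝ)⁻¹

theorem AddHyp.rot (A : AddHyp f₁ f₂ f₃) : AddHyp f₂ f₃ f₁ :=
  ⟨A.hp2, A.n2, A.n3, A.n1, A.d23, by rw [norm_sub_rev]; exact A.d12,
    by rw [norm_sub_rev]; exact A.d13⟩

theorem AddHyp.norm_four (A : AddHyp f₁ f₂ f₃) : ‖(4 : ℚ_[p])‖ = 1 := by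
  have : (4 : ℚ_[p]) = 2 * 2 := by norm_num
  rw [this, norm_mul, padic_norm_two A.hp2, mul_one]

theorem AddHyp.norm_eta (A : AddHyp f₁ f₂ f₃) {x η : ℚ_[p]}
    (hη : η ^ 2 = 4 * ((x - f₁) * (x - f₂) * (x - f₃))) :
    ‖η‖ ^ 2 = ‖x - f₁‖ * ‖x - f₂‖ * ‖x - f₃‖ := by
  rw [← norm_pow, hη, norm_mul, norm_mul, norm_mul, A.norm_four, one_mul]

theorem AddHyp.isTwo_iff (A : AddHyp f₁ f₂ f₃) (H : T3 V f₁ f₂ f₃) {x η : ℚ_[p]} (hη) :
    (∃ R, R + R = H.pt x η hη) ↔ 1 ≤ ‖x‖ := by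
  constructor
  · rintro ⟨R, hR⟩
    by_contra hc
    push Not at hc
    obtain ⟨r₁, hr₁⟩ := sq_of_isTwo H hη hR
    have hη' : η ^ 2 = 4 * ((x - f₂) * (x - f₃) * (x - f₁)) := by rw [hη]; ring
    obtain ⟨r₂, hr₂⟩ := sq_of_isTwo H.rot hη' hR
    have key : ∀ {f r : ℚ_[p]}, ‖f‖ < 1 → r ^ 2 = x - f → ‖x - f‖ ≤ (p : ℝ)⁻¹ ^ 2 := by
      intro f r hf hr
      have h1 : ‖r‖ ^ 2 < 1 := by
        rw [← norm_pow, hr]; exact norm_sub_lt hc hf
      have h2 : ‖r‖ < 1 := by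
        by_contra h3
        push Not at h3
        nlinarith
      have h3 := norm_lt_one_le h2
      rw [← hr, norm_pow]
      exact pow_le_pow_left₀ (norm_nonneg _) h3 2
    have k1 := key A.n1 hr₁
    have k2 := key A.n2 hr₂
    have h4 : ‖f₁ - f₂‖ ≤ (p : ℝ)⁻¹ ^ 2 := by
      have : f₁ - f₂ = (x - f₂) + -(x - f₁) := by ring
      rw [this]
      refine (Padic.nonarchimedean _ _).trans (max_le k2 ?_)
      rw [norm_neg]; exact k1
    rw [A.d12] at h4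
    have hp1 : (1 : ℝ) < p := by exact_mod_cast hp.out.one_lt
    have h5 : (p : ℝ)⁻¹ < 1 := inv_lt_one_of_one_lt₀ hp1
    have h6 : 0 < (p : ℝ)⁻¹ := by positivity
    nlinarith
  · intro hx
    have hx0 : x ≠ 0 := by
      rintro rfl; rw [norm_zero] at hx; linarith
    have hnear : ∀ {f : ℚ_[p]}, ‖f‖ < 1 → ∃ r, r ≠ 0 ∧ x - f = x * r ^ 2 := by
      intro f hf
      apply near A.hp2
      have : x - f - x = -f := by ring
      rw [this, norm_neg]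
      exact lt_of_lt_of_le hf hx
    obtain ⟨r₁, h01, hr₁⟩ := hnear A.n1
    obtain ⟨r₂, h02, hr₂⟩ := hnear A.n2
    obtain ⟨r₃, h03, hr₃⟩ := hnear A.n3
    have hs : x = (η / (2 * x * (r₁ * r₂ * r₃))) ^ 2 := by
      rw [div_pow, hη, hr₁, hr₂, hr₃]
      field_simp
      ring
    apply isTwo_of_sq H
    · exact ⟨η / (2 * x * (r₁ * r₂ * r₃)) * r₁, by rw [mul_pow, ← hs, hr₁]⟩
    · exact ⟨η / (2 * x * (r₁ * r₂ * r₃)) * r₂, by rw [mul_pow, ← hs, hr₂]⟩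
    · exact ⟨η / (2 * x * (r₁ * r₂ * r₃)) * r₃, by rw [mul_pow, ← hs, hr₃]⟩

theorem AddHyp.cover_aux (A : AddHyp f₁ f₂ f₃) (H : T3 V f₁ f₂ f₃) {x η : ℚ_[p]} (hη)
    (h : ‖x - f₁‖ < (p : ℝ)⁻¹) : ∃ R, R + R = H.pt x η hη + H.T := by
  by_cases hx : x = f₁
  · subst hx
    have h0 : η = 0 := by
      have : η ^ 2 = 0 := by rw [hη]; ring
      exact pow_eq_zero_iff two_ne_zero |>.mp this
    subst h0
    exact ⟨0, by rw [add_zero]; exact H.two_T.symm⟩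
  · obtain ⟨hh, h1⟩ := H.add_T hη hx
    rw [h1, A.isTwo_iff H]
    have hx' : x - f₁ ≠ 0 := sub_ne_zero.mpr hx
    have hx0 : 0 < ‖x - f₁‖ := norm_pos_iff.mpr hx'
    have h2 := norm_lt_inv_le h
    have h3 : 1 ≤ ‖(f₁ - f₂) * (f₁ - f₃) / (x - f₁)‖ := by
      rw [norm_div, norm_mul, A.d12, A.d13, le_div_iff₀ hx0, one_mul]
      rw [← sq]; exact h2
    have h4 : ‖f₁‖ < ‖(f₁ - f₂) * (f₁ - f₃) / (x - f₁)‖ := lt_of_lt_of_le A.n1 h3
    have h5 : ‖f₁ + (f₁ - f₂) * (f₁ - f₃) / (x - f₁)‖ = ‖(f₁ - f₂) * (f₁ - f₃) / (x - f₁)‖ := by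
      rw [Padic.add_eq_max_of_ne h4.ne, max_eq_right h4.le]
    rw [h5]; exact h3

theorem AddHyp.cover (A : AddHyp f₁ f₂ f₃) (H : T3 V f₁ f₂ f₃) (P : V.toAffine.Point) :
    ∃ t, (t = 0 ∨ t = H.T ∨ t = H.rot.T ∨ t = H.rot.rot.T) ∧ ∃ R, R + R = P + t := by
  rcases H.eq_zero_or_pt P with rfl | ⟨x, η, hη, rfl⟩
  · exact ⟨0, Or.inl rfl, 0, rfl⟩
  · by_cases hx : 1 ≤ ‖x‖
    · obtain ⟨R, hR⟩ := (A.isTwo_iff H hη).mpr hx
      exact ⟨0, Or.inl rfl, R, by rw [hR, add_zero]⟩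
    · push Not at hx
      by_cases h1 : ‖x - f₁‖ < (p : ℝ)⁻¹
      · obtain ⟨R, hR⟩ := A.cover_aux H hη h1
        exact ⟨H.T, Or.inr (Or.inl rfl), R, hR⟩
      by_cases h2 : ‖x - f₂‖ < (p : ℝ)⁻¹
      · have hη' : η ^ 2 = 4 * ((x - f₂) * (x - f₃) * (x - f₁)) := by rw [hη]; ring
        obtain ⟨R, hR⟩ := A.rot.cover_aux H.rot hη' h2
        exact ⟨H.rot.T, Or.inr (Or.inr (Or.inl rfl)), R, hR⟩
      by_cases h3 : ‖x - f₃‖ < (p : ℝ)⁻¹
      · have hη' : η ^ 2 = 4 * ((x - f₃) * (x - f₁) * (x - f₂)) := by rw [hη]; ring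
        obtain ⟨R, hR⟩ := A.rot.rot.cover_aux H.rot.rot hη' h3
        exact ⟨H.rot.rot.T, Or.inr (Or.inr (Or.inr rfl)), R, hR⟩
      exfalso
      push Not at h1 h2 h3
      have g1 : ‖x - f₁‖ = (p : ℝ)⁻¹ := le_antisymm (norm_lt_one_le (norm_sub_lt hx A.n1)) h1
      have g2 : ‖x - f₂‖ = (p : ℝ)⁻¹ := le_antisymm (norm_lt_one_le (norm_sub_lt hx A.n2)) h2
      have g3 : ‖x - f₃‖ = (p : ℝ)⁻¹ := le_antisymm (norm_lt_one_le (norm_sub_lt hx A.n3)) h3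
      have h4 := A.norm_eta hη
      rw [g1, g2, g3] at h4
      have hp1 : (1 : ℝ) < p := by exact_mod_cast hp.out.one_lt
      have hη0 : η ≠ 0 := by
        rintro rfl
        rw [norm_zero] at h4
        have : 0 < (p : ℝ)⁻¹ := by positivity
        have : 0 < (p : ℝ)⁻¹ * (p : ℝ)⁻¹ * (p : ℝ)⁻¹ := by positivity
        linarith
      rw [Padic.norm_eq_zpow_neg_valuation hη0] at h4
      have h5 : ((p : ℝ) ^ (-η.valuation)) ^ 2 = (p : ℝ) ^ (-η.valuation * 2) := by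
        rw [zpow_mul]; norm_cast
      have h6 : (p : ℝ)⁻¹ * (p : ℝ)⁻¹ * (p : ℝ)⁻¹ = (p : ℝ) ^ (-3 : ℤ) := by
        rw [zpow_neg]; norm_cast; rw [pow_succ, pow_two]; push_cast; rw [mul_inv, mul_inv]
      rw [h5, h6] at h4
      have h7 := zpow_right_injective₀ (by linarith) hp1.ne' h4
      omega

theorem AddHyp.index (A : AddHyp f₁ f₂ f₃) (H : T3 V f₁ f₂ f₃) (N : AddSubgroup V.toAffine.Point)
    (hN : ∀ P, P ∈ N ↔ ∃ R, R + R = P) : N.index = 4 := by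
  let S : Finset V.toAffine.Point := {0, H.T, H.rot.T, H.rot.rot.T}
  have a1 := H.T_ne_zero.symm
  have a2 := H.rot.T_ne_zero.symm
  have a3 := H.rot.rot.T_ne_zero.symm
  have b1 := H.T1_ne_T2
  have b2 := H.T1_ne_T3
  have b3 := H.T2_ne_T3
  have hcard : S.card = 4 := by
    simp only [S]
    rw [Finset.card_insert_of_notMem, Finset.card_insert_of_notMem, Finset.card_insert_of_notMem,
      Finset.card_singleton]
    · simpa using b3
    · simp only [Finset.mem_insert, Finset.mem_singleton, not_or]; exact ⟨b1, b2⟩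
    · simp only [Finset.mem_insert, Finset.mem_singleton, not_or]; exact ⟨a1, a2, a3⟩
  rw [← hcard]
  have n1 : H.T ∉ N := by
    rw [hN]
    intro hc
    have := (A.isTwo_iff H (x := f₁) (η := 0) (by ring)).mp hc
    linarith [A.n1]
  have n2 : H.rot.T ∉ N := by
    rw [hN]
    intro hc
    have := (A.rot.isTwo_iff H.rot (x := f₂) (η := 0) (by ring)).mp hc
    linarith [A.n2]
  have n3 : H.rot.rot.T ∉ N := by
    rw [hN]
    intro hc
    have := (A.rot.rot.isTwo_iff H.rot.rot (x := f₃) (η := 0) (by ring)).mp hc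
    linarith [A.n3]
  apply index_of_reps
  · intro P
    obtain ⟨t, ht, R, hR⟩ := A.cover H P
    exact ⟨t, by simpa [S] using ht, (hN _).mpr ⟨R, hR⟩⟩
  · have hneg : ∀ t ∈ S, -t = t := by
      intro t ht
      simp only [S, Finset.mem_insert, Finset.mem_singleton] at ht
      have key : ∀ {t : V.toAffine.Point}, t + t = 0 → -t = t := fun h =>
        neg_eq_of_add_eq_zero_left h
      rcases ht with rfl | rfl | rfl | rfl
      · exact neg_zero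
      · exact key H.two_T
      · exact key H.rot.two_T
      · exact key H.rot.rot.two_T
    intro s hs t ht hst
    rw [sub_eq_add_neg, hneg t ht] at hst
    simp only [S, Finset.mem_insert, Finset.mem_singleton] at hs ht
    have t12 := H.T_add_T
    have t23 := H.T2_add_T3
    have t31 := H.T3_add_T1
    have t21 : H.rot.T + H.T = H.rot.rot.T := by rw [add_comm]; exact t12
    have t32 : H.rot.rot.T + H.rot.T = H.T := by rw [add_comm]; exact t23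
    have t13 : H.T + H.rot.rot.T = H.rot.T := by rw [add_comm]; exact t31
    rcases hs with rfl | rfl | rfl | rfl <;> rcases ht with rfl | rfl | rfl | rfl
    · rfl
    · rw [zero_add] at hst; exact absurd hst n1
    · rw [zero_add] at hst; exact absurd hst n2
    · rw [zero_add] at hst; exact absurd hst n3
    · rw [add_zero] at hst; exact absurd hst n1
    · rfl
    · rw [t12] at hst; exact absurd hst n3
    · rw [t13] at hst; exact absurd hst n2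
    · rw [add_zero] at hst; exact absurd hst n2
    · rw [t21] at hst; exact absurd hst n3
    · rfl
    · rw [t23] at hst; exact absurd hst n1
    · rw [add_zero] at hst; exact absurd hst n3
    · rw [t31] at hst; exact absurd hst n2
    · rw [t32] at hst; exact absurd hst n1
    · rfl

end additive

/-- the subgroup `2E` -/
def twoE {G : Type*} [AddCommGroup G] : AddSubgroup G := (nsmulAddMonoidHom (α := G) 2).range

theorem mem_twoE {G : Type*} [AddCommGroup G] {x : G} : x ∈ (twoE : AddSubgroup G) ↔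
    ∃ R, R + R = x := by
  constructor
  · rintro ⟨R, hR⟩
    exact ⟨R, by rw [← hR]; exact (two_nsmul R).symm⟩
  · rintro ⟨R, hR⟩
    exact ⟨R, by rw [← hR]; exact two_nsmul R⟩

theorem closure_eq_of_set_eq {G : Type*} [AddCommGroup G] {S : Set G} (N : AddSubgroup G)
    (h : ∀ x, x ∈ S ↔ x ∈ N) : AddSubgroup.closure S = N := by
  have : S = (N : Set G) := by ext x; exact h x
  rw [this, AddSubgroup.closure_eq]

theorem tamagawa_additive {E : WeierstrassCurve ℚ} {e₁ e₂ e₃ : ℚ} {p : ℕ} [hp : Fact p.Prime]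
    (h : T3 E e₁ e₂ e₃) (A : AddHyp (algebraMap ℚ ℚ_[p] e₁) (algebraMap ℚ ℚ_[p] e₂)
      (algebraMap ℚ ℚ_[p] e₃)) (ha : ‖(E.a₁ : ℚ_[p])‖ ≤ 1) : tamagawa E p = 4 := by
  unfold tamagawa
  rw [closure_eq_of_set_eq twoE]
  · exact A.index (h.bc ℚ_[p]) _ fun P => mem_twoE
  · intro P
    rw [mem_twoE]
    rcases (h.bc ℚ_[p]).eq_zero_or_pt P with rfl | ⟨x, η, hη, rfl⟩
    · exact ⟨fun _ => ⟨0, add_zero 0⟩, fun _ => (nonsing_zero : NonsingularReduction E p 0)⟩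
    · rw [A.isTwo_iff (h.bc ℚ_[p])]
      have h0 : ((h.bc ℚ_[p]).pt x η hη ∈ {P | NonsingularReduction E p P}) ↔
        NonsingularReduction E p ((h.bc ℚ_[p]).pt x η hη) := Iff.rfl
      rw [h0, nonsing_pt h hη]
      have hsq := A.norm_eta hη
      constructor
      · intro h1
        by_contra hc
        push Not at hc
        have g1 : ‖x - algebraMap ℚ ℚ_[p] e₁‖ < 1 := norm_sub_lt hc A.n1
        have g2 : ‖x - algebraMap ℚ ℚ_[p] e₂‖ < 1 := norm_sub_lt hc A.n2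
        have g3 : ‖x - algebraMap ℚ ℚ_[p] e₃‖ < 1 := norm_sub_lt hc A.n3
        have hη1 : ‖η‖ < 1 := by
          by_contra h2
          push Not at h2
          have h3 : 1 ≤ ‖η‖ ^ 2 := one_le_pow₀ h2
          rw [hsq] at h3
          have h4 : ‖x - algebraMap ℚ ℚ_[p] e₁‖ * ‖x - algebraMap ℚ ℚ_[p] e₂‖ ≤ 1 :=
            mul_le_one₀ g1.le (norm_nonneg _) g2.le
          have h5 := mul_le_mul_of_nonneg_right h4 (norm_nonneg (x - algebraMap ℚ ℚ_[p] e₃))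
          linarith
        rcases h1 with h1 | h1 | h1
        · linarith
        · rw [norm_div, padic_norm_two A.hp2, div_one] at h1
          have h2 : ‖(E.a₁ : ℚ_[p]) * η‖ < 1 := by
            rw [mul_comm]; exact norm_mul_lt hη1 ha
          have h3 : ‖(2 : ℚ_[p]) * ((x - algebraMap ℚ ℚ_[p] e₁) * (x - algebraMap ℚ ℚ_[p] e₂) +
            (x - algebraMap ℚ ℚ_[p] e₁) * (x - algebraMap ℚ ℚ_[p] e₃) +
            (x - algebraMap ℚ ℚ_[p] e₂) * (x - algebraMap ℚ ℚ_[p] e₃))‖ < 1 := by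
            rw [norm_mul, padic_norm_two A.hp2, one_mul]
            exact norm_add_lt (norm_add_lt (norm_mul_lt g1 g2.le) (norm_mul_lt g1 g3.le))
              (norm_mul_lt g2 g3.le)
          have := norm_sub_lt h2 h3
          linarith
        · linarith
      · intro h1
        rcases h1.lt_or_eq with h2 | h2
        · exact Or.inl h2
        · right; right
          have g1 : ‖x - algebraMap ℚ ℚ_[p] e₁‖ = 1 := by
            rw [norm_sub_of_lt (by rw [← h2]; exact A.n1), ← h2]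
          have g2 : ‖x - algebraMap ℚ ℚ_[p] e₂‖ = 1 := by
            rw [norm_sub_of_lt (by rw [← h2]; exact A.n2), ← h2]
          have g3 : ‖x - algebraMap ℚ ℚ_[p] e₃‖ = 1 := by
            rw [norm_sub_of_lt (by rw [← h2]; exact A.n3), ← h2]
          rw [g1, g2, g3] at hsq
          by_contra hc
          push Not at hc
          have := norm_nonneg η
          nlinarith

end Vale.Agent.P014.H71
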