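import Vale.Agent.P014.H71.Tam

/-!
# Tamagawa number at 17
-/

namespace Vale.Agent.P014.H71

open WeierstrassCurve
open scoped Classical

variable {p : ℕ} [hp : Fact p.Prime] {V : WeierstrassCurve ℚ_[p]} {f₁ f₂ f₃ : ℚ_[p]}

/-- valuations at 17 -/
structure MulHyp (f₁ f₂ f₃ : ℚ_[p]) : Prop where
  hp2 : p ≠ 2
  n1 : ‖f₁‖ ≤ 1
  n2 : ‖f₂‖ ≤ 1
  n3 : ‖f₃‖ ≤ 1
  d12 : ‖f₁ - f₂‖ = 1
  d13 : ‖f₁ - f₃‖ < 1
  d13' : ‖f₁ - f₃‖ = (p : ℝ)⁻¹
  d23 : ‖f₂ - f₃‖ = 1
  ns12 : ¬ ∃ r, r ^ 2 = f₁ - f₂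
  ns21 : ¬ ∃ r, r ^ 2 = f₂ - f₁
  ns23 : ¬ ∃ r, r ^ 2 = f₂ - f₃

/-- `2E ∪ (T₂ + 2E)` -/
def halfE (H : T3 V f₁ f₂ f₃) : AddSubgroup V.toAffine.Point where
  carrier := {P | (∃ R, R + R = P) ∨ ∃ R, R + R = P + H.rot.T}
  zero_mem' := Or.inl ⟨0, add_zero 0⟩
  add_mem' := by
    have h2 := H.rot.two_T
    rintro P Q (⟨R, hR⟩ | ⟨R, hR⟩) (⟨S, hS⟩ | ⟨S, hS⟩)
    · left; exact ⟨R + S, by rw [← hR, ← hS]; abel⟩
    · right; exact ⟨R + S, by
        rw [← hR]
        calc R + S + (R + S) = R + R + (S + S) := by abel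
          _ = R + R + Q + H.rot.T := by rw [hS]; abel⟩
    · right; exact ⟨R + S, by
        rw [← hS]
        calc R + S + (R + S) = S + S + (R + R) := by abel
          _ = P + (S + S) + H.rot.T := by rw [hR]; abel⟩
    · left; exact ⟨R + S, by
        calc R + S + (R + S) = (R + R) + (S + S) := by abel
          _ = P + Q + (H.rot.T + H.rot.T) := by rw [hR, hS]; abel
          _ = P + Q := by rw [h2, add_zero]⟩
  neg_mem' := by
    have h2 := H.rot.two_T
    rintro P (⟨R, hR⟩ | ⟨R, hR⟩)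
    · left; exact ⟨-R, by rw [← hR]; abel⟩
    · right; exact ⟨-R, by
        calc -R + -R = -(R + R) := by abel
          _ = -P + -H.rot.T + (H.rot.T + H.rot.T) := by rw [hR, h2]; abel
          _ = -P + H.rot.T := by abel⟩

theorem MulHyp.norm_eta (A : MulHyp f₁ f₂ f₃) {x η : ℚ_[p]}
    (hη : η ^ 2 = 4 * ((x - f₁) * (x - f₂) * (x - f₃))) :
    ‖η‖ ^ 2 = ‖x - f₁‖ * ‖x - f₂‖ * ‖x - f₃‖ := by
  have h4 : ‖(4 : ℚ_[p])‖ = 1 := by
    have : (4 : ℚ_[p]) = 2 * 2 := by norm_num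
    rw [this, norm_mul, padic_norm_two A.hp2, mul_one]
  rw [← norm_pow, hη, norm_mul, norm_mul, norm_mul, h4, one_mul]

theorem MulHyp.mem_iff (A : MulHyp f₁ f₂ f₃) (H : T3 V f₁ f₂ f₃) {x η : ℚ_[p]} (hη) :
    H.pt x η hη ∈ halfE H ↔ 1 ≤ ‖x - f₁‖ := by
  have hη' : η ^ 2 = 4 * ((x - f₂) * (x - f₃) * (x - f₁)) := by rw [hη]; ring
  have hmul : ∃ r, r ≠ 0 ∧ r ^ 2 = (f₂ - f₃) * (f₂ - f₁) := by
    obtain ⟨r, hr⟩ := sq_mul_of_not_sq A.hp2 A.d23 (by rw [norm_sub_rev]; exact A.d12) A.ns23 A.ns21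
    refine ⟨r, ?_, hr⟩
    rintro rfl
    have h1 : f₂ - f₃ ≠ 0 := by
      intro hc; have := A.d23; rw [hc, norm_zero] at this; norm_num at this
    have h2 : f₂ - f₁ ≠ 0 := by
      intro hc; have := A.d12; rw [norm_sub_rev, hc, norm_zero] at this; norm_num at this
    exact mul_ne_zero h1 h2 (by rw [← hr]; ring)
  obtain ⟨m, hm0, hm⟩ := hmul
  constructor
  · intro hP
    have hsq : ∃ r, r ^ 2 = x - f₂ := by
      rcases hP with ⟨R, hR⟩ | ⟨R, hR⟩
      · exact sq_of_isTwo H.rot hη' hR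
      · by_cases hx : x = f₂
        · exact ⟨0, by rw [hx]; ring⟩
        · obtain ⟨hh, h1⟩ := H.rot.add_T hη' hx
          have h2 : H.pt x η hη + H.rot.T = H.rot.pt x η hη' + H.rot.T := rfl
          rw [h2, h1] at hR
          obtain ⟨r, hr⟩ := sq_of_isTwo H.rot hh hR
          have hx' : x - f₂ ≠ 0 := sub_ne_zero.mpr hx
          have h3 : r ^ 2 = (f₂ - f₃) * (f₂ - f₁) / (x - f₂) := by rw [hr]; ring
          rw [← hm] at h3
          have hr0 : r ≠ 0 := by
            rintro rfl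
            have : m ^ 2 / (x - f₂) = 0 := by rw [← h3]; ring
            rcases div_eq_zero_iff.mp this with h4 | h4
            · exact hm0 (pow_eq_zero_iff two_ne_zero |>.mp h4)
            · exact hx' h4
          refine ⟨m / r, ?_⟩
          rw [div_pow, h3]
          field_simp
    obtain ⟨r, hr⟩ := hsq
    by_contra hc
    push Not at hc
    obtain ⟨s, hs0, hs⟩ := near A.hp2 (x := x - f₂) (y := f₁ - f₂) (by
      have : x - f₂ - (f₁ - f₂) = x - f₁ := by ring
      rw [this, A.d12]; exact hc)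
    apply A.ns12
    exact ⟨r / s, by rw [div_pow, hr, hs]; field_simp⟩
  · intro hx
    obtain ⟨s, hs0, hs⟩ := near A.hp2 (x := x - f₃) (y := x - f₁) (by
      have : x - f₃ - (x - f₁) = f₁ - f₃ := by ring
      rw [this]; exact lt_of_lt_of_le A.d13 hx)
    have hx1 : x - f₁ ≠ 0 := by
      intro hc; rw [hc, norm_zero] at hx; linarith
    by_cases hx2 : x = f₂
    · subst hx2
      have h0 : η = 0 := by
        have : η ^ 2 = 0 := by rw [hη]; ring
        exact pow_eq_zero_iff two_ne_zero |>.mp this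
      subst h0
      right
      refine ⟨0, ?_⟩
      rw [add_zero]
      exact H.rot.two_T.symm
    · have hx2' : x - f₂ ≠ 0 := sub_ne_zero.mpr hx2
      have hr2 : ∃ r, r ≠ 0 ∧ r ^ 2 = x - f₂ := by
        refine ⟨η / (2 * (x - f₁) * s), ?_, ?_⟩
        · have hη0 : η ≠ 0 := by
            rintro rfl
            have h5 : 4 * ((x - f₁) * (x - f₂) * (x - f₃)) = 0 := by rw [← hη]; ring
            rw [hs] at h5
            have : 4 * ((x - f₁) * (x - f₂) * ((x - f₁) * s ^ 2)) ≠ 0 := by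
              refine mul_ne_zero (by norm_num) (mul_ne_zero (mul_ne_zero hx1 hx2')
                (mul_ne_zero hx1 (pow_ne_zero 2 hs0)))
            exact this h5
          exact div_ne_zero hη0 (mul_ne_zero (mul_ne_zero two_ne_zero hx1) hs0)
        · rw [div_pow, hη, hs]; field_simp; ring
      obtain ⟨r₂, hr₂0, hr₂⟩ := hr2
      by_cases hsq : ∃ r, r ^ 2 = x - f₁
      · left
        obtain ⟨r₁, hr₁⟩ := hsq
        exact isTwo_of_sq H hη ⟨r₁, hr₁⟩ ⟨r₂, hr₂⟩ ⟨r₁ * s, by rw [mul_pow, hr₁, hs]⟩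
      · right
        have hx1' : ‖x - f₁‖ = 1 := by
          by_contra hc
          have hgt : 1 < ‖x - f₁‖ := lt_of_le_of_ne hx (Ne.symm hc)
          obtain ⟨t, ht0, ht⟩ := near A.hp2 (x := x - f₂) (y := x - f₁) (by
            have : x - f₂ - (x - f₁) = f₁ - f₂ := by ring
            rw [this, A.d12]; exact hgt)
          apply hsq
          exact ⟨r₂ / t, by rw [div_pow, hr₂, ht]; field_simp⟩
        obtain ⟨u, hu⟩ := sq_mul_of_not_sq A.hp2 A.d23 hx1' A.ns23 hsq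
        obtain ⟨v, hv⟩ := sq_mul_of_not_sq A.hp2 (by rw [norm_sub_rev]; exact A.d12) hx1' A.ns21 hsq
        have h2 : H.pt x η hη + H.rot.T = H.rot.pt x η hη' + H.rot.T := rfl
        rw [h2]
        apply isTwo_add_T H.rot hη' hx2
        · exact ⟨m / r₂, by rw [div_pow, hm, hr₂]⟩
        · exact ⟨u / r₂, by rw [div_pow, hu, hr₂]⟩
        · exact ⟨v * s / r₂, by rw [div_pow, mul_pow, hv, hr₂, hs]; ring⟩

theorem MulHyp.T1_not_mem (A : MulHyp f₁ f₂ f₃) (H : T3 V f₁ f₂ f₃) : H.T ∉ halfE H := by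
  intro hc
  have := (A.mem_iff H (x := f₁) (η := 0) (by ring)).mp hc
  rw [sub_self, norm_zero] at this
  linarith

theorem MulHyp.add_T1 (A : MulHyp f₁ f₂ f₃) (H : T3 V f₁ f₂ f₃) {P : V.toAffine.Point}
    (hP : P ∉ halfE H) : P + H.T ∈ halfE H := by
  rcases H.eq_zero_or_pt P with rfl | ⟨x, η, hη, rfl⟩
  · exact absurd (zero_mem _) hP
  · rw [A.mem_iff H] at hP
    push Not at hP
    by_cases hx : x = f₁
    · subst hx
      have h0 : η = 0 := by
        have : η ^ 2 = 0 := by rw [hη]; ring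
        exact pow_eq_zero_iff two_ne_zero |>.mp this
      subst h0
      have h1 : H.pt x 0 hη + H.T = 0 := H.two_T
      rw [h1]; exact zero_mem _
    · obtain ⟨hh, h1⟩ := H.add_T hη hx
      rw [h1, A.mem_iff H]
      have hx' : x - f₁ ≠ 0 := sub_ne_zero.mpr hx
      have hx0 : 0 < ‖x - f₁‖ := norm_pos_iff.mpr hx'
      have h2 := norm_lt_one_le hP
      have h3 : f₁ + (f₁ - f₂) * (f₁ - f₃) / (x - f₁) - f₁ = (f₁ - f₂) * (f₁ - f₃) / (x - f₁) := by
        ring
      rw [h3, norm_div, norm_mul, A.d12, A.d13', one_mul, le_div_iff₀ hx0, one_mul]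
      exact h2

theorem MulHyp.index (A : MulHyp f₁ f₂ f₃) (H : T3 V f₁ f₂ f₃) : (halfE H).index = 2 := by
  rw [AddSubgroup.index_eq_two_iff]
  refine ⟨H.T, fun P => ?_⟩
  by_cases hP : P ∈ halfE H
  · right
    refine ⟨hP, fun hc => A.T1_not_mem H ?_⟩
    have := (halfE H).sub_mem hc hP
    rwa [add_sub_cancel_left] at this
  · left
    exact ⟨A.add_T1 H hP, hP⟩

theorem tamagawa_mul {E : WeierstrassCurve ℚ} {e₁ e₂ e₃ : ℚ}
    (h : T3 E e₁ e₂ e₃) (A : MulHyp (algebraMap ℚ ℚ_[p] e₁) (algebraMap ℚ ℚ_[p] e₂)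
      (algebraMap ℚ ℚ_[p] e₃)) (ha : ‖(E.a₁ : ℚ_[p])‖ ≤ 1) : tamagawa E p = 2 := by
  unfold tamagawa
  rw [closure_eq_of_set_eq (halfE (h.bc ℚ_[p]))]
  · exact A.index (h.bc ℚ_[p])
  · intro P
    rcases (h.bc ℚ_[p]).eq_zero_or_pt P with rfl | ⟨x, η, hη, rfl⟩
    · exact ⟨fun _ => zero_mem _, fun _ => (nonsing_zero : NonsingularReduction E p 0)⟩
    · rw [A.mem_iff (h.bc ℚ_[p])]
      have h0 : ((h.bc ℚ_[p]).pt x η hη ∈ {P | NonsingularReduction E p P}) ↔
        NonsingularReduction E p ((h.bc ℚ_[p]).pt x η hη) := Iff.rfl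
      rw [h0, nonsing_pt h hη]
      have hsq := A.norm_eta hη
      have h2 := padic_norm_two A.hp2
      constructor
      · intro h1
        by_contra hc
        push Not at hc
        have hxn : ‖x‖ ≤ 1 := by
          have : x = (x - algebraMap ℚ ℚ_[p] e₁) + algebraMap ℚ ℚ_[p] e₁ := by ring
          rw [this]
          exact (Padic.nonarchimedean _ _).trans (max_le hc.le A.n1)
        have g3 : ‖x - algebraMap ℚ ℚ_[p] e₃‖ < 1 := by
          have : x - algebraMap ℚ ℚ_[p] e₃ = (x - algebraMap ℚ ℚ_[p] e₁) +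
            (algebraMap ℚ ℚ_[p] e₁ - algebraMap ℚ ℚ_[p] e₃) := by ring
          rw [this]; exact norm_add_lt hc A.d13
        have g2 : ‖x - algebraMap ℚ ℚ_[p] e₂‖ ≤ 1 := by
          rw [sub_eq_add_neg]
          refine (Padic.nonarchimedean _ _).trans (max_le hxn ?_)
          rw [norm_neg]; exact A.n2
        have hη1 : ‖η‖ < 1 := by
          by_contra h3
          push Not at h3
          have h4 : 1 ≤ ‖η‖ ^ 2 := one_le_pow₀ h3
          rw [hsq] at h4
          have h5 : ‖x - algebraMap ℚ ℚ_[p] e₁‖ * ‖x - algebraMap ℚ ℚ_[p] e₂‖ ≤ 1 :=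
            mul_le_one₀ hc.le (norm_nonneg _) g2
          have h6 := mul_le_mul_of_nonneg_right h5 (norm_nonneg (x - algebraMap ℚ ℚ_[p] e₃))
          linarith
        rcases h1 with h1 | h1 | h1
        · linarith
        · rw [norm_div, h2, div_one] at h1
          have k2 : ‖(E.a₁ : ℚ_[p]) * η‖ < 1 := by
            rw [mul_comm]; exact norm_mul_lt hη1 ha
          have k3 : ‖(2 : ℚ_[p]) * ((x - algebraMap ℚ ℚ_[p] e₁) * (x - algebraMap ℚ ℚ_[p] e₂) +
            (x - algebraMap ℚ ℚ_[p] e₁) * (x - algebraMap ℚ ℚ_[p] e₃) +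
            (x - algebraMap ℚ ℚ_[p] e₂) * (x - algebraMap ℚ ℚ_[p] e₃))‖ < 1 := by
            rw [norm_mul, h2, one_mul]
            exact norm_add_lt (norm_add_lt (norm_mul_lt hc g2) (norm_mul_lt hc g3.le))
              (by rw [mul_comm]; exact norm_mul_lt g3 g2)
          have := norm_sub_lt k2 k3
          linarith
        · linarith
      · intro h1
        by_cases hxn : 1 < ‖x‖
        · exact Or.inl hxn
        right
        push Not at hxn
        have g1 : ‖x - algebraMap ℚ ℚ_[p] e₁‖ = 1 := by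
          apply le_antisymm _ h1
          rw [sub_eq_add_neg]
          refine (Padic.nonarchimedean _ _).trans (max_le hxn ?_)
          rw [norm_neg]; exact A.n1
        have g3 : ‖x - algebraMap ℚ ℚ_[p] e₃‖ = 1 := by
          have : x - algebraMap ℚ ℚ_[p] e₃ = (x - algebraMap ℚ ℚ_[p] e₁) -
            (algebraMap ℚ ℚ_[p] e₃ - algebraMap ℚ ℚ_[p] e₁) := by ring
          rw [this, norm_sub_of_lt, g1]
          rw [g1, norm_sub_rev]; exact A.d13
        have g2 : ‖x - algebraMap ℚ ℚ_[p] e₂‖ ≤ 1 := by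
          rw [sub_eq_add_neg]
          refine (Padic.nonarchimedean _ _).trans (max_le hxn ?_)
          rw [norm_neg]; exact A.n2
        rw [g1, g3, one_mul, mul_one] at hsq
        rcases g2.lt_or_eq with g2' | g2'
        · left
          have hη1 : ‖η‖ < 1 := by
            by_contra h3
            push Not at h3
            have h4 : 1 ≤ ‖η‖ ^ 2 := one_le_pow₀ h3
            rw [hsq] at h4; linarith
          rw [norm_div, h2, div_one]
          have k1 : ‖(x - algebraMap ℚ ℚ_[p] e₁) * (x - algebraMap ℚ ℚ_[p] e₃)‖ = 1 := by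
            rw [norm_mul, g1, g3, one_mul]
          have k2 : ‖(E.a₁ : ℚ_[p]) * η‖ < 1 := by
            rw [mul_comm]; exact norm_mul_lt hη1 ha
          have k3 : ‖(x - algebraMap ℚ ℚ_[p] e₂) * ((x - algebraMap ℚ ℚ_[p] e₁) +
              (x - algebraMap ℚ ℚ_[p] e₃))‖ < 1 := by
            apply norm_mul_lt g2'
            exact (Padic.nonarchimedean _ _).trans (max_le g1.le g3.le)
          have e1 : (E.a₁ : ℚ_[p]) * η - 2 * ((x - algebraMap ℚ ℚ_[p] e₁) *
            (x - algebraMap ℚ ℚ_[p] e₂) + (x - algebraMap ℚ ℚ_[p] e₁) *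
            (x - algebraMap ℚ ℚ_[p] e₃) + (x - algebraMap ℚ ℚ_[p] e₂) *
            (x - algebraMap ℚ ℚ_[p] e₃)) = -(2 * ((x - algebraMap ℚ ℚ_[p] e₁) *
            (x - algebraMap ℚ ℚ_[p] e₃)) - ((E.a₁ : ℚ_[p]) * η - 2 *
            ((x - algebraMap ℚ ℚ_[p] e₂) * ((x - algebraMap ℚ ℚ_[p] e₁) +
              (x - algebraMap ℚ ℚ_[p] e₃))))) := by ring
          have k4 : ‖(2 : ℚ_[p]) * ((x - algebraMap ℚ ℚ_[p] e₁) *
            (x - algebraMap ℚ ℚ_[p] e₃))‖ = 1 := by rw [norm_mul, h2, k1, one_mul]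
          have k5 : ‖(E.a₁ : ℚ_[p]) * η - 2 *
            ((x - algebraMap ℚ ℚ_[p] e₂) * ((x - algebraMap ℚ ℚ_[p] e₁) +
              (x - algebraMap ℚ ℚ_[p] e₃)))‖ < 1 := by
            apply norm_sub_lt k2
            rw [norm_mul, h2, one_mul]; exact k3
          rw [e1, norm_neg, norm_sub_of_lt (by rw [k4]; exact k5), k4]
        · right
          rw [g2'] at hsq
          by_contra hc
          push Not at hc
          have := norm_nonneg η
          nlinarith

end Vale.Agent.P014.H71
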