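import Vale.Agent.P014.H71.Full2

/-!
# 2-torsion points, signs, and the functions `ρ`
-/

namespace Vale.Agent.P014.H71

open WeierstrassCurve

variable {F : Type*} [Field F]

/-- `ρ₁` of a point -/
def rhoP (W : WeierstrassCurve F) (e₁ e₂ e₃ : F) : W.toAffine.Point → F
  | 0 => 0
  | .some x y _ => rho e₁ e₂ e₃ x (eta W x y)

/-- `x`-coordinate -/
def xc (W : WeierstrassCurve F) : W.toAffine.Point → F
  | 0 => 0
  | .some x _ _ => x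

namespace T3

variable {W : WeierstrassCurve F} {e₁ e₂ e₃ : F}

theorem rhoP_pt (h : T3 W e₁ e₂ e₃) (a₁ a₂ a₃ x η : F) (hη) :
    rhoP W a₁ a₂ a₃ (h.pt x η hη) = rho a₁ a₂ a₃ x η := by
  change rho a₁ a₂ a₃ x (eta W x ((η - W.a₁ * x - W.a₃) / 2)) = _
  rw [h.eta_half]

theorem xc_pt (h : T3 W e₁ e₂ e₃) (x η : F) (hη) : xc W (h.pt x η hη) = x := rfl

theorem pt_ne_zero (h : T3 W e₁ e₂ e₃) (x η : F) (hη) : h.pt x η hη ≠ 0 :=
  Affine.Point.some_ne_zero _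

theorem pt_inj (h : T3 W e₁ e₂ e₃) {x η x' η' : F} {h1 h2} (he : h.pt x η h1 = h.pt x' η' h2) :
    x = x' ∧ η = η' := by
  unfold pt at he
  rw [Affine.Point.some.injEq] at he
  obtain ⟨rfl, h3⟩ := he
  refine ⟨rfl, ?_⟩
  have h4 : eta W x ((η - W.a₁ * x - W.a₃) / 2) = eta W x ((η' - W.a₁ * x - W.a₃) / 2) := by
    rw [h3]
  rwa [h.eta_half, h.eta_half] at h4

theorem eq_zero_or_pt (h : T3 W e₁ e₂ e₃) (P : W.toAffine.Point) :
    P = 0 ∨ ∃ x η, ∃ hη, P = h.pt x η hη := by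
  rcases P with _ | ⟨x, y, hxy⟩
  · exact Or.inl rfl
  · exact Or.inr ⟨x, _, _, h.some_eq_pt hxy⟩

theorem T_eq (h : T3 W e₁ e₂ e₃) : h.T = h.pt e₁ 0 (by ring) := rfl
theorem T_ne_zero (h : T3 W e₁ e₂ e₃) : h.T ≠ 0 := h.pt_ne_zero _ _ _

theorem rotT_eq (h : T3 W e₁ e₂ e₃) : h.rot.T = h.pt e₂ 0 (by ring) := rfl
theorem rotrotT_eq (h : T3 W e₁ e₂ e₃) : h.rot.rot.T = h.pt e₃ 0 (by ring) := rfl

theorem T1_ne_T2 (h : T3 W e₁ e₂ e₃) : h.T ≠ h.rot.T := fun hc => h.h12 (h.pt_inj (h1 := by ring) (h2 := by ring) hc).1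
theorem T1_ne_T3 (h : T3 W e₁ e₂ e₃) : h.T ≠ h.rot.rot.T := fun hc => h.h13 (h.pt_inj (h1 := by ring) (h2 := by ring) hc).1
theorem T2_ne_T3 (h : T3 W e₁ e₂ e₃) : h.rot.T ≠ h.rot.rot.T := fun hc => h.h23 (h.pt_inj (h1 := by ring) (h2 := by ring) hc).1

variable [DecidableEq F]

theorem two_pt_ne_zero (h : T3 W e₁ e₂ e₃) {x η : F} {hη} (h0 : η ≠ 0) :
    h.pt x η hη + h.pt x η hη ≠ 0 := by
  obtain ⟨X, Y, hh, h2, -⟩ := h.two_pt_rho hη h0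
  rw [h2]; exact h.pt_ne_zero _ _ _

theorem two_torsion (h : T3 W e₁ e₂ e₃) {P : W.toAffine.Point} (hP : P + P = 0) :
    P = 0 ∨ P = h.T ∨ P = h.rot.T ∨ P = h.rot.rot.T := by
  rcases h.eq_zero_or_pt P with h1 | ⟨x, η, hη, rfl⟩
  · exact Or.inl h1
  · right
    by_cases h0 : η = 0
    · subst h0
      have h2 : (x - e₁) * (x - e₂) * (x - e₃) = 0 := by
        apply mul_left_cancel₀ h.h4
        rw [← hη]; ring
      rcases mul_eq_zero.mp h2 with h3 | h3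
      · rcases mul_eq_zero.mp h3 with h4 | h4
        · left
          have : x = e₁ := by linear_combination h4
          subst this; rfl
        · right; left
          have : x = e₂ := by linear_combination h4
          subst this; rfl
      · right; right
        have : x = e₃ := by linear_combination h3
        subst this; rfl
    · exact absurd hP (h.two_pt_ne_zero h0)

theorem T3_add_T1 (h : T3 W e₁ e₂ e₃) : h.rot.rot.T + h.T = h.rot.T := h.rot.rot.T_add_T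
theorem T2_add_T3 (h : T3 W e₁ e₂ e₃) : h.rot.T + h.rot.rot.T = h.T := h.rot.T_add_T

omit [DecidableEq F] in
theorem swap_T (h : T3 W e₁ e₂ e₃) : h.swap.T = h.T := rfl
omit [DecidableEq F] in
theorem swap_rot_T (h : T3 W e₁ e₂ e₃) : h.swap.rot.T = h.rot.rot.T := rfl
omit [DecidableEq F] in
theorem swap_rot_rot_T (h : T3 W e₁ e₂ e₃) : h.swap.rot.rot.T = h.rot.T := rfl

/-- a point which is not 2-torsion -/
theorem exists_pt_of_two_ne (h : T3 W e₁ e₂ e₃) {Q : W.toAffine.Point} (hQ : Q + Q ≠ 0) :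
    ∃ x η, ∃ hη, Q = h.pt x η hη ∧ η ≠ 0 ∧ x ≠ e₁ ∧ x ≠ e₂ ∧ x ≠ e₃ := by
  rcases h.eq_zero_or_pt Q with h1 | ⟨x, η, hη, rfl⟩
  · rw [h1, add_zero] at hQ; exact absurd rfl hQ
  · have h0 : η ≠ 0 := by
      rintro rfl; exact hQ (h.two_pt_of_zero _ _)
    refine ⟨x, η, hη, rfl, h0, ?_, ?_, ?_⟩ <;>
    · rintro rfl
      apply h0
      have : η ^ 2 = 0 := by rw [hη]; ring
      exact pow_eq_zero_iff two_ne_zero |>.mp this

theorem xc_two (h : T3 W e₁ e₂ e₃) {Q : W.toAffine.Point} (hQ : Q + Q ≠ 0) :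
    xc W (Q + Q) - e₁ = rhoP W e₁ e₂ e₃ Q ^ 2 := by
  obtain ⟨x, η, hη, rfl, h0, -⟩ := h.exists_pt_of_two_ne hQ
  obtain ⟨X, Y, hh, h2, h3, -⟩ := h.two_pt_rho hη h0
  rw [h2, h.rhoP_pt, h.xc_pt, h3]

theorem rhoP_add_T1 (h : T3 W e₁ e₂ e₃) {Q : W.toAffine.Point} (hQ : Q + Q ≠ 0) :
    rhoP W e₁ e₂ e₃ (Q + h.T) = rhoP W e₁ e₂ e₃ Q := by
  obtain ⟨x, η, hη, rfl, h0, hx, -⟩ := h.exists_pt_of_two_ne hQ
  obtain ⟨hh, h2⟩ := h.add_T hη hx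
  rw [h2, h.rhoP_pt, h.rhoP_pt, h.rho_add_T1 hx h0]

theorem rhoP_add_T2 (h : T3 W e₁ e₂ e₃) {Q : W.toAffine.Point} (hQ : Q + Q ≠ 0) :
    rhoP W e₁ e₂ e₃ (Q + h.rot.T) = -rhoP W e₁ e₂ e₃ Q := by
  obtain ⟨x, η, hη, rfl, h0, -, hx, -⟩ := h.exists_pt_of_two_ne hQ
  have hη' : η ^ 2 = 4 * ((x - e₂) * (x - e₃) * (x - e₁)) := by rw [hη]; ring
  obtain ⟨hh, h2⟩ := h.rot.add_T hη' hx
  have h3 : h.pt x η hη = h.rot.pt x η hη' := rfl
  rw [h3, h2, h.rot.rhoP_pt, h.rot.rhoP_pt]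
  exact h.rot.rho_add_T3 hx h0

theorem rhoP_add_T3 (h : T3 W e₁ e₂ e₃) {Q : W.toAffine.Point} (hQ : Q + Q ≠ 0) :
    rhoP W e₁ e₂ e₃ (Q + h.rot.rot.T) = -rhoP W e₁ e₂ e₃ Q := by
  obtain ⟨x, η, hη, rfl, h0, -, -, hx⟩ := h.exists_pt_of_two_ne hQ
  have hη' : η ^ 2 = 4 * ((x - e₃) * (x - e₁) * (x - e₂)) := by rw [hη]; ring
  obtain ⟨hh, h2⟩ := h.rot.rot.add_T hη' hx
  have h3 : h.pt x η hη = h.rot.rot.pt x η hη' := rfl
  rw [h3, h2, h.rot.rot.rhoP_pt, h.rot.rot.rhoP_pt]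
  exact h.rot.rot.rho_add_T2 hx h0

/-- the sign character `sgn₁` on the 2-torsion -/
def sgn (h : T3 W e₁ e₂ e₃) (P : W.toAffine.Point) : ℤˣ :=
  open scoped Classical in if P = 0 ∨ P = h.T then 1 else -1

theorem sgn_zero (h : T3 W e₁ e₂ e₃) : h.sgn 0 = 1 := by simp [sgn]
theorem sgn_T1 (h : T3 W e₁ e₂ e₃) : h.sgn h.T = 1 := by simp [sgn]
theorem sgn_T2 (h : T3 W e₁ e₂ e₃) : h.sgn h.rot.T = -1 := by
  simp [sgn, h.rot.T_ne_zero, h.T1_ne_T2.symm]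
theorem sgn_T3 (h : T3 W e₁ e₂ e₃) : h.sgn h.rot.rot.T = -1 := by
  simp [sgn, h.rot.rot.T_ne_zero, h.T1_ne_T3.symm]

theorem rhoP_add (h : T3 W e₁ e₂ e₃) {Q P : W.toAffine.Point} (hQ : Q + Q ≠ 0)
    (hP : P + P = 0) : rhoP W e₁ e₂ e₃ (Q + P) = ((h.sgn P : ℤ) : F) * rhoP W e₁ e₂ e₃ Q := by
  rcases h.two_torsion hP with rfl | rfl | rfl | rfl
  · rw [h.sgn_zero, add_zero]; simp
  · rw [h.sgn_T1, h.rhoP_add_T1 hQ]; simp
  · rw [h.sgn_T2, h.rhoP_add_T2 hQ]; simp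
  · rw [h.sgn_T3, h.rhoP_add_T3 hQ]; simp

theorem sgn_add (h : T3 W e₁ e₂ e₃) {P Q : W.toAffine.Point} (hP : P + P = 0) (hQ : Q + Q = 0) :
    h.sgn (P + Q) = h.sgn P * h.sgn Q := by
  have t11 := h.two_T
  have t22 := h.rot.two_T
  have t33 := h.rot.rot.two_T
  have t12 := h.T_add_T
  have t23 := h.T2_add_T3
  have t31 := h.T3_add_T1
  have t21 : h.rot.T + h.T = h.rot.rot.T := by rw [add_comm]; exact t12
  have t32 : h.rot.rot.T + h.rot.T = h.T := by rw [add_comm]; exact t23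
  have t13 : h.T + h.rot.rot.T = h.rot.T := by rw [add_comm]; exact t31
  rcases h.two_torsion hP with rfl | rfl | rfl | rfl <;>
  rcases h.two_torsion hQ with rfl | rfl | rfl | rfl <;>
  simp [t11, t22, t33, t12, t23, t31, t21, t32, t13, h.sgn_zero, h.sgn_T1, h.sgn_T2, h.sgn_T3]

/-- the first and second sign determine a 2-torsion point -/
theorem eq_of_sgn (h : T3 W e₁ e₂ e₃) {P Q : W.toAffine.Point} (hP : P + P = 0)
    (hQ : Q + Q = 0) (h1 : h.sgn P = h.sgn Q) (h2 : h.rot.sgn P = h.rot.sgn Q) : P = Q := by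
  have a1 := h.sgn_zero
  have a2 := h.sgn_T1
  have a3 := h.sgn_T2
  have a4 := h.sgn_T3
  have b1 := h.rot.sgn_zero
  have b2 := h.rot.sgn_T1
  have b3 := h.rot.sgn_T2
  have b4 : h.rot.sgn h.T = -1 := h.rot.sgn_T3
  rcases h.two_torsion hP with rfl | rfl | rfl | rfl <;>
  rcases h.two_torsion hQ with rfl | rfl | rfl | rfl <;>
  first
  | rfl
  | (exfalso
     simp [a1, a2, a3, a4, b1, b2, b3, b4] at h1 h2)

theorem sgn_mul_sgn_mul_sgn (h : T3 W e₁ e₂ e₃) {P : W.toAffine.Point} (hP : P + P = 0) :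
    h.sgn P * h.rot.sgn P * h.rot.rot.sgn P = 1 := by
  have a1 := h.sgn_zero
  have a2 := h.sgn_T1
  have a3 := h.sgn_T2
  have a4 := h.sgn_T3
  have b1 := h.rot.sgn_zero
  have b2 := h.rot.sgn_T1
  have b3 := h.rot.sgn_T2
  have b4 : h.rot.sgn h.T = -1 := h.rot.sgn_T3
  have c1 := h.rot.rot.sgn_zero
  have c2 := h.rot.rot.sgn_T1
  have c3 : h.rot.rot.sgn h.T = -1 := h.rot.rot.sgn_T2
  have c4 : h.rot.rot.sgn h.rot.T = -1 := h.rot.rot.sgn_T3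
  rcases h.two_torsion hP with rfl | rfl | rfl | rfl
  · rw [a1, b1, c1]; rfl
  · rw [a2, b4, c3]; rfl
  · rw [a3, b2, c4]; rfl
  · rw [a4, b3, c2]; rfl

end T3

end Vale.Agent.P014.H71
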